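import Mathlib

/-!
Averages over the classes of an equivalence relation on a finite type: they are self-adjoint
projections, and two of them commute when the relations swap uniquely.
-/

noncomputable section

open Finset
open scoped Classical

namespace Vale.Agent.P335.Quad

variable {α : Type*} [Fintype α]

/-- The class of a point. -/
def cl (r : α → α → Prop) (x : α) : Finset α := univ.filter (r x)

/-- The average over the class. -/
def av (r : α → α → Prop) (f : α → ℝ) (x : α) : ℝ := (∑ y ∈ cl r x, f y) / (cl r x).card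

variable {r s : α → α → Prop}

theorem mem_cl {x y : α} : y ∈ cl r x ↔ r x y := by simp [cl]

theorem cl_eq (hr : Equivalence r) {x y : α} (h : r x y) : cl r x = cl r y := by
  ext z
  rw [mem_cl, mem_cl]
  exact ⟨fun h' => hr.trans (hr.symm h) h', fun h' => hr.trans h h'⟩

theorem card_cl_pos (hr : Equivalence r) (x : α) : (0 : ℝ) < (cl r x).card := by
  exact_mod_cast Finset.card_pos.2 ⟨x, mem_cl.2 (hr.refl x)⟩

theorem av_eq (hr : Equivalence r) (f : α → ℝ) {x y : α} (h : r x y) : av r f x = av r f y := by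
  rw [av, av, cl_eq hr h]

theorem av_sub (r : α → α → Prop) (f g : α → ℝ) :
    av r (fun x => f x - g x) = fun x => av r f x - av r g x := by
  funext x
  simp [av, Finset.sum_sub_distrib, sub_div]

theorem av_mul {k : α → ℝ} (hk : ∀ x y, r x y → k x = k y) (f : α → ℝ) :
    av r (fun x => k x * f x) = fun x => k x * av r f x := by
  funext x
  rw [av, av, mul_div, Finset.mul_sum]
  congr 1
  exact Finset.sum_congr rfl fun y hy => by rw [hk x y (mem_cl.1 hy)]

theorem av_of_const (hr : Equivalence r) {k : α → ℝ} (hk : ∀ x y, r x y → k x = k y) :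
    av r k = k := by
  funext x
  rw [av, Finset.sum_congr rfl fun y hy => (hk x y (mem_cl.1 hy)).symm, Finset.sum_const,
    nsmul_eq_mul, mul_div_cancel_left₀ _ (card_cl_pos hr x).ne']

theorem av_adj (hr : Equivalence r) (f g : α → ℝ) :
    ∑ x, av r f x * g x = ∑ x, f x * av r g x := by
  have e1 : ∀ x, av r f x * g x = ∑ y, if r x y then f y * g x / (cl r x).card else 0 := by
    intro x
    rw [← Finset.sum_filter]
    change av r f x * g x = ∑ y ∈ cl r x, _
    rw [av, div_mul_eq_mul_div, Finset.sum_mul, Finset.sum_div]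
  have e2 : ∀ x, f x * av r g x = ∑ y, if r x y then f x * g y / (cl r x).card else 0 := by
    intro x
    rw [← Finset.sum_filter]
    change f x * av r g x = ∑ y ∈ cl r x, _
    rw [av, mul_div, Finset.mul_sum, Finset.sum_div]
  rw [Finset.sum_congr rfl fun x _ => e1 x, Finset.sum_congr rfl fun x _ => e2 x, Finset.sum_comm]
  refine Finset.sum_congr rfl fun x _ => Finset.sum_congr rfl fun y _ => ?_
  by_cases h : r x y
  · rw [if_pos h, if_pos (hr.symm h), cl_eq hr h]
  · rw [if_neg h, if_neg fun h' => h (hr.symm h')]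

/-- A coarser average absorbs a finer one. -/
theorem av_av_of_le (hr : Equivalence r) (hs : Equivalence s) (hle : ∀ x y, r x y → s x y)
    (f : α → ℝ) : av r (av s f) = av s f ∧ av s (av r f) = av s f := by
  refine ⟨av_of_const hr fun x y h => av_eq hs f (hle x y h), ?_⟩
  funext x
  simp only [av]
  congr 1
  have h1 : ∀ h : α → ℝ, ∑ y ∈ cl s x, h y = ∑ y, h y * (if s x y then (1 : ℝ) else 0) := fun h => by
    simp [cl, Finset.sum_filter]
  change ∑ y ∈ cl s x, av r f y = _
  rw [h1, h1, av_adj hr, av_of_const hr fun y z h => ?_]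
  have hiff : s x y ↔ s x z :=
    ⟨fun h' => hs.trans h' (hle y z h), fun h' => hs.trans h' (hs.symm (hle y z h))⟩
  simp only [hiff]

theorem av_idem (hr : Equivalence r) (f : α → ℝ) : av r (av r f) = av r f :=
  (av_av_of_le hr hr (fun _ _ h => h) f).1

/-- Averages commute at the points of an invariant set on which the relations swap uniquely. -/
theorem av_comm_at (hr : Equivalence r) (hs : Equivalence s) {R : α → Prop}
    (hRr : ∀ x y, r x y → R x → R y) (hRs : ∀ x y, s x y → R x → R y)
    (huniq : ∀ x y, R x → r x y → s x y → x = y)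
    (hrs : ∀ x y z, R x → r x y → s y z → ∃ w, s x w ∧ r w z)
    (hsr : ∀ x y z, R x → s x y → r y z → ∃ w, r x w ∧ s w z)
    (f : α → ℝ) {x : α} (hx : R x) : av r (av s f) x = av s (av r f) x := by
  have hcs : ∀ x y, R x → r x y → (cl s y).card ≤ (cl s x).card := by
    intro x y hx hy
    choose! w hw1 hw2 using fun z => hrs x y z hx hy
    refine Finset.card_le_card_of_injOn w (fun z hz => mem_cl.2 (hw1 z (mem_cl.1 hz))) ?_
    intro z hz z' hz' e
    have hz1 : s y z := mem_cl.1 hz
    have hz2 : s y z' := mem_cl.1 hz'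
    refine huniq z z' (hRs y z hz1 (hRr x y hy hx)) ?_ (hs.trans (hs.symm hz1) hz2)
    have a1 := hw2 z hz1
    rw [e] at a1
    exact hr.trans (hr.symm a1) (hw2 z' hz2)
  have hcr : ∀ x y, R x → s x y → (cl r y).card ≤ (cl r x).card := by
    intro x y hx hy
    choose! w hw1 hw2 using fun z => hsr x y z hx hy
    refine Finset.card_le_card_of_injOn w (fun z hz => mem_cl.2 (hw1 z (mem_cl.1 hz))) ?_
    intro z hz z' hz' e
    have hz1 : r y z := mem_cl.1 hz
    have hz2 : r y z' := mem_cl.1 hz'
    refine huniq z z' (hRr y z hz1 (hRs x y hy hx)) (hr.trans (hr.symm hz1) hz2) ?_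
    have a1 := hw2 z hz1
    rw [e] at a1
    exact hs.trans (hs.symm a1) (hw2 z' hz2)
  have es : ∀ y ∈ cl r x, (cl s y).card = (cl s x).card := fun y hy =>
    le_antisymm (hcs x y hx (mem_cl.1 hy))
      (hcs y x (hRr x y (mem_cl.1 hy) hx) (hr.symm (mem_cl.1 hy)))
  have er : ∀ w ∈ cl s x, (cl r w).card = (cl r x).card := fun w hw =>
    le_antisymm (hcr x w hx (mem_cl.1 hw))
      (hcr w x (hRs x w (mem_cl.1 hw) hx) (hs.symm (mem_cl.1 hw)))
  have d1 : ((cl r x : Finset α) : Set α).PairwiseDisjoint (cl s) := by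
    intro y hy y' hy' hne
    refine Finset.disjoint_left.2 fun z hz hz' => hne ?_
    exact huniq y y' (hRr x y (mem_cl.1 hy) hx) (hr.trans (hr.symm (mem_cl.1 hy)) (mem_cl.1 hy'))
      (hs.trans (mem_cl.1 hz) (hs.symm (mem_cl.1 hz')))
  have d2 : ((cl s x : Finset α) : Set α).PairwiseDisjoint (cl r) := by
    intro y hy y' hy' hne
    refine Finset.disjoint_left.2 fun z hz hz' => hne ?_
    exact huniq y y' (hRs x y (mem_cl.1 hy) hx) (hr.trans (mem_cl.1 hz) (hr.symm (mem_cl.1 hz')))
      (hs.trans (hs.symm (mem_cl.1 hy)) (mem_cl.1 hy'))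
  have eC : (cl r x).biUnion (cl s) = (cl s x).biUnion (cl r) := by
    ext z
    simp only [Finset.mem_biUnion, mem_cl]
    exact ⟨fun ⟨y, h1, h2⟩ => hrs x y z hx h1 h2, fun ⟨y, h1, h2⟩ => hsr x y z hx h1 h2⟩
  simp only [av]
  rw [Finset.sum_congr rfl fun y hy => by rw [es y hy],
    Finset.sum_congr (s₁ := cl s x) rfl fun y hy => by rw [er y hy], ← Finset.sum_div,
    ← Finset.sum_div, div_div, div_div, ← Finset.sum_biUnion d1, ← Finset.sum_biUnion d2, eC,
    mul_comm (((cl s x).card : ℕ) : ℝ)]

/-- Averages commute when the relations always swap uniquely. -/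
theorem av_comm (hr : Equivalence r) (hs : Equivalence s)
    (huniq : ∀ x y, r x y → s x y → x = y) (hrs : ∀ x y z, r x y → s y z → ∃ w, s x w ∧ r w z)
    (hsr : ∀ x y z, s x y → r y z → ∃ w, r x w ∧ s w z) (f : α → ℝ) :
    av r (av s f) = av s (av r f) :=
  funext fun x => av_comm_at hr hs (R := fun _ => True) (fun _ _ _ _ => trivial)
    (fun _ _ _ _ => trivial) (fun x y _ => huniq x y) (fun x y z _ => hrs x y z)
    (fun x y z _ => hsr x y z) f trivial

/-- An average commutes with an automorphism of its relation. -/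
theorem av_comp (e : Equiv.Perm α) (he : ∀ x y, r x y → r (e x) (e y))
    (he' : ∀ x y, r x y → r (e.symm x) (e.symm y)) (f : α → ℝ) :
    av r (fun x => f (e x)) = fun x => av r f (e x) := by
  funext x
  simp only [av]
  have h : cl r (e x) = (cl r x).map e.toEmbedding := by
    ext y
    simp only [mem_cl, Finset.mem_map, Equiv.coe_toEmbedding]
    refine ⟨fun hy => ⟨e.symm y, ?_, e.apply_symm_apply y⟩, fun ⟨z, hz, hzy⟩ => hzy ▸ he x z hz⟩
    simpa using he' _ _ hy
  rw [h, Finset.sum_map, Finset.card_map]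
  rfl

/-- An averaged function has a smaller sum of squares. -/
theorem sum_sq_av_le (hr : Equivalence r) (f : α → ℝ) : ∑ x, av r f x ^ 2 ≤ ∑ x, f x ^ 2 := by
  have h : ∑ x, av r f x * f x = ∑ x, av r f x * av r f x := by
    conv_rhs => rw [av_adj hr, av_idem hr]
    exact Finset.sum_congr rfl fun x _ => mul_comm _ _
  have h0 : 0 ≤ ∑ x, (f x - av r f x) ^ 2 := Finset.sum_nonneg fun x _ => sq_nonneg _
  simp only [sub_sq, Finset.sum_add_distrib, Finset.sum_sub_distrib] at h0
  have e : ∑ x, 2 * f x * av r f x = 2 * ∑ x, av r f x * av r f x := by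
    rw [← h, Finset.mul_sum]
    exact Finset.sum_congr rfl fun x _ => by ring
  simp only [← sq] at e
  rw [e] at h0
  linarith

/-- Two commuting symmetric projections have nonnegative product. -/
theorem ip_eq_sq {A B : (α → ℝ) → α → ℝ} (hA : ∀ u v, ∑ x, A u x * v x = ∑ x, u x * A v x)
    (hB : ∀ u v, ∑ x, B u x * v x = ∑ x, u x * B v x) (hAA : ∀ u, A (A u) = A u)
    (hBB : ∀ u, B (B u) = B u) {f : α → ℝ} (hAB : A (B f) = B (A f)) :
    ∑ x, A f x * B f x = ∑ x, A (B f) x ^ 2 := by
  have h : ∑ x, A (B f) x ^ 2 = ∑ x, B f x * A (B f) x := by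
    simp only [sq]
    rw [hA, hAA]
  rw [h]
  conv_rhs => rw [hAB, ← hB, hBB]
  exact Finset.sum_congr rfl fun x _ => mul_comm _ _

theorem sub_av_adj (hr : Equivalence r) (u v : α → ℝ) :
    ∑ x, (u x - av r u x) * v x = ∑ x, u x * (v x - av r v x) := by
  simp only [sub_mul, mul_sub, Finset.sum_sub_distrib]
  rw [av_adj hr]

theorem sub_av_idem (hr : Equivalence r) (u : α → ℝ) :
    (fun x => (u x - av r u x) - av r (fun y => u y - av r u y) x) = fun x => u x - av r u x := by
  funext x
  rw [congrFun (av_sub r u (av r u)) x, av_idem hr]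
  ring

end Vale.Agent.P335.Quad
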