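import Mathlib.Analysis.SpecialFunctions.Log.Basic
import Mathlib.Analysis.SpecialFunctions.Exp
import Mathlib.Algebra.BigOperators.Field
import Mathlib.LinearAlgebra.Matrix.Symmetric
import Mathlib.Tactic
import Mathlib.Algebra.Order.Chebyshev
import Mathlib.Analysis.Complex.ExponentialBounds

/-!
A lazy symmetric stochastic matrix with a Poincare inequality mixes in time
of order the Poincare constant times the logarithm of the number of states.
-/

namespace Vale.Agent.P335

open Finset Matrix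

variable {α : Type*} [Fintype α] [DecidableEq α]

theorem sum_sq_sub (f : α → ℝ) :
    ∑ x, ∑ y, (f x - f y) ^ 2 =
      2 * (Fintype.card α : ℝ) * ∑ x, f x ^ 2 - 2 * (∑ x, f x) ^ 2 := by
  simp only [sub_sq, sum_add_distrib, sum_sub_distrib, sum_const, card_univ, nsmul_eq_mul,
    mul_assoc, ← mul_sum, ← sum_mul]
  ring

theorem weighted_sq_sub {P : Matrix α α ℝ} (hs : ∀ x y, P x y = P y x) (h1 : ∀ x, ∑ y, P x y = 1)
    (f : α → ℝ) :
    ∑ x, ∑ y, P x y * (f x - f y) ^ 2 =
      2 * ∑ x, f x ^ 2 - 2 * ∑ x, f x * ∑ y, P x y * f y := by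
  have e : ∀ x y, P x y * (f x - f y) ^ 2 =
      f x ^ 2 * P x y - 2 * (f x * (P x y * f y)) + P x y * f y ^ 2 := fun x y => by ring
  simp only [e, sum_add_distrib, sum_sub_distrib, ← mul_sum, h1, mul_one]
  rw [sum_comm (f := fun x y => P x y * f y ^ 2)]
  simp only [fun x y => hs y x, ← sum_mul, h1, one_mul]
  ring

/-- One step of a lazy chain loses at least the Dirichlet form. -/
theorem sum_sq_step_le {P : Matrix α α ℝ} (h0 : ∀ x y, 0 ≤ P x y) (hs : ∀ x y, P x y = P y x)
    (h1 : ∀ x, ∑ y, P x y = 1) (hl : ∀ x, 1 / 2 ≤ P x x) (f : α → ℝ) :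
    ∑ x, (∑ y, P x y * f y) ^ 2 ≤ ∑ x, f x * ∑ y, P x y * f y := by
  let Q : α → α → ℝ := fun x y => 2 * P x y - if x = y then 1 else 0
  have hQ0 : ∀ x y, 0 ≤ Q x y := fun x y => by
    by_cases h : x = y
    · subst h; simp only [Q, if_pos]; linarith [hl x]
    · simp only [Q, if_neg h, sub_zero]; linarith [h0 x y]
  have hQ1 : ∀ x, ∑ y, Q x y = 1 := fun x => by
    simp only [Q, sum_sub_distrib, ← mul_sum, h1, sum_ite_eq, mem_univ, if_true]
    norm_num
  have hQ : ∀ x, ∑ y, Q x y * f y = 2 * (∑ y, P x y * f y) - f x := fun x => by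
    simp only [Q, sub_mul, sum_sub_distrib, mul_assoc, ← mul_sum, ite_mul, one_mul, zero_mul,
      sum_ite_eq, mem_univ, if_true]
  have hQs : ∀ x y, Q x y = Q y x := fun x y => by simp [Q, hs x y, eq_comm]
  have key : ∑ x, (∑ y, Q x y * f y) ^ 2 ≤ ∑ x, f x ^ 2 := by
    calc ∑ x, (∑ y, Q x y * f y) ^ 2 ≤ ∑ x, (∑ y, Q x y) * ∑ y, Q x y * f y ^ 2 := by
          refine sum_le_sum fun x _ => sum_sq_le_sum_mul_sum_of_sq_le_mul _ (fun y _ => hQ0 x y)
            (fun y _ => mul_nonneg (hQ0 x y) (sq_nonneg _)) fun y _ => le_of_eq ?_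
          ring
      _ = ∑ y, (∑ x, Q x y) * f y ^ 2 := by
          simp only [hQ1, one_mul]
          rw [sum_comm]
          simp only [sum_mul]
      _ = _ := by simp only [fun y x => hQs x y, hQ1, one_mul]
  simp only [hQ] at key
  have e : ∀ x, (2 * (∑ y, P x y * f y) - f x) ^ 2 =
      4 * (∑ y, P x y * f y) ^ 2 - 4 * (f x * ∑ y, P x y * f y) + f x ^ 2 := fun x => by ring
  simp only [e, sum_add_distrib, sum_sub_distrib, ← mul_sum] at key
  linarith

/-- A lazy symmetric stochastic matrix with Poincare constant `K` is within total variation `1/4`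
of uniform after `K * (log card + 2)` steps. -/
theorem mix_of_poincare [Nonempty α] {P : Matrix α α ℝ} (h0 : ∀ x y, 0 ≤ P x y)
    (hs : ∀ x y, P x y = P y x) (h1 : ∀ x, ∑ y, P x y = 1) (hl : ∀ x, 1 / 2 ≤ P x x)
    {K : ℝ} (hK : 0 < K)
    (hP : ∀ f : α → ℝ, (∑ x, ∑ y, (f x - f y) ^ 2) / (Fintype.card α : ℝ) ≤
      K * ∑ x, ∑ y, P x y * (f x - f y) ^ 2)
    {t : ℕ} (ht : K * (Real.log (Fintype.card α) + 2) ≤ t) (x : α) :
    (1 / 2) * ∑ y, |(P ^ t) x y - (Fintype.card α : ℝ)⁻¹| ≤ 1 / 4 := by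
  set N : ℝ := (Fintype.card α : ℝ) with hN
  have hN0 : 0 < N := Nat.cast_pos.2 Fintype.card_pos
  let f : ℕ → α → ℝ := fun s y => (P ^ s) x y - N⁻¹
  have hstep : ∀ s y, f (s + 1) y = ∑ z, P y z * f s z := fun s y => by
    simp only [f, pow_succ, Matrix.mul_apply, mul_sub, sum_sub_distrib, ← sum_mul, h1, one_mul]
    exact congrArg (· - N⁻¹) (sum_congr rfl fun z _ => by rw [hs z y, mul_comm])
  have hmean : ∀ s, ∑ y, f s y = 0 := fun s => by
    induction s with
    | zero => simp [f, Matrix.one_apply, hN]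
    | succ s ih =>
      simp only [hstep]
      rw [sum_comm]
      simp only [← sum_mul, fun z y => hs y z, h1, one_mul, ih]
  have hdec : ∀ s, ∑ y, f s y ^ 2 ≤ Real.exp (-(s / K)) := fun s => by
    induction s with
    | zero =>
      have e : ∀ y, f 0 y ^ 2 = (1 - 2 * N⁻¹) * (if x = y then 1 else 0) + N⁻¹ ^ 2 := fun y => by
        simp only [f, pow_zero, Matrix.one_apply]
        split_ifs <;> ring
      simp only [e, sum_add_distrib, ← mul_sum, sum_ite_eq, mem_univ, if_true, sum_const,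
        card_univ, nsmul_eq_mul, ← hN]
      norm_num
      have : N * (N ^ 2)⁻¹ = N⁻¹ := by field_simp
      rw [this]
      linarith [inv_pos.2 hN0]
    | succ s ih =>
      have h2 := hP (f s)
      rw [sum_sq_sub, hmean, weighted_sq_sub hs h1, ← hN] at h2
      have h3 := sum_sq_step_le h0 hs h1 hl (f s)
      simp only [← hstep] at h2 h3
      have h4 : ∑ y, f s y ^ 2 ≤ K * (∑ y, f s y ^ 2 - ∑ y, f s y * f (s + 1) y) := by
        have e : (2 * N * ∑ y, f s y ^ 2 - 2 * 0 ^ 2) / N = 2 * ∑ y, f s y ^ 2 := by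
          field_simp; ring
        rw [e] at h2
        linarith
      have h5 : ∑ y, f (s + 1) y ^ 2 ≤ (1 - K⁻¹) * ∑ y, f s y ^ 2 := by
        have : K⁻¹ * ∑ y, f s y ^ 2 ≤ ∑ y, f s y ^ 2 - ∑ y, f s y * f (s + 1) y := by
          rw [inv_mul_le_iff₀ hK]; exact h4
        nlinarith
      refine h5.trans ((mul_le_mul_of_nonneg_right (Real.one_sub_le_exp_neg K⁻¹)
        (sum_nonneg fun y _ => sq_nonneg _)).trans ?_)
      refine (mul_le_mul_of_nonneg_left ih (Real.exp_pos _).le).trans (le_of_eq ?_)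
      rw [← Real.exp_add]
      congr 1
      push_cast
      field_simp
      ring
  have hcs : (∑ y, |f t y|) ^ 2 ≤ N * ∑ y, f t y ^ 2 := by
    have := sq_sum_le_card_mul_sum_sq (s := (univ : Finset α)) (f := fun y => |f t y|)
    simpa [sq_abs, card_univ, ← hN] using this
  have hexp : N * Real.exp (-(t / K)) ≤ (1 / 2 : ℝ) ^ 2 := by
    have h4 : Real.log 4 ≤ 2 := by
      rw [show (4 : ℝ) = 2 * 2 by norm_num, Real.log_mul two_ne_zero two_ne_zero]
      linarith [Real.log_two_lt_d9]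
    have h6 : Real.log N + 2 ≤ t / K := by rw [le_div_iff₀ hK]; linarith
    calc N * Real.exp (-(t / K)) ≤ N * Real.exp (-(Real.log N + Real.log 4)) := by
          refine mul_le_mul_of_nonneg_left (Real.exp_le_exp.2 ?_) hN0.le
          linarith
      _ = _ := by
          rw [Real.exp_neg, Real.exp_add, Real.exp_log hN0, Real.exp_log (by norm_num)]
          field_simp
          ring
  have h7 : (∑ y, |f t y|) ^ 2 ≤ (1 / 2 : ℝ) ^ 2 :=
    hcs.trans ((mul_le_mul_of_nonneg_left (hdec t) hN0.le).trans hexp)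
  have h8 := abs_le_of_sq_le_sq' h7 (by norm_num)
  simp only [f] at h8
  linarith [h8.2]

end Vale.Agent.P335
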