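import Vale.Agent.P335.Defs

/-!
The class of a vertex pair is a slice: its members correspond to the subsets, of a fixed size, of
the free vertices, those joined to exactly one vertex of the pair.
-/

noncomputable section

open Finset
open scoped Classical

namespace Vale.Agent.P335

variable {n : ℕ} {d : Fin n → ℕ} {a b : Fin n}

/-- The free vertices of a pair: those outside it with exactly one neighbour in it. -/
def free (a b : Fin n) (G : SimpleGraph (Fin n)) : Finset (Fin n) :=
  univ.filter fun c => c ≠ a ∧ c ≠ b ∧ (G.Adj a c ↔ ¬G.Adj b c)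

/-- The free vertices joined to the first vertex. -/
def priv (a b : Fin n) (G : SimpleGraph (Fin n)) : Finset (Fin n) :=
  (free a b G).filter fun c => G.Adj a c

/-- Adjacency after the free vertices in `A` are given to `a` and the others to `b`. -/
def relAdj (a b : Fin n) (G : SimpleGraph (Fin n)) (A : Finset (Fin n)) (i j : Fin n) : Prop :=
  if i = a ∧ j ∈ free a b G then j ∈ A
  else if i = b ∧ j ∈ free a b G then j ∉ A
  else if j = a ∧ i ∈ free a b G then i ∈ A
  else if j = b ∧ i ∈ free a b G then i ∉ A
  else G.Adj i j

theorem not_mem_free_left (G : SimpleGraph (Fin n)) : a ∉ free a b G := by simp [free]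

theorem not_mem_free_right (G : SimpleGraph (Fin n)) : b ∉ free a b G := by simp [free]

theorem priv_subset (G : SimpleGraph (Fin n)) : priv a b G ⊆ free a b G := filter_subset _ _

/-- The graph after the reassignment. -/
def relabel (a b : Fin n) (_hab : a ≠ b) (G : SimpleGraph (Fin n)) (A : Finset (Fin n)) :
    SimpleGraph (Fin n) where
  Adj := relAdj a b G A
  symm := ⟨fun i j h => by
    have ha := not_mem_free_left (a := a) (b := b) G
    have hb := not_mem_free_right (a := a) (b := b) G
    unfold relAdj at *
    split_ifs at h ⊢ <;> grind [SimpleGraph.adj_comm]⟩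
  loopless := ⟨fun i h => by
    have ha := not_mem_free_left (a := a) (b := b) G
    have hb := not_mem_free_right (a := a) (b := b) G
    unfold relAdj at h
    split_ifs at h <;> grind [SimpleGraph.irrefl]⟩

variable {hab : a ≠ b} {G : SimpleGraph (Fin n)} {A : Finset (Fin n)}

theorem relabel_adj {i j : Fin n} : (relabel a b hab G A).Adj i j ↔ relAdj a b G A i j := Iff.rfl

theorem nbrs_relabel_left (hA : A ⊆ free a b G) :
    nbrs (relabel a b hab G A) a = (nbrs G a \ free a b G) ∪ A := by
  ext j
  have hb := not_mem_free_right (a := a) (b := b) G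
  simp only [nbrs, mem_filter, mem_univ, true_and, mem_union, mem_sdiff, relabel_adj, relAdj]
  have := @hA j
  have ha := not_mem_free_left (a := a) (b := b) G
  split_ifs <;> grind

theorem nbrs_relabel_right (hA : A ⊆ free a b G) :
    nbrs (relabel a b hab G A) b = (nbrs G b \ free a b G) ∪ (free a b G \ A) := by
  ext j
  have ha := not_mem_free_left (a := a) (b := b) G
  have hb := not_mem_free_right (a := a) (b := b) G
  simp only [nbrs, mem_filter, mem_univ, true_and, mem_union, mem_sdiff, relabel_adj, relAdj]
  have := @hA j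
  split_ifs <;> grind

theorem mem_free {c : Fin n} :
    c ∈ free a b G ↔ c ≠ a ∧ c ≠ b ∧ (G.Adj a c ↔ ¬G.Adj b c) := by simp [free]

theorem card_nbrs_relabel (hA : A ∈ (free a b G).powersetCard (priv a b G).card) (i : Fin n) :
    (nbrs (relabel a b hab G A) i).card = (nbrs G i).card := by
  obtain ⟨hs, hc⟩ := mem_powersetCard.1 hA
  by_cases hia : i = a
  · subst hia
    rw [nbrs_relabel_left hs, card_union_of_disjoint (disjoint_left.2 fun x h h' =>
      (mem_sdiff.1 h).2 (hs h')), hc, ← card_sdiff_add_card_inter (nbrs G i) (free i b G)]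
    congr 2
    ext x
    simp [priv, nbrs, and_comm]
  by_cases hib : i = b
  · subst hib
    rw [nbrs_relabel_right hs, card_union_of_disjoint (disjoint_left.2 fun x h h' =>
      (mem_sdiff.1 h).2 (mem_sdiff.1 h').1), ← card_sdiff_add_card_inter (nbrs G i) (free a i G)]
    congr 1
    rw [card_sdiff_of_subset hs, hc, ← card_sdiff_of_subset (priv_subset G)]
    congr 1
    ext x
    simp only [priv, nbrs, mem_sdiff, mem_filter, mem_univ, true_and, mem_inter]
    have := mem_free (a := a) (b := i) (G := G) (c := x)
    grind
  by_cases hf : i ∈ free a b G ∧ ¬(G.Adj a i ↔ i ∈ A)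
  · have hswap : nbrs (relabel a b hab G A) i = (nbrs G i).map (Equiv.swap a b).toEmbedding := by
      ext j
      rw [mem_map_equiv, Equiv.symm_swap]
      simp only [nbrs, mem_filter, mem_univ, true_and, relabel_adj, relAdj, Equiv.swap_apply_def]
      have := mem_free (a := a) (b := b) (G := G) (c := i)
      split_ifs <;> grind [SimpleGraph.adj_comm]
    rw [hswap, card_map]
  · refine congrArg card ?_
    ext j
    simp only [nbrs, mem_filter, mem_univ, true_and, relabel_adj, relAdj]
    have := mem_free (a := a) (b := b) (G := G) (c := i)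
    split_ifs <;> grind [SimpleGraph.adj_comm]

/-- The member of the class given by a subset, at a state. -/
def member (a b : Fin n) (hab : a ≠ b) (G : Graphs d)
    (A : {A // A ∈ (free a b G.1).powersetCard (priv a b G.1).card}) : Graphs d :=
  ⟨relabel a b hab G.1 A.1, fun i => (card_nbrs_relabel A.2 i).trans (G.2 i)⟩

theorem free_relabel (_hA : A ⊆ free a b G) :
    free a b (relabel a b hab G A) = free a b G := by
  ext c
  simp only [mem_free, relabel_adj, relAdj]
  have := mem_free (a := a) (b := b) (G := G) (c := c)
  split_ifs <;> grind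

theorem priv_relabel (hA : A ⊆ free a b G) : priv a b (relabel a b hab G A) = A := by
  ext c
  simp only [priv, free_relabel hA, mem_filter, relabel_adj, relAdj]
  have := @hA c
  split_ifs <;> grind

/-- The free vertices are constant on a class, and so is the number of those given to `a`. -/
theorem SameRest.free_eq (hab : a ≠ b) {G G' : Graphs d} (h : SameRest a b G G') :
    free a b G'.1 = free a b G.1 ∧ (priv a b G'.1).card = (priv a b G.1).card ∧
      ∀ c, c ≠ a → c ≠ b → c ∉ free a b G.1 →
        (G.1.Adj a c ↔ G'.1.Adj a c) ∧ (G.1.Adj b c ↔ G'.1.Adj b c) := by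
  -- the edges of `c` to the pair
  have cnt : ∀ c, c ≠ a → c ≠ b →
      (nbrs G.1 c ∩ {a, b}).card = (nbrs G'.1 c ∩ {a, b}).card := fun c ha hb => by
    have e : nbrs G.1 c \ {a, b} = nbrs G'.1 c \ {a, b} := by
      ext j
      simp only [nbrs, mem_sdiff, mem_filter, mem_univ, true_and, mem_insert, mem_singleton]
      by_cases hj : j = a ∨ j = b
      · tauto
      have := h c j (by simp [Across, ha, hb]) (by unfold Across; tauto)
      tauto
    have h1 := card_sdiff_add_card_inter (nbrs G.1 c) {a, b}
    have h2 := card_sdiff_add_card_inter (nbrs G'.1 c) {a, b}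
    rw [G.2 c, e] at h1
    rw [G'.2 c] at h2
    omega
  have num : ∀ (H : SimpleGraph (Fin n)) c, c ≠ a → c ≠ b → (nbrs H c ∩ {a, b}).card =
      (if H.Adj a c then 1 else 0) + if H.Adj b c then 1 else 0 := fun H c _ _ => by
    have e : nbrs H c ∩ {a, b} = ({a, b} : Finset (Fin n)).filter fun i => H.Adj i c := by
      ext j; simp [nbrs, H.adj_comm c j]; tauto
    rw [e, card_filter, sum_pair hab]
  have iff' : ∀ c, c ≠ a → c ≠ b → ((G.1.Adj a c ↔ ¬G.1.Adj b c) ↔ (G'.1.Adj a c ↔ ¬G'.1.Adj b c)) ∧
      (¬(G.1.Adj a c ↔ ¬G.1.Adj b c) →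
        (G.1.Adj a c ↔ G'.1.Adj a c) ∧ (G.1.Adj b c ↔ G'.1.Adj b c)) := fun c ha hb => by
    have := cnt c ha hb
    rw [num _ c ha hb, num _ c ha hb] at this
    split_ifs at this <;> simp_all
  have hfree : free a b G'.1 = free a b G.1 := by
    ext c
    simp only [mem_free]
    exact and_congr_right fun ha => and_congr_right fun hb => (iff' c ha hb).1.symm
  refine ⟨hfree, ?_, fun c ha hb hc => (iff' c ha hb).2 fun hh => hc (mem_free.2 ⟨ha, hb, hh⟩)⟩
  have e : nbrs G.1 a \ free a b G.1 = nbrs G'.1 a \ free a b G.1 := by
    ext c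
    simp only [nbrs, mem_sdiff, mem_filter, mem_univ, true_and]
    by_cases hc : c = a ∨ c = b
    · have := h a c (by simp [Across, hc]) (by unfold Across; tauto)
      tauto
    · push Not at hc
      have := iff' c hc.1 hc.2
      have := mem_free (a := a) (b := b) (G := G.1) (c := c)
      tauto
  have k : ∀ H : SimpleGraph (Fin n), priv a b H = nbrs H a ∩ free a b H := fun H => by
    ext c; simp [priv, nbrs, and_comm]
  have h1 := card_sdiff_add_card_inter (nbrs G.1 a) (free a b G.1)
  have h2 := card_sdiff_add_card_inter (nbrs G'.1 a) (free a b G.1)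
  rw [G.2 a, e] at h1
  rw [G'.2 a] at h2
  rw [k, k, hfree]
  omega

theorem sameRest_member (G : Graphs d) (A) : SameRest a b G (member a b hab G A) := by
  intro i j h1 h2
  simp only [member, relabel_adj, relAdj]
  have := mem_free (a := a) (b := b) (G := G.1) (c := i)
  have := mem_free (a := a) (b := b) (G := G.1) (c := j)
  unfold Across at h1 h2
  split_ifs <;> grind

/-- A class is the image of the slice. -/
theorem member_bijective (a b : Fin n) (hab : a ≠ b) (G : Graphs d) :
    Set.BijOn (member a b hab G) Set.univ (cls a b G) := by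
  refine ⟨fun A _ => ?_, fun A _ B _ e => ?_, fun G' hG' => ?_⟩
  · simp only [cls, coe_filter, mem_univ, true_and, Set.mem_ofPred_eq]
    exact sameRest_member G A
  · refine Subtype.ext ?_
    rw [← priv_relabel (hab := hab) (mem_powersetCard.1 A.2).1,
      ← priv_relabel (hab := hab) (mem_powersetCard.1 B.2).1]
    exact congrArg (fun H : Graphs d => priv a b H.1) e
  · have hs : SameRest a b G G' := by simpa [cls] using hG'
    obtain ⟨hf, hk, hout⟩ := hs.free_eq hab
    refine ⟨⟨priv a b G'.1, mem_powersetCard.2 ⟨hf ▸ priv_subset G'.1, hk⟩⟩, trivial, ?_⟩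
    refine Subtype.ext (SimpleGraph.ext (funext fun i => funext fun j => propext ?_))
    simp only [member, relabel_adj, relAdj, priv, mem_filter, hf]
    have fi := mem_free (a := a) (b := b) (G := G'.1) (c := i)
    have fj := mem_free (a := a) (b := b) (G := G'.1) (c := j)
    rw [hf] at fi fj
    have := hs i j
    have := hout i
    have := hout j
    unfold Across at *
    split_ifs <;> grind [SimpleGraph.adj_comm, SimpleGraph.irrefl]

end Vale.Agent.P335
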