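import Mathlib

/-!
A Poincaré inequality for the uniform law on the `k`-subsets of a finite set, with exchanges of one
element as moves and an elementary constant.
-/

noncomputable section

open Finset

namespace Vale.Agent.P335

variable {V : Type*} [Fintype V] [DecidableEq V] (k : ℕ) (f : Finset V → ℝ)

/-- The squared displacement of `f` under a permutation, over the `k`-subsets. -/
def disp (π : Equiv.Perm V) : ℝ :=
  ∑ A ∈ univ.powersetCard k, (f (A.map π.toEmbedding) - f A) ^ 2

omit [DecidableEq V] in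
theorem sum_map_perm (π : Equiv.Perm V) (g : Finset V → ℝ) :
    ∑ A ∈ univ.powersetCard k, g (A.map π.toEmbedding) = ∑ A ∈ univ.powersetCard k, g A := by
  refine Finset.sum_bij' (fun A _ => A.map π.toEmbedding) (fun A _ => A.map π.symm.toEmbedding)
    ?_ ?_ ?_ ?_ ?_ <;> intro A hA <;>
    simp_all [mem_powersetCard, Finset.map_map, Equiv.toEmbedding]

omit [DecidableEq V] in
theorem disp_one : disp k f 1 = 0 := by
  refine Finset.sum_eq_zero fun A _ => ?_
  have : A.map (1 : Equiv.Perm V).toEmbedding = A := by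
    ext x; simp [Equiv.Perm.one_def]
  rw [this]; ring

omit [DecidableEq V] in
theorem disp_mul_le (σ τ : Equiv.Perm V) {t : ℝ} (ht : 0 < t) :
    disp k f (σ * τ) ≤ (1 + 1 / t) * disp k f τ + (1 + t) * disp k f σ := by
  have h : disp k f σ = ∑ A ∈ univ.powersetCard k,
      (f ((A.map τ.toEmbedding).map σ.toEmbedding) - f (A.map τ.toEmbedding)) ^ 2 :=
    (sum_map_perm k τ fun A => (f (A.map σ.toEmbedding) - f A) ^ 2).symm
  rw [h, disp, disp, mul_sum, mul_sum, ← sum_add_distrib]
  refine sum_le_sum fun A _ => ?_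
  have e : A.map (σ * τ).toEmbedding = (A.map τ.toEmbedding).map σ.toEmbedding := by
    rw [Finset.map_map]; congr 1
  rw [e]
  generalize f ((A.map τ.toEmbedding).map σ.toEmbedding) = p, f (A.map τ.toEmbedding) = q, f A = r
  rw [← mul_le_mul_iff_right₀ ht]
  field_simp
  nlinarith [sq_nonneg ((p - q) * t - (q - r))]

theorem disp_le (E : ℝ) (hE : ∀ a b : V, disp k f (Equiv.swap a b) ≤ E) (π : Equiv.Perm V) :
    disp k f π ≤ (π.support.card : ℝ) ^ 2 * E := by
  induction h : π.support.card using Nat.strong_induction_on generalizing π with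
  | _ n ih =>
    rcases eq_or_ne π 1 with rfl | hne
    · simp at h; subst h; simp [disp_one]
    obtain ⟨x, hx⟩ : ∃ x, π x ≠ x := by
      by_contra hall; push Not at hall; exact hne (Equiv.ext hall)
    set π' := Equiv.swap x (π x) * π with hπ'
    have hlt : π'.support.card < n := h ▸ Equiv.Perm.card_support_swap_mul hx
    have e : π = Equiv.swap x (π x) * π' := by
      rw [hπ', ← mul_assoc, Equiv.swap_mul_self, one_mul]
    have hE0 : 0 ≤ E := (Finset.sum_nonneg fun A _ => sq_nonneg _).trans (hE x x)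
    have hle : disp k f π' ≤ ((n : ℝ) - 1) ^ 2 * E := by
      refine (ih _ hlt π' rfl).trans (mul_le_mul_of_nonneg_right ?_ hE0)
      have : (π'.support.card : ℝ) + 1 ≤ n := by exact_mod_cast hlt
      nlinarith [Nat.cast_nonneg (α := ℝ) π'.support.card]
    rcases Nat.lt_or_ge n 2 with hn | hn
    · exact absurd (h ▸ Equiv.Perm.one_lt_card_support_of_ne_one hne) (by omega)
    have hn' : (2 : ℝ) ≤ n := by exact_mod_cast hn
    rw [e]
    refine (disp_mul_le k f _ π' (show (0 : ℝ) < n - 1 by linarith)).trans ?_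
    have h1 : (0 : ℝ) ≤ 1 + 1 / ((n : ℝ) - 1) :=
      add_nonneg zero_le_one (div_nonneg zero_le_one (by linarith))
    refine (add_le_add (mul_le_mul_of_nonneg_left hle h1)
      (mul_le_mul_of_nonneg_left (hE _ _) (by linarith))).trans ?_
    have h2 : (1 + 1 / ((n : ℝ) - 1)) * (((n : ℝ) - 1) ^ 2 * E) + (1 + ((n : ℝ) - 1)) * E
        = (n : ℝ) ^ 2 * E := by
      have : (n : ℝ) - 1 ≠ 0 := by linarith
      field_simp
      ring
    exact h2.le

/-- A subset of the same size is the image under a permutation. -/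
theorem exists_perm_map {A B : Finset V} (h : A.card = B.card) :
    ∃ π : Equiv.Perm V, A.map π.toEmbedding = B := by
  let e : {x // x ∈ A} ≃ {x // x ∈ B} := Finset.equivOfCardEq h
  refine ⟨e.extendSubtype, ?_⟩
  refine Finset.eq_of_subset_of_card_le (fun y hy => ?_) (by rw [card_map, h])
  obtain ⟨x, hx, rfl⟩ := mem_map.1 hy
  exact Equiv.extendSubtype_mem e x hx

/-- The inequality on the subsets of a finite type. -/
theorem sum_sq_sub_le_univ (E : ℝ) (hE0 : 0 ≤ E) (hE : ∀ a b : V, disp k f (Equiv.swap a b) ≤ E) :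
    ∑ A ∈ univ.powersetCard k, ∑ B ∈ univ.powersetCard k, (f A - f B) ^ 2 ≤
      4 * ((univ : Finset V).powersetCard k).card * ((Fintype.card V : ℝ) ^ 2 * E) := by
  set P := (univ : Finset V).powersetCard k with hP
  set h : Finset V → ℝ := fun A => ∑ π : Equiv.Perm V, f (A.map π.toEmbedding) with hh
  have hconst : ∀ A ∈ P, ∀ B ∈ P, h A = h B := fun A hA B hB => by
    obtain ⟨ρ, rfl⟩ := exists_perm_map ((mem_powersetCard.1 hA).2.trans (mem_powersetCard.1 hB).2.symm)
    simp only [hh]
    rw [← Equiv.sum_comp (Equiv.mulRight ρ) fun π => f (A.map π.toEmbedding)]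
    refine sum_congr rfl fun π _ => congrArg f ?_
    rw [Finset.map_map]; congr 1
  rcases P.eq_empty_or_nonempty with hPe | ⟨A₀, hA₀⟩
  · simp [hPe]
  set N : ℝ := (Fintype.card (Equiv.Perm V) : ℝ) with hN
  have hN0 : 0 < N := by rw [hN]; exact_mod_cast Fintype.card_pos
  set c := h A₀ / N
  have hc : ∑ A ∈ P, (f A - c) ^ 2 ≤ (Fintype.card V : ℝ) ^ 2 * E := by
    have key : ∀ A ∈ P, (f A - c) ^ 2 ≤ N⁻¹ * ∑ π : Equiv.Perm V,
        (f (A.map π.toEmbedding) - f A) ^ 2 := fun A hA => by
      have e : ∑ π : Equiv.Perm V, (f (A.map π.toEmbedding) - f A) = N * (c - f A) := by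
        rw [sum_sub_distrib, sum_const, card_univ, nsmul_eq_mul, ← hN]
        change h A - _ = _
        rw [hconst A hA A₀ hA₀, show c = h A₀ / N from rfl]
        field_simp
      have cs := sq_sum_le_card_mul_sum_sq (s := (univ : Finset (Equiv.Perm V)))
        (f := fun π => f (A.map π.toEmbedding) - f A)
      rw [e, card_univ, ← hN] at cs
      rw [le_inv_mul_iff₀ hN0]
      nlinarith
    refine (sum_le_sum key).trans ?_
    rw [← mul_sum, sum_comm, inv_mul_le_iff₀ hN0]
    refine (sum_le_sum fun π _ => (disp_le k f E hE π).trans (mul_le_mul_of_nonneg_right ?_ ?_)).trans_eq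
      (by rw [sum_const, card_univ, nsmul_eq_mul, ← hN])
    · have : (π.support.card : ℝ) ≤ Fintype.card V := by exact_mod_cast card_le_univ _
      gcongr
    · exact hE0
  calc ∑ A ∈ P, ∑ B ∈ P, (f A - f B) ^ 2
      ≤ ∑ A ∈ P, ∑ B ∈ P, (2 * (f A - c) ^ 2 + 2 * (f B - c) ^ 2) :=
        sum_le_sum fun A _ => sum_le_sum fun B _ => by nlinarith [sq_nonneg (f A + f B - 2 * c)]
    _ = 4 * P.card * ∑ A ∈ P, (f A - c) ^ 2 := by
        simp only [sum_add_distrib, sum_const, nsmul_eq_mul, ← mul_sum]
        ring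
    _ ≤ _ := by
      have := mul_le_mul_of_nonneg_left hc (show (0 : ℝ) ≤ 4 * P.card by positivity)
      linarith

/-- The inequality on the `k`-subsets of a finite set: the variance is at most a polynomial times
the squared differences along exchanges of one element. -/
theorem subsets_poincare {α : Type*} [DecidableEq α] (D : Finset α) (k : ℕ) (f : Finset α → ℝ) :
    ∑ A ∈ D.powersetCard k, ∑ B ∈ D.powersetCard k, (f A - f B) ^ 2 ≤
      4 * (D.powersetCard k).card * ((D.card : ℝ) ^ 2 *
        ∑ A ∈ D.powersetCard k, ∑ a ∈ A, ∑ b ∈ D \ A, (f (insert b (A.erase a)) - f A) ^ 2) := by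
  set ι : {x // x ∈ D} ↪ α := Function.Embedding.subtype _
  have hu : (univ : Finset {x // x ∈ D}).map ι = D := by ext x; simp [ι]
  have hP : ((univ : Finset {x // x ∈ D}).powersetCard k).map (mapEmbedding ι).toEmbedding
      = D.powersetCard k := by rw [← powersetCard_map, hu]
  set E := ∑ A ∈ D.powersetCard k, ∑ a ∈ A, ∑ b ∈ D \ A, (f (insert b (A.erase a)) - f A) ^ 2
  have hE0 : 0 ≤ E := sum_nonneg fun _ _ => sum_nonneg fun _ _ => sum_nonneg fun _ _ => sq_nonneg _
  have h := sum_sq_sub_le_univ k (fun A : Finset {x // x ∈ D} => f (A.map ι)) E hE0 fun a b => by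
    refine le_trans ?_ (le_of_eq (congrArg (fun P => ∑ A ∈ P, ∑ a ∈ A, ∑ b ∈ D \ A,
      (f (insert b (A.erase a)) - f A) ^ 2) hP))
    rw [disp, sum_map]
    refine sum_le_sum fun A _ => ?_
    simp only [RelEmbedding.coe_toEmbedding, mapEmbedding_apply]
    have step : ∀ u v : {x // x ∈ D}, u ∈ A → v ∉ A →
        A.map (Equiv.swap u v).toEmbedding = insert v (A.erase u) := fun u v hu hv => by
      ext x
      simp only [mem_map_equiv, Equiv.symm_swap, mem_insert, mem_erase, Equiv.swap_apply_def]
      have huv : u ≠ v := fun e => hv (e ▸ hu)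
      split_ifs with h1 h2 <;> simp_all
    have big : ∀ u v : {x // x ∈ D}, u ∈ A → v ∉ A →
        (f ((insert v (A.erase u)).map ι) - f (A.map ι)) ^ 2 ≤ ∑ a ∈ A.map ι, ∑ b ∈ D \ A.map ι,
          (f (insert b ((A.map ι).erase a)) - f (A.map ι)) ^ 2 := fun u v hu hv => by
      rw [map_insert, map_erase]
      refine le_trans ?_ (single_le_sum (fun x _ => sum_nonneg fun _ _ => sq_nonneg _)
        (mem_map_of_mem ι hu))
      exact single_le_sum (f := fun b => (f (insert b ((A.map ι).erase (ι u))) - f (A.map ι)) ^ 2)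
        (fun x _ => sq_nonneg _) (by simp [ι, v.2, hv])
    by_cases ha : a ∈ A <;> by_cases hb : b ∈ A
    · have : A.map (Equiv.swap a b).toEmbedding = A := by
        ext x; simp only [mem_map_equiv, Equiv.symm_swap, Equiv.swap_apply_def]
        split_ifs with h1 h2 <;> simp_all
      rw [this, sub_self, sq, mul_zero]
      exact sum_nonneg fun _ _ => sum_nonneg fun _ _ => sq_nonneg _
    · rw [step a b ha hb]; exact big a b ha hb
    · rw [Equiv.swap_comm, step b a hb ha]; exact big b a hb ha
    · have : A.map (Equiv.swap a b).toEmbedding = A := by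
        ext x; simp only [mem_map_equiv, Equiv.symm_swap, Equiv.swap_apply_def]
        split_ifs with h1 h2 <;> simp_all
      rw [this, sub_self, sq, mul_zero]
      exact sum_nonneg fun _ _ => sum_nonneg fun _ _ => sq_nonneg _
  rw [Fintype.card_coe] at h
  simpa only [← hP, sum_map, card_map, RelEmbedding.coe_toEmbedding, mapEmbedding_apply] using h

end Vale.Agent.P335
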