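import Vale.Agent.P335.Statement

/-!
The statements of the blocks of the proof that the switch chain mixes rapidly.
-/

noncomputable section

open Finset
open scoped Classical

namespace Vale.Agent.P335

variable {n : ℕ}

/-- The sum inner product. -/
def ip {d : Fin n → ℕ} (f g : Graphs d → ℝ) : ℝ := ∑ G, f G * g G


/-- For three rows, the sum over rows of the variance of the conditional expectation given that
row is at most twice the variance, for uniform matrices with fixed margins: stated with g i the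
test function of row i. -/
def ThreeRowThm : Prop :=
  ∀ (m : Type) [Fintype m] [DecidableEq m] (r : Fin 3 → ℕ) (c : m → ℕ)
    (S : Finset (Fin 3 → m → Bool)),
    (∀ A, A ∈ S ↔ (∀ i, #(univ.filter fun x => A i x = true) = r i) ∧
      ∀ x, #(univ.filter fun i => A i x = true) = c x) →
    ∀ f : (Fin 3 → m → Bool) → ℝ,
      0 ≤ ∑ i, ∑ j ∈ univ.filter (fun j => j ≠ i), ∑ A ∈ S,
        (f A - (∑ B ∈ S.filter (fun B => B i = A i), f B) / #(S.filter fun B => B i = A i)) *
        (f A - (∑ B ∈ S.filter (fun B => B j = A j), f B) / #(S.filter fun B => B j = A j))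

/-- The triangle terms: for each three vertices the cross terms are nonnegative. -/
def TriThm : Prop :=
  ∀ (n : ℕ) (d : Fin n → ℕ) (a b c : Fin n), a ≠ b → a ≠ c → b ≠ c →
    ∀ f : Graphs d → ℝ,
      0 ≤ ip (pairLap a b f) (pairLap a c f) + ip (pairLap a b f) (pairLap b c f) + ip (pairLap a c f) (pairLap b c f)

/-- One slice: the k-subsets of an m-set, u of mean zero. For a pair c, e the middle sets contain
exactly one of c, e; mid is the sum of u over them and dev the sum of the squared half differences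
under exchanging c and e. -/
def SliceThm : Prop :=
  ∀ (α : Type) [Fintype α] [DecidableEq α] (k : ℕ) (u : Finset α → ℝ),
    ∑ x ∈ (univ : Finset α).powersetCard k, u x = 0 →
    ∑ c : α, ∑ e ∈ univ.filter (fun e => e ≠ c),
      ((∑ x ∈ ((univ : Finset α).powersetCard k).filter (fun x => ¬(c ∈ x ↔ e ∈ x)), u x) ^ 2 /
          #(((univ : Finset α).powersetCard k).filter fun x => ¬(c ∈ x ↔ e ∈ x))
        - ∑ x ∈ ((univ : Finset α).powersetCard k).filter (fun x => ¬(c ∈ x ↔ e ∈ x)),
            ((u x - u (x.image (Equiv.swap c e))) / 2) ^ 2)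
      ≤ (3 / 2) * ∑ x ∈ (univ : Finset α).powersetCard k, u x ^ 2

/-- The exchange of c and e between the neighbourhoods of a and b, when exactly that is possible. -/
def Middle (a b c e : Fin n) (G : SimpleGraph (Fin n)) : Prop :=
  (G.Adj a c ∧ G.Adj b e ∧ ¬ G.Adj a e ∧ ¬ G.Adj b c) ∨
    (G.Adj a e ∧ G.Adj b c ∧ ¬ G.Adj a c ∧ ¬ G.Adj b e)

/-- The squared half difference of f over the two middle matchings of a-c-b-e, summed over middle
graphs. -/
def midDev {n : ℕ} {d : Fin n → ℕ} (a b c e : Fin n) (f : Graphs d → ℝ) : ℝ :=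
  ∑ G : Graphs d, ∑ H : Graphs d,
    if Middle a b c e G.1 ∧ Middle a b c e H.1 ∧ G ≠ H ∧
        (∀ u v, s(u, v) ≠ s(a, c) → s(u, v) ≠ s(b, e) → s(u, v) ≠ s(a, e) → s(u, v) ≠ s(b, c) →
          (G.1.Adj u v ↔ H.1.Adj u v))
      then ((f G - f H) / 2) ^ 2 else 0

/-- The squared class mean of the Laplacian over middle graphs, weighted by their number. -/
def midMean {n : ℕ} {d : Fin n → ℕ} (a b c e : Fin n) (f : Graphs d → ℝ) : ℝ :=
  ∑ G : Graphs d, if Middle a b c e G.1 then
    ((∑ H ∈ (cls a b G).filter (fun H => Middle a b c e H.1), pairLap a b f H) /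
      #((cls a b G).filter fun H => Middle a b c e H.1)) ^ 2 else 0

/-- Disjoint pairs: the cross term is bounded below by the two slice terms. -/
def QuadThm : Prop :=
  ∀ (n : ℕ) (d : Fin n → ℕ) (a b c e : Fin n),
    a ≠ b → a ≠ c → a ≠ e → b ≠ c → b ≠ e → c ≠ e → ∀ f : Graphs d → ℝ,
      (midDev a b c e f - midMean a b c e f) + (midDev c e a b f - midMean c e a b f)
        ≤ 2 * ip (pairLap a b f) (pairLap c e f)

/-- The slice inequality read on the graphs: sum over ordered c, e. -/
def PairSliceThm : Prop :=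
  ∀ (n : ℕ) (d : Fin n → ℕ) (a b : Fin n), a ≠ b → ∀ f : Graphs d → ℝ,
    ∑ c : Fin n, ∑ e : Fin n,
      (if c ≠ e ∧ c ≠ a ∧ c ≠ b ∧ e ≠ a ∧ e ≠ b
        then midMean a b c e f - midDev a b c e f else 0)
      ≤ (3 / 2) * ip f (pairLap a b f)

/-- Any function killed by all pair Laplacians is constant. -/
def ConnThm : Prop :=
  ∀ (n : ℕ) (d : Fin n → ℕ) (f : Graphs d → ℝ),
    (∀ a b : Fin n, a ≠ b → ∀ G, pairLap a b f G = 0) → ∀ G H, f G = f H

/-- The pair heat baths satisfy a Poincare inequality with an absolute constant. -/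
def GapThm : Prop :=
  ∀ (n : ℕ) (d : Fin n → ℕ) (f : Graphs d → ℝ),
    (∑ G, ∑ H, (f G - f H) ^ 2) / (2 * (Fintype.card (Graphs d) : ℝ)) ≤ 4 * ip f (pairsLap f)

/-- A pair heat bath is dominated by the switches up to a polynomial factor. -/
def CompThm : Prop :=
  ∀ (n : ℕ) (d : Fin n → ℕ) (a b : Fin n), a ≠ b → ∀ f : Graphs d → ℝ,
    ip f (pairLap a b f) ≤ 4 * (n : ℝ) ^ 2 * switchForm f

end Vale.Agent.P335
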