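import Vale.Agent.P335.ClassSlice
import Vale.Agent.P335.Pins
import Vale.Agent.P335.Johnson

/-!
The heat bath of a vertex pair is dominated by the switches, up to a polynomial factor.
-/

noncomputable section

open Finset
open scoped Classical

namespace Vale.Agent.P335

variable {n : ℕ} {d : Fin n → ℕ} {a b : Fin n}

theorem SameRest.refl (G : Graphs d) : SameRest a b G G := fun _ _ _ _ => Iff.rfl

theorem mem_cls_self (G : Graphs d) : G ∈ cls a b G := by simp [cls, SameRest.refl G]

theorem cls_eq_of_mem {G G' : Graphs d} (h : G' ∈ cls a b G) : cls a b G' = cls a b G := by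
  have hs : SameRest a b G G' := by simpa [cls] using h
  ext x
  simp only [cls, mem_filter, mem_univ, true_and]
  exact ⟨fun hx i j u v => (hs i j u v).trans (hx i j u v),
    fun hx i j u v => (hs i j u v).symm.trans (hx i j u v)⟩

theorem mem_cls_comm {G G' : Graphs d} : G' ∈ cls a b G ↔ G ∈ cls a b G' := by
  constructor <;> intro h <;> rw [cls_eq_of_mem h] <;> exact mem_cls_self _

/-- The class sum in the coordinates of the slice. -/
theorem sum_cls_eq (hab : a ≠ b) (G : Graphs d) (F : Graphs d → ℝ) :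
    ∑ x ∈ cls a b G, F x = ∑ A ∈ (free a b G.1).powersetCard (priv a b G.1).card,
      if h : A ∈ (free a b G.1).powersetCard (priv a b G.1).card
        then F (member a b hab G ⟨A, h⟩) else 0 := by
  conv_rhs => rw [← sum_attach]
  have hB := member_bijective a b hab G
  refine (Finset.sum_bij (fun A _ => member a b hab G A) (fun A _ => mem_coe.1 (hB.1 (Set.mem_univ A)))
    (fun A _ B _ e => hB.2.1 (Set.mem_univ A) (Set.mem_univ B) e) (fun x hx => ?_)
    (fun A _ => by rw [dif_pos A.2])).symm
  obtain ⟨A, -, hA⟩ := hB.2.2 hx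
  exact ⟨A, mem_attach _ _, hA⟩

/-- Averaging over the classes preserves the sum. -/
theorem sum_cls_avg (F : Graphs d → ℝ) :
    ∑ G, (∑ x ∈ cls a b G, F x) / (cls a b G).card = ∑ G, F G := by
  have e : ∀ G : Graphs d, (∑ x ∈ cls a b G, F x) / (cls a b G).card
      = ∑ x, if x ∈ cls a b G then F x / (cls a b x).card else 0 := fun G => by
    rw [sum_ite_mem, univ_inter, sum_div]
    exact sum_congr rfl fun x hx => by rw [cls_eq_of_mem hx]
  simp only [e]
  rw [sum_comm]
  refine sum_congr rfl fun x _ => ?_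
  rw [← sum_filter]
  have : univ.filter (fun G => x ∈ cls a b G) = cls a b x := by
    ext G; simp [mem_cls_comm (G := x) (G' := G)]
  rw [this, sum_const, nsmul_eq_mul, mul_div_cancel₀]
  exact_mod_cast (card_pos.2 ⟨x, mem_cls_self x⟩).ne'

/-- The Dirichlet form of a pair is the quadratic form of its Laplacian. -/
theorem ip_pairLap_eq (f : Graphs d → ℝ) : ip f (pairLap a b f) = pairForm a b f := by
  have h := sum_cls_avg (a := a) (b := b) fun x => f x ^ 2
  have e : ∀ G : Graphs d, (∑ y ∈ cls a b G, (f G - f y) ^ 2) / (cls a b G).card =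
      f G ^ 2 - 2 * (f G * pairAvg a b f G) + (∑ y ∈ cls a b G, f y ^ 2) / (cls a b G).card := fun G => by
    have hc : ((cls a b G).card : ℝ) ≠ 0 := by exact_mod_cast (card_pos.2 ⟨G, mem_cls_self G⟩).ne'
    simp only [pairAvg, sub_sq, sum_add_distrib, sum_sub_distrib, sum_const, nsmul_eq_mul, ← mul_sum]
    field_simp
  simp only [ip, pairLap, pairForm, e, sum_add_distrib, sum_sub_distrib, mul_sub, h, ← mul_sum, ← sq]
  ring

/-- An exchange in the slice is a switch. -/
theorem isSwitch_exchange (hab : a ≠ b) (G : Graphs d)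
    (A A' : {A // A ∈ (free a b G.1).powersetCard (priv a b G.1).card}) {x y : Fin n}
    (hx : x ∈ A.1) (hy : y ∈ free a b G.1 \ A.1) (hA' : A'.1 = insert y (A.1.erase x)) :
    IsSwitch (member a b hab G A) (member a b hab G A') := by
  obtain ⟨hyf, hyA⟩ := mem_sdiff.1 hy
  have hxf := (mem_powersetCard.1 A.2).1 hx
  obtain ⟨xa, xb, -⟩ := mem_free.1 hxf
  obtain ⟨ya, yb, -⟩ := mem_free.1 hyf
  have hxy : x ≠ y := fun e => hyA (e ▸ hx)
  have ha := not_mem_free_left (a := a) (b := b) G.1
  have hb := not_mem_free_right (a := a) (b := b) G.1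
  refine ⟨a, b, x, y, hab, Ne.symm ya, Ne.symm xb, hxy, ?_, ?_, ?_, ?_, fun i j => ?_⟩
  all_goals simp only [member, relabel_adj, relAdj]
  · simp [hxf, hx]
  · simp [hab.symm, hyf, hyA]
  · simp [hyf, hyA]
  · simp [hab.symm, hxf, hx]
  · rw [hA']
    simp only [mem_insert, mem_erase, ne_eq, Sym2.eq_iff]
    split_ifs <;> grind

theorem pairForm_le (hab : a ≠ b) (f : Graphs d → ℝ) :
    pairForm a b f ≤ 4 * (n : ℝ) ^ 2 * switchForm f := by
  set S : Graphs d → ℝ := fun G => ∑ G' ∈ univ.filter (IsSwitch G), (f G - f G') ^ 2 with hS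
  have hS0 : ∀ G, 0 ≤ S G := fun G => sum_nonneg fun _ _ => sq_nonneg _
  -- one class
  have key : ∀ G : Graphs d, (∑ x ∈ cls a b G, ∑ y ∈ cls a b G, (f x - f y) ^ 2) /
      (cls a b G).card ≤ 4 * (n : ℝ) ^ 2 * ∑ x ∈ cls a b G, S x := fun G => by
    set D := free a b G.1
    set k := (priv a b G.1).card
    set g : Finset (Fin n) → ℝ := fun A =>
      if h : A ∈ D.powersetCard k then f (member a b hab G ⟨A, h⟩) else 0
    have hcard : ((cls a b G).card : ℝ) = (D.powersetCard k).card := by
      have := sum_cls_eq hab G fun _ => (1 : ℝ)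
      rw [sum_congr rfl fun A hA => dif_pos hA] at this
      simpa using this
    have hsum : ∑ x ∈ cls a b G, ∑ y ∈ cls a b G, (f x - f y) ^ 2 =
        ∑ A ∈ D.powersetCard k, ∑ B ∈ D.powersetCard k, (g A - g B) ^ 2 := by
      rw [sum_cls_eq hab G]
      refine sum_congr rfl fun A hA => ?_
      rw [dif_pos hA, sum_cls_eq hab G]
      refine sum_congr rfl fun B hB => ?_
      rw [dif_pos hB]
      simp only [g, D, k, dif_pos hA, dif_pos hB]
    have hex : ∑ A ∈ D.powersetCard k, ∑ x ∈ A, ∑ y ∈ D \ A,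
        (g (insert y (A.erase x)) - g A) ^ 2 ≤ ∑ x ∈ cls a b G, S x := by
      rw [sum_cls_eq hab G]
      refine sum_le_sum fun A hA => ?_
      rw [dif_pos hA, ← sum_product']
      have hA' : ∀ p ∈ A ×ˢ (D \ A), insert p.2 (A.erase p.1) ∈ D.powersetCard k := fun p hp => by
        obtain ⟨hp1, hp2⟩ := mem_product.1 hp
        obtain ⟨h2D, h2A⟩ := mem_sdiff.1 hp2
        obtain ⟨hs, hc⟩ := mem_powersetCard.1 hA
        refine mem_powersetCard.2 ⟨insert_subset h2D ((erase_subset _ _).trans hs), ?_⟩
        rw [card_insert_of_notMem (fun h => h2A (mem_of_mem_erase h)), card_erase_of_mem hp1, hc]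
        have : 0 < k := hc ▸ card_pos.2 ⟨_, hp1⟩
        omega
      set φ : Fin n × Fin n → Graphs d := fun p =>
        if h : insert p.2 (A.erase p.1) ∈ D.powersetCard k
          then member a b hab G ⟨_, h⟩ else G
      have hinj : Set.InjOn φ (A ×ˢ (D \ A) : Finset (Fin n × Fin n)) := fun p hp q hq e => by
        simp only [φ, dif_pos (hA' p hp), dif_pos (hA' q hq)] at e
        have := congrArg Subtype.val
          ((member_bijective a b hab G).2.1 (Set.mem_univ _) (Set.mem_univ _) e)
        obtain ⟨p1, p2⟩ := p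
        obtain ⟨q1, q2⟩ := q
        simp only [mem_coe, mem_product, mem_sdiff] at hp hq
        simp only at this
        have h1 := Finset.ext_iff.1 this p2
        have h2 := Finset.ext_iff.1 this q2
        have h3 := Finset.ext_iff.1 this p1
        have h4 := Finset.ext_iff.1 this q1
        grind
      calc ∑ p ∈ A ×ˢ (D \ A), (g (insert p.2 (A.erase p.1)) - g A) ^ 2
          = ∑ x ∈ (A ×ˢ (D \ A)).image φ, (f (member a b hab G ⟨A, hA⟩) - f x) ^ 2 := by
            rw [sum_image hinj]
            refine sum_congr rfl fun p hp => ?_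
            simp only [g, φ, dif_pos (hA' p hp), dif_pos hA]
            ring
        _ ≤ S (member a b hab G ⟨A, hA⟩) := by
            refine sum_le_sum_of_subset_of_nonneg (fun x hx => ?_) fun _ _ _ => sq_nonneg _
            obtain ⟨p, hp, rfl⟩ := mem_image.1 hx
            simp only [φ, dif_pos (hA' p hp), mem_filter, mem_univ, true_and]
            exact isSwitch_exchange hab G ⟨A, hA⟩ ⟨_, hA' p hp⟩ (mem_product.1 hp).1
              (mem_product.1 hp).2 rfl
    have hJ := subsets_poincare D k g
    rw [hsum, hcard]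
    have hDn : (D.card : ℝ) ^ 2 ≤ (n : ℝ) ^ 2 := by
      gcongr
      exact (card_le_univ D).trans_eq (Fintype.card_fin n)
    refine div_le_of_le_mul₀ (Nat.cast_nonneg _)
      (mul_nonneg (by positivity) (sum_nonneg fun x _ => hS0 x)) (hJ.trans ?_)
    calc 4 * ((D.powersetCard k).card : ℝ) * ((D.card : ℝ) ^ 2 * _)
        ≤ 4 * ((D.powersetCard k).card : ℝ) * ((n : ℝ) ^ 2 * ∑ x ∈ cls a b G, S x) := by
          refine mul_le_mul_of_nonneg_left (mul_le_mul hDn hex ?_ (by positivity)) (by positivity)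
          exact sum_nonneg fun _ _ => sum_nonneg fun _ _ => sum_nonneg fun _ _ => sq_nonneg _
      _ = _ := by ring
  have swap := sum_cls_avg (d := d) (a := a) (b := b)
  have h1 : ∑ G, (∑ y ∈ cls a b G, (f G - f y) ^ 2) / (cls a b G).card =
      ∑ G, (∑ x ∈ cls a b G, ∑ y ∈ cls a b G, (f x - f y) ^ 2) /
        (cls a b G).card / (cls a b G).card := by
    rw [← swap fun x => (∑ y ∈ cls a b x, (f x - f y) ^ 2) / (cls a b x).card]
    refine sum_congr rfl fun G _ => ?_
    congr 1
    rw [sum_div]
    exact sum_congr rfl fun x hx => by rw [cls_eq_of_mem hx]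
  have h2 : ∑ G, (∑ y ∈ cls a b G, (f G - f y) ^ 2) / (cls a b G).card ≤
      4 * (n : ℝ) ^ 2 * ∑ G, S G := by
    rw [h1, ← swap S, mul_sum]
    refine sum_le_sum fun G _ => ?_
    rw [← mul_div_assoc]
    exact div_le_div_of_nonneg_right (key G) (Nat.cast_nonneg _)
  simp only [pairForm, switchForm]
  linarith

/-- The comparison. -/
theorem compThm : CompThm := fun _ _ _ _ hab f => (ip_pairLap_eq f).trans_le (pairForm_le hab f)

end Vale.Agent.P335
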