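import Vale.Agent.P335.Pins

/-!
Switch connectivity: a function killed by all pair Laplacians is constant.
-/

noncomputable section

open Finset
open scoped Classical

namespace Vale.Agent.P335

variable {n : ℕ} {d : Fin n → ℕ}

theorem cls_eq_cls {a b : Fin n} {G H : Graphs d} (h : H ∈ cls a b G) :
    cls a b H = cls a b G := by
  rw [cls, mem_filter] at h
  ext K
  simp only [cls, mem_filter, mem_univ, true_and]
  exact ⟨fun hK i j h1 h2 => (h.2 i j h1 h2).trans (hK i j h1 h2),
    fun hK i j h1 h2 => (h.2 i j h1 h2).symm.trans (hK i j h1 h2)⟩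

theorem eq_of_mem_cls {f : Graphs d → ℝ} {a b : Fin n}
    (hf : ∀ G, pairLap a b f G = 0) {G H : Graphs d} (h : H ∈ cls a b G) : f G = f H := by
  have h1 := hf G
  have h2 := hf H
  simp only [pairLap, pairAvg, cls_eq_cls h, sub_eq_zero] at h1 h2
  rw [h1, h2]

theorem switch_mem_cls {a b c e : Fin n} (hae : a ≠ e) (hbc : b ≠ c) {G H : Graphs d}
    (hac : G.1.Adj a c) (hbe : G.1.Adj b e) (hs : SwitchedTo a b c e G.1 H.1) :
    H ∈ cls a b G := by
  simp only [cls, mem_filter, mem_univ, true_and]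
  intro i j h1 h2
  have hca := G.1.ne_of_adj hac
  have heb := G.1.ne_of_adj hbe
  have key : ∀ x y, (x = a ∨ x = b) → ¬(y = a ∨ y = b) → s(i, j) ≠ s(x, y) := by
    intro x y hx hy h
    rcases Sym2.eq_iff.1 h with ⟨rfl, rfl⟩ | ⟨rfl, rfl⟩
    · exact h1 ⟨hx, hy⟩
    · exact h2 ⟨hx, hy⟩
  have k1 := key a c (Or.inl rfl) (by rintro (h | h) <;> [exact hca h.symm; exact hbc h.symm])
  have k2 := key b e (Or.inr rfl) (by rintro (h | h) <;> [exact hae h.symm; exact heb h.symm])
  have k3 := key a e (Or.inl rfl) (by rintro (h | h) <;> [exact hae h.symm; exact heb h.symm])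
  have k4 := key b c (Or.inr rfl) (by rintro (h | h) <;> [exact hca h.symm; exact hbc h.symm])
  rw [hs i j]
  exact ⟨fun h => Or.inl ⟨h, k1, k2⟩, fun h => (h.resolve_right (by tauto)).1⟩

/-- Every switch can be carried out. -/
theorem exists_switch (G : Graphs d) {a b c e : Fin n} (hab : a ≠ b) (hae : a ≠ e) (hbc : b ≠ c)
    (hce : c ≠ e) (hac : G.1.Adj a c) (hbe : G.1.Adj b e) (nae : ¬ G.1.Adj a e)
    (nbc : ¬ G.1.Adj b c) : ∃ H : Graphs d, SwitchedTo a b c e G.1 H.1 := by
  let H : SimpleGraph (Fin n) :=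
    { Adj := fun i j => (G.1.Adj i j ∧ s(i, j) ≠ s(a, c) ∧ s(i, j) ≠ s(b, e)) ∨
        s(i, j) = s(a, e) ∨ s(i, j) = s(b, c)
      symm := ⟨fun i j h => by rwa [G.1.adj_comm, Sym2.eq_swap]⟩
      loopless := ⟨fun i h => by
        rcases h with h | h | h
        · exact G.1.irrefl h.1
        · rcases Sym2.eq_iff.1 h with ⟨h1, h2⟩ | ⟨h1, h2⟩ <;> subst h1 <;> exact hae (by simp [h2])
        · rcases Sym2.eq_iff.1 h with ⟨h1, h2⟩ | ⟨h1, h2⟩ <;> subst h1 <;> exact hbc (by simp [h2])⟩ }
  refine ⟨⟨H, fun i => ?_⟩, fun i j => Iff.rfl⟩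
  have hca := G.1.ne_of_adj hac
  have heb := G.1.ne_of_adj hbe
  rw [← G.2 i]
  have key : ∀ p q, p ∈ nbrs G.1 i → q ∉ nbrs G.1 i →
      nbrs H i = insert q ((nbrs G.1 i).erase p) → (nbrs H i).card = (nbrs G.1 i).card := by
    intro p q hp hq h
    rw [h, card_insert_of_notMem (by simp [hq]), card_erase_add_one hp]
  by_cases h1 : i = a
  · subst h1
    refine key c e (by simpa [nbrs] using hac) (by simpa [nbrs] using nae) ?_
    ext j
    simp [nbrs, H, hab, hca, hae]
    tauto
  by_cases h2 : i = b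
  · subst h2
    refine key e c (by simpa [nbrs] using hbe) (by simpa [nbrs] using nbc) ?_
    ext j
    simp [nbrs, H, hab.symm, heb, hbc]
    tauto
  by_cases h3 : i = c
  · subst h3
    refine key a b (by simpa [nbrs] using hac.symm) (by simpa [nbrs, G.1.adj_comm] using nbc) ?_
    ext j
    simp [nbrs, H, h1, h2, hce]
    tauto
  by_cases h4 : i = e
  · subst h4
    refine key b a (by simpa [nbrs] using hbe.symm) (by simpa [nbrs, G.1.adj_comm] using nae) ?_
    ext j
    simp [nbrs, H, h1, h2, h3]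
    tauto
  congr 1
  ext j
  simp [nbrs, H, h1, h2, h3, h4]

/-- The neighbours outside `F`. -/
def outside (G : SimpleGraph (Fin n)) (F : Finset (Fin n)) (i : Fin n) : Finset (Fin n) :=
  nbrs G i \ F

theorem exists_fourth (G : SimpleGraph (Fin n)) (F : Finset (Fin n)) {v u w : Fin n}
    (hv : v ∉ F) (hw : w ∉ F) (hvu : G.Adj v u) (hvw : ¬ G.Adj v w)
    (hne : v ≠ w) (hle : #(outside G F u) ≤ #(outside G F w)) :
    ∃ x, x ∉ F ∧ G.Adj x w ∧ x ≠ u ∧ x ≠ v ∧ ¬ G.Adj x u := by
  by_contra hno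
  push Not at hno
  have hsub : insert v ((outside G F w).erase u) ⊆ (outside G F u).erase w := by
    intro x hx
    rcases mem_insert.1 hx with rfl | hx
    · simp [outside, nbrs, hv, hvu.symm, hne]
    · simp only [outside, nbrs, mem_erase, mem_sdiff, mem_filter, mem_univ, true_and] at hx ⊢
      refine ⟨hx.2.1.ne', ?_, hx.2.2⟩
      by_cases hxv : x = v
      · subst hxv; exact hvu.symm
      · exact (hno x hx.2.2 hx.2.1.symm hx.1 hxv).symm
  have hcard := card_le_card hsub
  have hvn : v ∉ (outside G F w).erase u := by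
    simp only [outside, nbrs, mem_erase, mem_sdiff, mem_filter, mem_univ, true_and]
    exact fun h => hvw h.2.1.symm
  rw [card_insert_of_notMem hvn] at hcard
  by_cases h : G.Adj u w
  · have hmem : w ∈ outside G F u := by simp [outside, nbrs, hw, h]
    rw [card_erase_of_mem hmem] at hcard
    have h1 : 0 < #(outside G F u) := card_pos.2 ⟨w, hmem⟩
    have h2 := pred_card_le_card_erase (s := outside G F w) (a := u)
    omega
  · have hmem : w ∉ outside G F u := by simp [outside, nbrs, h]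
    have hmem' : u ∉ outside G F w := by simp [outside, nbrs, G.adj_comm, h]
    rw [erase_eq_of_notMem hmem, erase_eq_of_notMem hmem'] at hcard
    omega

theorem card_outside_eq (G H : Graphs d) (F : Finset (Fin n))
    (h : ∀ i ∈ F, ∀ j, G.1.Adj i j ↔ H.1.Adj i j) (i : Fin n) :
    #(outside G.1 F i) = #(outside H.1 F i) := by
  have e : nbrs G.1 i ∩ F = nbrs H.1 i ∩ F := by
    ext j
    simp only [nbrs, mem_inter, mem_filter, mem_univ, true_and]
    exact and_congr_left fun hj => by rw [G.1.adj_comm, H.1.adj_comm, h j hj i]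
  have h1 := card_sdiff_add_card_inter (nbrs G.1 i) F
  have h2 := card_sdiff_add_card_inter (nbrs H.1 i) F
  rw [G.2, e] at h1
  rw [H.2] at h2
  simp only [outside]
  omega

theorem switched_off {a b c e : Fin n} {G G' : SimpleGraph (Fin n)}
    (hs : SwitchedTo a b c e G G') {i : Fin n} (ha : i ≠ a) (hb : i ≠ b) (hc : i ≠ c) (he : i ≠ e)
    (j : Fin n) : G'.Adj i j ↔ G.Adj i j := by
  rw [hs i j]
  simp [ha, hb, hc, he]

theorem switched_at {a b c e : Fin n} {G G' : SimpleGraph (Fin n)}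
    (hs : SwitchedTo a b c e G G') (hab : a ≠ b) (hac : a ≠ c) (hae : a ≠ e) (j : Fin n) :
    G'.Adj a j ↔ (G.Adj a j ∧ j ≠ c) ∨ j = e := by
  rw [hs a j]
  simp [hab, hac, hae]

/-- A switch moving `v` from `u` to `w`, away from `F`. -/
theorem exists_step (f : Graphs d → ℝ)
    (hf : ∀ a b : Fin n, a ≠ b → ∀ G, pairLap a b f G = 0) (G : Graphs d) (F : Finset (Fin n))
    {v u w : Fin n} (hv : v ∉ F) (hu : u ∉ F) (hw : w ∉ F) (hvu : G.1.Adj v u)
    (hvw : ¬ G.1.Adj v w) (huw : u ≠ w) (hne : v ≠ w)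
    (hle : #(outside G.1 F u) ≤ #(outside G.1 F w)) :
    ∃ G' : Graphs d, f G = f G' ∧ (∀ i ∈ F, ∀ j, G'.1.Adj i j ↔ G.1.Adj i j) ∧
      ∀ j, G'.1.Adj v j ↔ (G.1.Adj v j ∧ j ≠ u) ∨ j = w := by
  obtain ⟨x, hx, hxw, hxu, hxv, nxu⟩ := exists_fourth G.1 F hv hw hvu hvw hne hle
  obtain ⟨G', hs⟩ := exists_switch G hxv.symm hne hxu huw hvu hxw hvw nxu
  refine ⟨G', eq_of_mem_cls (hf v x hxv.symm) (switch_mem_cls hne hxu hvu hxw hs), fun i hi j => ?_,
    switched_at hs hxv.symm (G.1.ne_of_adj hvu) hne⟩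
  exact switched_off hs (fun h => hv (h ▸ hi)) (fun h => hx (h ▸ hi)) (fun h => hu (h ▸ hi))
    (fun h => hw (h ▸ hi)) j

theorem constant_of_fixed (f : Graphs d → ℝ)
    (hf : ∀ a b : Fin n, a ≠ b → ∀ G, pairLap a b f G = 0) (m : ℕ) :
    ∀ F : Finset (Fin n), #(univ \ F) = m → ∀ G H : Graphs d,
      (∀ i ∈ F, ∀ j, G.1.Adj i j ↔ H.1.Adj i j) → f G = f H := by
  induction m using Nat.strong_induction_on with
  | _ m ih =>
    intro F hm
    suffices inner : ∀ (v : Fin n), v ∉ F → ∀ (k : ℕ) (G H : Graphs d),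
        (∀ i ∈ F, ∀ j, G.1.Adj i j ↔ H.1.Adj i j) →
        #(nbrs G.1 v \ nbrs H.1 v) = k → f G = f H by
      intro G H hF
      by_cases hall : ∀ v, v ∈ F
      · exact congrArg f (Subtype.ext (SimpleGraph.ext (funext fun i => funext fun j =>
          propext (hF i (hall i) j))))
      · obtain ⟨v, hv⟩ := not_forall.1 hall
        exact inner v hv _ G H hF rfl
    intro v hv k
    induction k with
    | zero =>
      intro G H hF hk
      have hsub : nbrs G.1 v ⊆ nbrs H.1 v := sdiff_eq_empty_iff_subset.1 (card_eq_zero.1 hk)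
      have heq := eq_of_subset_of_card_le hsub (by rw [G.2, H.2])
      refine ih #(univ \ insert v F) ?_ (insert v F) rfl G H fun i hi j => ?_
      · rw [← hm, sdiff_insert]
        exact card_lt_card (erase_ssubset (by simp [hv]))
      · rcases mem_insert.1 hi with rfl | hi
        · simpa [nbrs] using Finset.ext_iff.1 heq j
        · exact hF i hi j
    | succ k ihk =>
      intro G H hF hk
      obtain ⟨u, hu⟩ := card_pos.1 (by omega : 0 < #(nbrs G.1 v \ nbrs H.1 v))
      have hcard : #(nbrs H.1 v \ nbrs G.1 v) = #(nbrs G.1 v \ nbrs H.1 v) :=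
        card_sdiff_comm (by rw [G.2, H.2])
      obtain ⟨w, hw⟩ := card_pos.1 (by omega : 0 < #(nbrs H.1 v \ nbrs G.1 v))
      simp only [nbrs, mem_sdiff, mem_filter, mem_univ, true_and] at hu hw
      have huF : u ∉ F := fun h => hu.2 ((hF u h v).1 hu.1.symm).symm
      have hwF : w ∉ F := fun h => hw.2 ((hF w h v).2 hw.1.symm).symm
      have huw : u ≠ w := fun h => hw.2 (h ▸ hu.1)
      rcases le_total #(outside G.1 F u) #(outside G.1 F w) with hle | hle
      · obtain ⟨G', hfG, hF', hv'⟩ := exists_step f hf G F hv huF hwF hu.1 hw.2 huw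
          (H.1.ne_of_adj hw.1) hle
        refine hfG.trans (ihk G' H (fun i hi j => (hF' i hi j).trans (hF i hi j)) ?_)
        have e : nbrs G'.1 v \ nbrs H.1 v = (nbrs G.1 v \ nbrs H.1 v).erase u := by
          ext j
          simp only [nbrs, mem_sdiff, mem_filter, mem_univ, true_and, mem_erase, hv' j]
          constructor
          · rintro ⟨⟨h1, h2⟩ | rfl, h3⟩
            · exact ⟨h2, h1, h3⟩
            · exact absurd hw.1 h3
          · rintro ⟨h2, h1, h3⟩
            exact ⟨Or.inl ⟨h1, h2⟩, h3⟩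
        rw [e, card_erase_of_mem (by simp [nbrs, hu.1, hu.2]), hk]
        rfl
      · rw [card_outside_eq G H F hF w, card_outside_eq G H F hF u] at hle
        obtain ⟨H', hfH, hF', hv'⟩ := exists_step f hf H F hv hwF huF hw.1 hu.2 huw.symm
          (G.1.ne_of_adj hu.1) hle
        refine (ihk G H' (fun i hi j => (hF i hi j).trans (hF' i hi j).symm) ?_).trans hfH.symm
        have e : nbrs G.1 v \ nbrs H'.1 v = (nbrs G.1 v \ nbrs H.1 v).erase u := by
          ext j
          simp only [nbrs, mem_sdiff, mem_filter, mem_univ, true_and, mem_erase, hv' j]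
          constructor
          · rintro ⟨h1, h2⟩
            refine ⟨fun h => h2 (Or.inr h), h1, fun h3 => h2 (Or.inl ⟨h3, ?_⟩)⟩
            rintro rfl
            exact hw.2 h1
          · rintro ⟨h2, h1, h3⟩
            exact ⟨h1, fun h => h.elim (fun h' => h3 h'.1) h2⟩
        rw [e, card_erase_of_mem (by simp [nbrs, hu.1, hu.2]), hk]
        rfl

/-- Functions killed by all pair Laplacians are constant. -/
theorem connThm : ConnThm := fun _ _ f hf G H =>
  constant_of_fixed f hf _ ∅ rfl G H (fun i hi => absurd hi (notMem_empty i))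

end Vale.Agent.P335
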