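import Mathlib

/-!
Simple graphs with a given degree vector, the classes of a vertex pair, and switches.
-/

noncomputable section

open Finset
open scoped Classical

namespace Vale.Agent.P335

variable {n : ℕ} {d : Fin n → ℕ}

/-- The neighbours of a vertex. -/
def nbrs (G : SimpleGraph (Fin n)) (i : Fin n) : Finset (Fin n) := univ.filter (G.Adj i)

/-- The simple graphs on `Fin n` with degree vector `d`. -/
abbrev Graphs (d : Fin n → ℕ) : Type :=
  {G : SimpleGraph (Fin n) // ∀ i, (nbrs G i).card = d i}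

/-- `i` is one of `a`, `b` and `j` is neither. -/
def Across (a b i j : Fin n) : Prop := (i = a ∨ i = b) ∧ ¬(j = a ∨ j = b)

/-- The graphs agree except possibly on the edges between `{a, b}` and the other vertices. -/
def SameRest (a b : Fin n) (G G' : Graphs d) : Prop :=
  ∀ i j, ¬Across a b i j → ¬Across a b j i → (G.1.Adj i j ↔ G'.1.Adj i j)

/-- The class of a pair: the support of its heat bath at a graph. -/
def cls (a b : Fin n) (G : Graphs d) : Finset (Graphs d) := univ.filter (SameRest a b G)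

/-- The heat bath of a pair. -/
def pairAvg (a b : Fin n) (f : Graphs d → ℝ) (G : Graphs d) : ℝ :=
  (∑ G' ∈ cls a b G, f G') / (cls a b G).card

/-- The Laplacian of the heat bath of a pair. -/
def pairLap (a b : Fin n) (f : Graphs d → ℝ) (G : Graphs d) : ℝ := f G - pairAvg a b f G

/-- The sum of the pair Laplacians over ordered pairs of distinct vertices, halved. -/
def pairsLap (f : Graphs d → ℝ) (G : Graphs d) : ℝ :=
  (1 / 2) * ∑ p ∈ univ.filter (fun p : Fin n × Fin n => p.1 ≠ p.2), pairLap p.1 p.2 f G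

/-- The Dirichlet form of a pair. -/
def pairForm (a b : Fin n) (f : Graphs d → ℝ) : ℝ :=
  (1 / 2) * ∑ G, (∑ G' ∈ cls a b G, (f G - f G') ^ 2) / (cls a b G).card

/-- The graph obtained by replacing `ac`, `be` with `ae`, `bc`. -/
def SwitchedTo (a b c e : Fin n) (G G' : SimpleGraph (Fin n)) : Prop :=
  ∀ i j, G'.Adj i j ↔
    (G.Adj i j ∧ s(i, j) ≠ s(a, c) ∧ s(i, j) ≠ s(b, e)) ∨ s(i, j) = s(a, e) ∨ s(i, j) = s(b, c)

/-- Two graphs differ by one switch. -/
def IsSwitch (G G' : Graphs d) : Prop :=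
  ∃ a b c e : Fin n, a ≠ b ∧ a ≠ e ∧ b ≠ c ∧ c ≠ e ∧ G.1.Adj a c ∧ G.1.Adj b e ∧
    ¬G.1.Adj a e ∧ ¬G.1.Adj b c ∧ SwitchedTo a b c e G.1 G'.1

/-- The Dirichlet form of unit-rate switches. -/
def switchForm (f : Graphs d → ℝ) : ℝ :=
  (1 / 2) * ∑ G, ∑ G' ∈ univ.filter (IsSwitch G), (f G - f G') ^ 2

end Vale.Agent.P335
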