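import Vale.Agent.P335.Pins
import Vale.Agent.P335.Chain

/-!
From the gap of the pair heat baths to polynomial mixing of the switch chain.
-/

noncomputable section

open Finset
open scoped Classical

namespace Vale.Agent.P335

variable {n : ℕ} {d : Fin n → ℕ}

theorem isSwitch_ne {G H : Graphs d} (h : IsSwitch G H) : H ≠ G := by
  obtain ⟨a, b, c, e, -, -, -, -, -, -, hae, -, hs⟩ := h
  rintro rfl
  exact hae ((hs a e).2 (Or.inr (Or.inl rfl)))

theorem isSwitch_symm {G H : Graphs d} (h : IsSwitch G H) : IsSwitch H G := by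
  obtain ⟨a, b, c, e, hab, hae, hbc, hce, h1, h2, h3, h4, hs⟩ := h
  have hac : a ≠ c := h1.ne
  have hbe : b ≠ e := h2.ne
  have e1 : H.1.Adj a e := (hs a e).2 (Or.inr (Or.inl rfl))
  have e2 : H.1.Adj b c := (hs b c).2 (Or.inr (Or.inr rfl))
  have e3 : ¬ H.1.Adj a c := fun h => by
    rcases (hs a c).1 h with ⟨-, q, -⟩ | q | q
    · exact q rfl
    · simp [hce, hae] at q
    · simp [hab, hac] at q
  have e4 : ¬ H.1.Adj b e := fun h => by
    rcases (hs b e).1 h with ⟨-, -, q⟩ | q | q
    · exact q rfl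
    · simp [hab.symm, hbe] at q
    · simp [hce.symm, hbc] at q
  refine ⟨a, b, e, c, hab, hac, hbe, hce.symm, e1, e2, e3, e4, fun i j => ?_⟩
  constructor
  · intro hg
    by_cases k1 : s(i, j) = s(a, c)
    · exact Or.inr (Or.inl k1)
    by_cases k2 : s(i, j) = s(b, e)
    · exact Or.inr (Or.inr k2)
    refine Or.inl ⟨(hs i j).2 (Or.inl ⟨hg, k1, k2⟩), fun k => h3 ?_, fun k => h4 ?_⟩
    · have := (G.1.adj_congr_of_sym2 k).1 hg
      exact this
    · exact (G.1.adj_congr_of_sym2 k).1 hg
  · rintro (⟨hh, k1, k2⟩ | k | k)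
    · rcases (hs i j).1 hh with ⟨hg, -, -⟩ | q | q
      · exact hg
      · exact absurd q k1
      · exact absurd q k2
    · exact (G.1.adj_congr_of_sym2 k).2 h1
    · exact (G.1.adj_congr_of_sym2 k).2 h2

theorem SwitchedTo.swap {a b c e : Fin n} {G H : SimpleGraph (Fin n)}
    (h : SwitchedTo a b c e G H) : SwitchedTo b a e c G H := fun i j => by
  rw [h i j]; tauto

theorem SwitchedTo.flip {a b c e : Fin n} {G H : SimpleGraph (Fin n)}
    (h : SwitchedTo a b c e G H) : SwitchedTo c e a b G H := fun i j => by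
  rw [h i j, Sym2.eq_swap (a := c) (b := a), Sym2.eq_swap (a := e) (b := b),
    Sym2.eq_swap (a := c) (b := b), Sym2.eq_swap (a := e) (b := a)]
  tauto

/-- The ordered quadruples of distinct vertices. -/
def quads (n : ℕ) : Finset (Fin n × Fin n × Fin n × Fin n) := univ.filter fun q =>
  q.1 ≠ q.2.1 ∧ q.1 ≠ q.2.2.1 ∧ q.1 ≠ q.2.2.2 ∧ q.2.1 ≠ q.2.2.1 ∧ q.2.1 ≠ q.2.2.2 ∧
    q.2.2.1 ≠ q.2.2.2

/-- The quadruples naming the switch from G to K. -/
def fibre (G K : Graphs d) : Finset (Fin n × Fin n × Fin n × Fin n) := (quads n).filter fun q =>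
  G.1.Adj q.1 q.2.2.1 ∧ G.1.Adj q.2.1 q.2.2.2 ∧ ¬ G.1.Adj q.1 q.2.2.2 ∧
    ¬ G.1.Adj q.2.1 q.2.2.1 ∧ SwitchedTo q.1 q.2.1 q.2.2.1 q.2.2.2 G.1 K.1

theorem mem_fibre {G K : Graphs d} {a b c e : Fin n} (hab : a ≠ b) (hac : a ≠ c) (hae : a ≠ e)
    (hbc : b ≠ c) (hbe : b ≠ e) (hce : c ≠ e) (h1 : G.1.Adj a c) (h2 : G.1.Adj b e)
    (h3 : ¬ G.1.Adj a e) (h4 : ¬ G.1.Adj b c) (hs : SwitchedTo a b c e G.1 K.1) :
    (a, b, c, e) ∈ fibre G K :=
  mem_filter.2 ⟨mem_filter.2 ⟨mem_univ _, hab, hac, hae, hbc, hbe, hce⟩, h1, h2, h3, h4, hs⟩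

theorem four_mul_switches_le (G : Graphs d) :
    4 * #(univ.filter fun K : Graphs d => K ≠ G ∧ IsSwitch G K) ≤ 24 * n.choose 4 := by
  have hQ : #(quads n) ≤ 24 * n.choose 4 := by
    have hc : #(quads n) ≤ Fintype.card (Fin 4 ↪ Fin n) := by
      refine Finset.card_le_card_of_surjOn
        (fun g : Fin 4 ↪ Fin n => (g 0, g 1, g 2, g 3)) ?_
      intro q hq
      simp only [quads, coe_filter, mem_univ, true_and, Set.mem_setOf_eq] at hq
      obtain ⟨a, b, c, e⟩ := q
      refine ⟨⟨![a, b, c, e], ?_⟩, by simp, rfl⟩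
      intro i j hij
      fin_cases i <;> fin_cases j <;> simp_all [eq_comm]
    rw [Fintype.card_embedding_eq, Fintype.card_fin, Fintype.card_fin,
      Nat.descFactorial_eq_factorial_mul_choose] at hc
    simpa [Nat.factorial] using hc
  refine le_trans ?_ hQ
  have hd : ((univ.filter fun K : Graphs d => K ≠ G ∧ IsSwitch G K) : Set (Graphs d)).PairwiseDisjoint (fibre G) := by
    intro K _ K' _ hne
    refine Finset.disjoint_left.2 fun q h1 h2 => hne ?_
    simp only [fibre, mem_filter] at h1 h2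
    exact Subtype.ext (SimpleGraph.ext (funext fun i => funext fun j =>
      propext ((h1.2.2.2.2.2 i j).trans (h2.2.2.2.2.2 i j).symm)))
  calc 4 * #(univ.filter fun K : Graphs d => K ≠ G ∧ IsSwitch G K)
      = ∑ K ∈ univ.filter (fun K : Graphs d => K ≠ G ∧ IsSwitch G K), 4 := by
        simp [mul_comm]
    _ ≤ ∑ K ∈ univ.filter (fun K : Graphs d => K ≠ G ∧ IsSwitch G K), #(fibre G K) := by
        refine sum_le_sum fun K hK => ?_
        obtain ⟨a, b, c, e, hab, hae, hbc, hce, h1, h2, h3, h4, hs⟩ := (mem_filter.1 hK).2.2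
        have hac : a ≠ c := h1.ne
        have hbe : b ≠ e := h2.ne
        have hsub : ({(a, b, c, e), (b, a, e, c), (c, e, a, b), (e, c, b, a)} :
            Finset (Fin n × Fin n × Fin n × Fin n)) ⊆ fibre G K := by
          intro q hq
          simp only [mem_insert, mem_singleton] at hq
          rcases hq with rfl | rfl | rfl | rfl
          · exact mem_fibre hab hac hae hbc hbe hce h1 h2 h3 h4 hs
          · exact mem_fibre hab.symm hbe hbc hae hac hce.symm h2 h1 h4 h3 hs.swap
          · exact mem_fibre hce hac.symm hbc.symm hae.symm hbe.symm hab h1.symm h2.symm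
              (fun h => h4 h.symm) (fun h => h3 h.symm) hs.flip
          · exact mem_fibre hce.symm hbe.symm hae.symm hbc.symm hac.symm hab.symm h2.symm h1.symm
              (fun h => h3 h.symm) (fun h => h4 h.symm) hs.flip.swap
        refine le_trans ?_ (card_le_card hsub)
        simp [hab, hac, hae, hbc, hbe, hce, hab.symm, hac.symm, hae.symm, hbc.symm, hbe.symm,
          hce.symm]
    _ = #((univ.filter fun K : Graphs d => K ≠ G ∧ IsSwitch G K).biUnion (fibre G)) :=
        (card_biUnion hd).symm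
    _ ≤ #(quads n) := card_le_card fun q hq => by
        obtain ⟨K, -, h⟩ := mem_biUnion.1 hq
        exact (mem_filter.1 h).1

theorem moveProb_nonneg : 0 ≤ moveProb n := by unfold moveProb; positivity

theorem switchP_diag (hn : 4 ≤ n) (G : Graphs d) : 1 / 2 ≤ switchP d G G := by
  have h := four_mul_switches_le G
  have hc : (0 : ℝ) < n.choose 4 := by exact_mod_cast Nat.choose_pos hn
  have h' : ((#(univ.filter fun K : Graphs d => K ≠ G ∧ IsSwitch G K) : ℕ) : ℝ) ≤
      6 * (n.choose 4 : ℝ) := by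
    have : ((4 * #(univ.filter fun K : Graphs d => K ≠ G ∧ IsSwitch G K) : ℕ) : ℝ) ≤
        ((24 * n.choose 4 : ℕ) : ℝ) := by exact_mod_cast h
    push_cast at this
    linarith
  simp only [switchP, if_pos, sum_const, nsmul_eq_mul]
  have h2 : 6 * (n.choose 4 : ℝ) * moveProb n = 1 / 2 := by unfold moveProb; field_simp
  nlinarith [mul_le_mul_of_nonneg_right h' (moveProb_nonneg (n := n))]

theorem switchP_nonneg (hn : 4 ≤ n) (G H : Graphs d) : 0 ≤ switchP d G H := by
  by_cases h : G = H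
  · subst h; linarith [switchP_diag hn G]
  · simp only [switchP, if_neg h]; split_ifs <;> simp [moveProb_nonneg]

theorem switchP_symm (G H : Graphs d) : switchP d G H = switchP d H G := by
  by_cases h : G = H
  · subst h; rfl
  · simp only [switchP, if_neg h, if_neg (Ne.symm h)]
    exact if_congr ⟨isSwitch_symm, isSwitch_symm⟩ rfl rfl

theorem switchP_row (G : Graphs d) : ∑ H, switchP d G H = 1 := by
  rw [← add_sum_erase univ _ (mem_univ G)]
  have : ∑ H ∈ univ.erase G, switchP d G H =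
      ∑ _K ∈ univ.filter (fun K => K ≠ G ∧ IsSwitch G K), moveProb n := by
    rw [← filter_ne' univ G, sum_filter, sum_filter]
    refine sum_congr rfl fun H _ => ?_
    by_cases h : H = G
    · simp [h]
    · simp [switchP, h, Ne.symm h]
  rw [this]
  simp [switchP]

theorem switchForm_eq (hn : 4 ≤ n) (f : Graphs d → ℝ) :
    switchForm f =
      6 * (n.choose 4 : ℝ) * ∑ G, ∑ H, switchP d G H * (f G - f H) ^ 2 := by
  have hc : (0 : ℝ) < n.choose 4 := by exact_mod_cast Nat.choose_pos hn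
  have e : ∀ G H, switchP d G H * (f G - f H) ^ 2 =
      moveProb n * if IsSwitch G H then (f G - f H) ^ 2 else 0 := by
    intro G H
    by_cases h : G = H
    · subst h; simp
    · simp only [switchP, if_neg h]; split_ifs <;> simp
  simp only [e, ← mul_sum, ← sum_filter, switchForm]
  unfold moveProb
  field_simp

theorem card_graphs_le : (Fintype.card (Graphs d) : ℝ) ≤ 2 ^ (n * n) := by
  have h := Fintype.card_le_of_injective
    (fun (G : Graphs d) (i j : Fin n) => decide (G.1.Adj i j))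
    (fun G H h => Subtype.ext (SimpleGraph.ext (funext fun i => funext fun j => by
      have := congrFun (congrFun h i) j
      simpa using this)))
  simp only [Fintype.card_fun, Fintype.card_fin, Fintype.card_bool, ← pow_mul] at h
  exact_mod_cast h

theorem rapidMixing_of (hgap : GapThm) (hcomp : CompThm) : RapidMixing := by
  refine ⟨32, 10, fun n hn d t ht G => ?_⟩
  have : Nonempty (Graphs d) := ⟨G⟩
  have hn0 : (4 : ℝ) ≤ n := by exact_mod_cast hn
  have hP : ∀ f : Graphs d → ℝ, (∑ x, ∑ y, (f x - f y) ^ 2) / Fintype.card (Graphs d) ≤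
      16 * (n : ℝ) ^ 8 * ∑ x, ∑ y, switchP d x y * (f x - f y) ^ 2 := by
    intro f
    have h1 := hgap n d f
    have h2 : ip f (pairsLap f) ≤ (1 / 2) * ((n : ℝ) ^ 2 * (4 * (n : ℝ) ^ 2 * switchForm f)) := by
      have he : ip f (pairsLap f) = (1 / 2) *
          ∑ p ∈ univ.filter (fun p : Fin n × Fin n => p.1 ≠ p.2), ip f (pairLap p.1 p.2 f) := by
        simp only [ip, pairsLap, mul_sum]
        rw [sum_comm]
        refine sum_congr rfl fun p _ => sum_congr rfl fun x _ => ?_
        ring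
      rw [he]
      refine mul_le_mul_of_nonneg_left ?_ (by norm_num)
      have hsf : 0 ≤ switchForm f := by unfold switchForm; positivity
      calc _ ≤ ∑ p ∈ univ.filter (fun p : Fin n × Fin n => p.1 ≠ p.2),
            4 * (n : ℝ) ^ 2 * switchForm f :=
            sum_le_sum fun p hp => hcomp n d p.1 p.2 (mem_filter.1 hp).2 f
        _ ≤ _ := by
          rw [sum_const, nsmul_eq_mul]
          refine mul_le_mul_of_nonneg_right ?_ (by positivity)
          have : #(univ.filter fun p : Fin n × Fin n => p.1 ≠ p.2) ≤ n ^ 2 :=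
            (card_filter_le _ _).trans_eq (by simp [sq])
          exact_mod_cast this
    have h3 := switchForm_eq (d := d) hn f
    have hc : 6 * (n.choose 4 : ℝ) ≤ (n : ℝ) ^ 4 := by
      have h4 := Nat.descFactorial_eq_factorial_mul_choose n 4
      have h5 := Nat.descFactorial_le_pow n 4
      have : ((24 * n.choose 4 : ℕ) : ℝ) ≤ ((n ^ 4 : ℕ) : ℝ) := by
        have : 24 * n.choose 4 ≤ n ^ 4 := by
          rw [h4] at h5; simpa [Nat.factorial] using h5
        exact_mod_cast this
      push_cast at this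
      have : (0 : ℝ) ≤ n.choose 4 := Nat.cast_nonneg _
      linarith
    have hD : 0 ≤ ∑ x, ∑ y, switchP d x y * (f x - f y) ^ 2 :=
      sum_nonneg fun x _ => sum_nonneg fun y _ => mul_nonneg (switchP_nonneg hn x y) (sq_nonneg _)
    have h6 : switchForm f ≤ (n : ℝ) ^ 4 * ∑ x, ∑ y, switchP d x y * (f x - f y) ^ 2 := by
      rw [h3]; exact mul_le_mul_of_nonneg_right hc hD
    rw [mul_comm (2 : ℝ), ← div_div, div_le_iff₀ (by norm_num : (0 : ℝ) < 2)] at h1
    calc _ ≤ 4 * ip f (pairsLap f) * 2 := h1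
      _ ≤ 4 * ((1 / 2) * ((n : ℝ) ^ 2 * (4 * (n : ℝ) ^ 2 *
          ((n : ℝ) ^ 4 * ∑ x, ∑ y, switchP d x y * (f x - f y) ^ 2)))) * 2 := by
          have : (0 : ℝ) ≤ (n : ℝ) ^ 2 := by positivity
          nlinarith [mul_le_mul_of_nonneg_left h6 (by positivity : (0 : ℝ) ≤ (n : ℝ) ^ 4), h2]
      _ = _ := by ring
  have hlog : Real.log (Fintype.card (Graphs d)) + 2 ≤ 2 * (n : ℝ) ^ 2 := by
    have h0 : (0 : ℝ) < Fintype.card (Graphs d) := by exact_mod_cast Fintype.card_pos
    have h1 := Real.log_le_log h0 (card_graphs_le (d := d))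
    rw [Real.log_pow] at h1
    push_cast at h1
    have h2 := Real.log_two_lt_d9
    nlinarith [mul_le_mul_of_nonneg_left (le_of_lt h2) (by positivity : (0 : ℝ) ≤ (n : ℝ) * n)]
  refine mix_of_poincare (P := switchP d) (K := 16 * (n : ℝ) ^ 8) (switchP_nonneg hn)
    switchP_symm switchP_row (switchP_diag hn) (by positivity) hP ?_ G
  have ht' : ((32 * n ^ 10 : ℕ) : ℝ) ≤ t := by exact_mod_cast ht
  push_cast at ht'
  nlinarith [mul_le_mul_of_nonneg_left hlog (by positivity : (0 : ℝ) ≤ 16 * (n : ℝ) ^ 8)]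

end Vale.Agent.P335
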