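import Mathlib

/-!
The inequality on a Johnson slice which controls the disjoint vertex pairs in the proof that the
switch chain mixes rapidly for every degree sequence.
-/

noncomputable section

open Finset

namespace Vale.Agent.P335

variable {V : Type*} [DecidableEq V]

/-- The `k`-subsets of `D` containing `c` but not `d`. -/
def oppSets (D : Finset V) (k : ℕ) (c d : V) : Finset (Finset V) :=
  (D.powersetCard k).filter fun A => c ∈ A ∧ d ∉ A

/-- Exchanging `c` for `d`. -/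
def exch (c d : V) (A : Finset V) : Finset V := insert d (A.erase c)

/-- The part of the disjoint-pair term charged to a slice at the slots `c`, `d`. -/
def slack (D : Finset V) (k : ℕ) (u : Finset V → ℝ) (c d : V) : ℝ :=
  (∑ A ∈ oppSets D k c d, (u A - u (exch c d A)) ^ 2) / 2 -
    (∑ A ∈ oppSets D k c d, (u A + u (exch c d A))) ^ 2 / (2 * ((oppSets D k c d).card : ℝ))

variable {D : Finset V} {k : ℕ} {u : Finset V → ℝ}

/-- The sum of `u` over the sets containing all of `R`. -/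
def inc (D : Finset V) (k : ℕ) (u : Finset V → ℝ) (R : Finset V) : ℝ :=
  ∑ A ∈ D.powersetCard k, if R ⊆ A then u A else 0

/-- The number of `k`-subsets of an `m`-set containing a fixed `r`-subset. -/
def cnt (m k r : ℕ) : ℕ := if r ≤ k then (m - r).choose (k - r) else 0

theorem card_containing {R : Finset V} (hR : R ⊆ D) :
    ((D.powersetCard k).filter (R ⊆ ·)).card = cnt D.card k R.card := by
  rw [cnt]
  split_ifs with h
  · rw [← card_sdiff_of_subset hR, ← card_powersetCard]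
    refine card_bij' (fun A _ => A \ R) (fun B _ => B ∪ R) ?_ ?_ ?_ ?_ <;> intro A hA <;>
      simp only [mem_filter, mem_powersetCard] at hA ⊢
    · exact ⟨sdiff_subset_sdiff hA.1.1 subset_rfl, by rw [card_sdiff_of_subset hA.2, hA.1.2]⟩
    · have hd : Disjoint A R := disjoint_of_subset_left hA.1 sdiff_disjoint
      refine ⟨⟨union_subset (hA.1.trans sdiff_subset) hR, ?_⟩, subset_union_right⟩
      rw [card_union_of_disjoint hd, hA.2]
      omega
    · exact sdiff_union_of_subset hA.2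
    · exact union_sdiff_cancel_right (disjoint_of_subset_left hA.1 sdiff_disjoint)
  · rw [card_eq_zero, filter_eq_empty_iff]
    intro A hA hRA
    exact h ((mem_powersetCard.1 hA).2 ▸ card_le_card hRA)

theorem sum_eq_ite {A : Finset V} (hAD : A ⊆ D) (g : V → ℝ) :
    ∑ c ∈ A, g c = ∑ c ∈ D, if c ∈ A then g c else 0 := by
  rw [sum_ite_mem, inter_eq_right.2 hAD]

theorem exch_mem {c d : V} (hd : d ∈ D) {A : Finset V} (hA : A ∈ oppSets D k c d) :
    exch c d A ∈ oppSets D k d c ∧ exch d c (exch c d A) = A := by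
  simp only [oppSets, mem_filter, mem_powersetCard, exch] at hA ⊢
  obtain ⟨⟨hAD, hk⟩, hc, hdA⟩ := hA
  have hne : c ≠ d := fun h => hdA (h ▸ hc)
  have hcard : 0 < A.card := card_pos.2 ⟨c, hc⟩
  refine ⟨⟨⟨insert_subset hd ((erase_subset _ _).trans hAD), ?_⟩, mem_insert_self _ _, ?_⟩, ?_⟩
  · rw [card_insert_of_notMem fun h => hdA (mem_erase.1 h).2, card_erase_of_mem hc]
    omega
  · simp [hne]
  · ext x
    simp only [mem_insert, mem_erase]
    by_cases h1 : x = c <;> by_cases h2 : x = d <;> simp_all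

theorem sum_exch {c d : V} (hc : c ∈ D) (hd : d ∈ D) (g : Finset V → ℝ) :
    ∑ A ∈ oppSets D k c d, g (exch c d A) = ∑ A ∈ oppSets D k d c, g A :=
  sum_bij' (fun A _ => exch c d A) (fun A _ => exch d c A) (fun _ h => (exch_mem hd h).1)
    (fun _ h => (exch_mem hc h).1) (fun _ h => (exch_mem hd h).2) (fun _ h => (exch_mem hc h).2)
    fun _ _ => rfl

theorem slack_ge {c d : V} (hc : c ∈ D) (hd : d ∈ D) :
    -(2 * (∑ A ∈ oppSets D k c d, u A) * (∑ A ∈ oppSets D k d c, u A)) /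
        ((oppSets D k c d).card : ℝ) ≤ slack D k u c d := by
  rcases (oppSets D k c d).eq_empty_or_nonempty with h | h
  · simp [slack, h]
  have hn : (0 : ℝ) < (oppSets D k c d).card := Nat.cast_pos.2 (card_pos.2 h)
  have cs := sq_sum_le_card_mul_sum_sq (s := oppSets D k c d)
    (f := fun A => u A - u (exch c d A))
  rw [sum_sub_distrib, sum_exch hc hd] at cs
  rw [slack, sum_add_distrib, sum_exch hc hd]
  rw [div_le_iff₀ hn, sub_mul]
  field_simp
  linarith

theorem inc_pair (c d : V) :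
    ∑ A ∈ oppSets D k c d, u A = inc D k u {c} - inc D k u {c, d} := by
  rw [oppSets, sum_filter, inc, inc, ← sum_sub_distrib]
  refine sum_congr rfl fun A _ => ?_
  by_cases h1 : c ∈ A <;> by_cases h2 : d ∈ A <;> simp [h1, h2, insert_subset_iff]

theorem sum_inc_single : ∑ c ∈ D, inc D k u {c} = (k : ℝ) * ∑ A ∈ D.powersetCard k, u A := by
  simp only [inc, singleton_subset_iff]
  rw [sum_comm, mul_sum]
  refine sum_congr rfl fun A hA => ?_
  obtain ⟨hAD, hk⟩ := mem_powersetCard.1 hA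
  rw [sum_ite_mem, inter_eq_right.2 hAD, sum_const, hk, nsmul_eq_mul]

theorem sum_inc_pair {c : V} (hc : c ∈ D) :
    ∑ d ∈ D.erase c, inc D k u {c, d} = ((k : ℝ) - 1) * inc D k u {c} := by
  simp only [inc]
  rw [sum_comm, mul_sum]
  refine sum_congr rfl fun A hA => ?_
  obtain ⟨hAD, hk⟩ := mem_powersetCard.1 hA
  by_cases h : c ∈ A
  · simp only [insert_subset_iff, h, true_and, singleton_subset_iff, if_true]
    rw [sum_ite_mem, show D.erase c ∩ A = A.erase c by
        ext x; simp only [mem_inter, mem_erase]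
        exact ⟨fun hx => ⟨hx.1.1, hx.2⟩, fun hx => ⟨⟨hx.1, hAD hx.2⟩, hx.2⟩⟩,
      sum_const, card_erase_of_mem h, hk, nsmul_eq_mul,
      Nat.cast_sub (hk ▸ card_pos.2 ⟨c, h⟩ : 1 ≤ k), Nat.cast_one]
  · simp [insert_subset_iff, h]

/-- The centred pair statistics. -/
def dev (D : Finset V) (k : ℕ) (u : Finset V → ℝ) (c d : V) : ℝ :=
  if c = d then 0 else inc D k u {c, d} -
    ((k : ℝ) - 1) / ((D.card : ℝ) - 2) * (inc D k u {c} + inc D k u {d})

theorem dev_comm (c d : V) : dev D k u c d = dev D k u d c := by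
  rw [dev, dev]
  rcases eq_or_ne c d with rfl | h
  · rfl
  · rw [if_neg h, if_neg h.symm, pair_comm c d]; ring

theorem sum_erase_dev {c : V} (hc : c ∈ D) (hm : 3 ≤ D.card)
    (h0 : ∑ A ∈ D.powersetCard k, u A = 0) : ∑ d ∈ D, dev D k u c d = 0 := by
  rw [← add_sum_erase D _ hc]
  have e : ∀ d ∈ D.erase c, dev D k u c d = inc D k u {c, d} -
      ((k : ℝ) - 1) / ((D.card : ℝ) - 2) * (inc D k u {c} + inc D k u {d}) := fun d hd =>
    if_neg (mem_erase.1 hd).1.symm
  rw [sum_congr rfl e, sum_sub_distrib, sum_inc_pair hc, ← mul_sum, sum_add_distrib, sum_const,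
    card_erase_of_mem hc, nsmul_eq_mul, Nat.cast_sub (by omega : 1 ≤ D.card), Nat.cast_one,
    sum_erase_eq_sub hc, sum_inc_single, h0, dev, if_pos rfl]
  have : (3 : ℝ) ≤ D.card := by exact_mod_cast hm
  field_simp [show ((D.card : ℝ) - 2) ≠ 0 by linarith]
  ring

/-- Second moment of a quadratic statistic with zero diagonal and zero row sums. -/
theorem sum_sq_quad {M : V → V → ℝ} (hsym : ∀ c d, M c d = M d c) (hdiag : ∀ c, M c c = 0)
    (hrow : ∀ c ∈ D, ∑ d ∈ D, M c d = 0) :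
    ∑ A ∈ D.powersetCard k, (∑ c ∈ A, ∑ d ∈ A, M c d) ^ 2 =
      2 * ((cnt D.card k 2 : ℝ) - 2 * cnt D.card k 3 + cnt D.card k 4) *
        ∑ c ∈ D, ∑ d ∈ D, M c d ^ 2 := by
  set w : ℕ → ℝ := fun r => (cnt D.card k r : ℝ) with hw
  have h1 : ∀ A ∈ D.powersetCard k, (∑ c ∈ A, ∑ d ∈ A, M c d) ^ 2 =
      ∑ c ∈ D, ∑ d ∈ D, ∑ e ∈ D, ∑ g ∈ D,
        if ({c, d, e, g} : Finset V) ⊆ A then M c d * M e g else 0 := fun A hA => by
    have hAD := (mem_powersetCard.1 hA).1
    rw [sq, sum_mul, sum_eq_ite hAD]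
    refine sum_congr rfl fun c _ => ?_
    by_cases hc : c ∈ A
    · rw [if_pos hc, sum_mul, sum_eq_ite hAD]
      refine sum_congr rfl fun d _ => ?_
      by_cases hd : d ∈ A
      · rw [if_pos hd, mul_sum, sum_eq_ite hAD]
        refine sum_congr rfl fun e _ => ?_
        by_cases he : e ∈ A
        · rw [if_pos he, mul_sum, sum_eq_ite hAD]
          exact sum_congr rfl fun g _ => by simp [insert_subset_iff, hc, hd, he]
        · rw [if_neg he]; simp [insert_subset_iff, he]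
      · rw [if_neg hd]; simp [insert_subset_iff, hd]
    · rw [if_neg hc]; simp [insert_subset_iff, hc]
  rw [sum_congr rfl h1, sum_comm]
  simp only [sum_comm (s := D.powersetCard k)]
  rw [mul_sum]
  refine sum_congr rfl fun c hc => ?_
  rw [mul_sum]
  refine sum_congr rfl fun d hd => ?_
  rcases eq_or_ne c d with rfl | hcd
  · simp [hdiag]
  let I : V → ℝ := fun e => if e = c ∨ e = d then 1 else 0
  have h2 : ∀ e ∈ D, ∀ g ∈ D,
      (∑ A ∈ D.powersetCard k, if ({c, d, e, g} : Finset V) ⊆ A then M c d * M e g else 0) =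
        M c d * ((w 4 * M e g + (w 3 - w 4) * (I e * M e g) + (w 3 - w 4) * (I g * M e g)) +
          (w 2 - 2 * w 3 + w 4) * (I e * I g * M e g)) := by
    intro e he g hg
    rcases eq_or_ne e g with rfl | heg
    · simp [hdiag]
    rw [← sum_filter, sum_const, nsmul_eq_mul, card_containing (by simp [insert_subset_iff, hc, hd, he, hg])]
    have hset : ({c, d, e, g} : Finset V) = insert e (insert g {c, d}) := by
      ext x; simp only [mem_insert, mem_singleton]; tauto
    rw [hset, card_insert_eq_ite, card_insert_eq_ite, card_pair hcd]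
    simp only [mem_insert, mem_singleton, heg, false_or, I, hw]
    by_cases e1 : e = c ∨ e = d <;> by_cases g1 : g = c ∨ g = d <;>
      simp only [e1, g1, if_true, if_false, one_mul, zero_mul, mul_zero, mul_one] <;> ring
  rw [sum_congr rfl fun e he => sum_congr rfl (h2 e he)]
  have hI : ∀ φ : V → ℝ, ∑ e ∈ D, I e * φ e = φ c + φ d := fun φ => by
    rw [← sum_subset (s₁ := {c, d}) (by simp [insert_subset_iff, hc, hd]) fun x _ hx => by
      simp at hx; simp [I, hx]]
    simp [sum_pair hcd, I]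
  have hc1 : ∑ e ∈ D, ∑ g ∈ D, M e g = 0 := sum_eq_zero hrow
  have hc2 : ∑ e ∈ D, I e * ∑ g ∈ D, M e g = 0 :=
    sum_eq_zero fun e he => by rw [hrow e he, mul_zero]
  have hc3 : ∑ e ∈ D, ∑ g ∈ D, I g * M e g = 0 := by
    rw [sum_comm]
    refine sum_eq_zero fun g hg => ?_
    simp only [hsym _ g, ← mul_sum, hrow g hg, mul_zero]
  have hc4 : ∑ e ∈ D, ∑ g ∈ D, I e * I g * M e g = 2 * M c d := by
    simp only [mul_assoc, ← mul_sum, hI, hdiag, hsym d c]
    ring
  simp only [← mul_sum, sum_add_distrib, hc1, hc2, hc3, hc4, hw]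
  ring

theorem cnt_combination {m : ℕ} (h1 : 2 ≤ k) (h2 : k + 2 ≤ m) :
    (cnt m k 2 : ℝ) - 2 * cnt m k 3 + cnt m k 4 = ((m - 4).choose (k - 2) : ℝ) := by
  obtain ⟨j, rfl⟩ : ∃ j, m = j + 4 := ⟨m - 4, by omega⟩
  rcases k with _ | _ | _ | _ | i
  · omega
  · omega
  · simp [cnt]
  · simp [cnt]
  · simp only [cnt, if_pos (by omega : 2 ≤ i + 4), if_pos (by omega : 3 ≤ i + 4),
      if_pos (by omega : 4 ≤ i + 4), show j + 4 - 2 = j + 2 by omega,
      show j + 4 - 3 = j + 1 by omega, show i + 4 - 2 = i + 2 by omega,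
      show i + 4 - 3 = i + 1 by omega, Nat.add_sub_cancel]
    rw [Nat.choose_succ_succ' (j + 1) (i + 1), Nat.choose_succ_succ' j i,
      Nat.choose_succ_succ' j (i + 1)]
    push_cast
    ring

theorem choose_ratio {m : ℕ} (h1 : 2 ≤ k) (h2 : k + 2 ≤ m) (h5 : 5 ≤ m) :
    2 * ((m - 4).choose (k - 2) : ℝ) ≤ 3 / 4 * (m - 2).choose (k - 1) := by
  obtain ⟨j, rfl⟩ : ∃ j, m = j + 4 := ⟨m - 4, by omega⟩
  obtain ⟨i, rfl⟩ : ∃ i, k = i + 2 := ⟨k - 2, by omega⟩
  simp only [show j + 4 - 4 = j by omega, show j + 4 - 2 = j + 2 by omega, Nat.add_sub_cancel,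
    show i + 2 - 1 = i + 1 by omega]
  have e1 : (j + 2) * (j + 1).choose i = (j + 2).choose (i + 1) * (i + 1) :=
    Nat.add_one_mul_choose_eq (j + 1) i
  have e2 : j.choose i * (j + 1) = (j + 1).choose i * (j + 1 - i) := Nat.choose_mul_succ_eq j i
  have e3 : ((j + 2).choose (i + 1) : ℝ) * ((i + 1) * ((j : ℝ) + 1 - i)) =
      ((j : ℝ) + 2) * (j + 1) * j.choose i := by
    have e1' := congrArg (fun x : ℕ => (x : ℝ)) e1
    have e2' := congrArg (fun x : ℕ => (x : ℝ)) e2
    push_cast [Nat.cast_sub (by omega : i ≤ j + 1)] at e1' e2'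
    linear_combination ((j : ℝ) + 1 - i) * (-e1') - ((j : ℝ) + 2) * e2'
  have hj : (1 : ℝ) ≤ j := by exact_mod_cast (by omega : 1 ≤ j)
  have hpos : (0 : ℝ) ≤ (j + 2).choose (i + 1) := Nat.cast_nonneg _
  refine le_of_mul_le_mul_left ?_ (show (0 : ℝ) < ((j : ℝ) + 2) * (j + 1) by positivity)
  nlinarith [mul_nonneg hpos (sq_nonneg ((i : ℝ) + 1 - ((j : ℝ) + 1 - i))), mul_nonneg hpos
    (show (0 : ℝ) ≤ ((j : ℝ) + 2) * (j - 1) by nlinarith)]

theorem card_oppSets {c d : V} (hc : c ∈ D) (hd : d ∈ D) (hcd : c ≠ d) (hk : 1 ≤ k) :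
    (oppSets D k c d).card = (D.card - 2).choose (k - 1) := by
  rw [show D.card - 2 = ((D.erase c).erase d).card by
    rw [card_erase_of_mem (mem_erase.2 ⟨hcd.symm, hd⟩), card_erase_of_mem hc]; omega,
    ← card_powersetCard]
  refine card_bij' (fun A _ => A.erase c) (fun B _ => insert c B) ?_ ?_ ?_ ?_ <;> intro A hA <;>
    simp only [oppSets, mem_filter, mem_powersetCard] at hA ⊢
  · refine ⟨fun x hx => ?_, by rw [card_erase_of_mem hA.2.1, hA.1.2]⟩
    obtain ⟨h1, h2⟩ := mem_erase.1 hx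
    exact mem_erase.2 ⟨fun h => hA.2.2 (h ▸ h2), mem_erase.2 ⟨h1, hA.1.1 h2⟩⟩
  · have hcA : c ∉ A := fun h => (mem_erase.1 (mem_erase.1 (hA.1 h)).2).1 rfl
    refine ⟨⟨insert_subset hc fun x hx => (mem_erase.1 (mem_erase.1 (hA.1 hx)).2).2, ?_⟩,
      mem_insert_self _ _, ?_⟩
    · rw [card_insert_of_notMem hcA, hA.2]; omega
    · simp only [mem_insert, not_or]
      exact ⟨hcd.symm, fun h => (mem_erase.1 (hA.1 h)).1 rfl⟩
  · exact insert_erase hA.2.1
  · exact erase_insert fun h => (mem_erase.1 (mem_erase.1 (hA.1 h)).2).1 rfl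

theorem oppSets_self (c : V) : oppSets D k c c = ∅ :=
  filter_eq_empty_iff.2 fun _ _ h => h.2 h.1

/-- The key sum, by one Cauchy–Schwarz. -/
theorem sum_prod_le (h1 : 2 ≤ k) (h2 : k + 2 ≤ D.card) (h0 : ∑ A ∈ D.powersetCard k, u A = 0) :
    ∑ c ∈ D, ∑ d ∈ D.erase c,
        (inc D k u {c} - inc D k u {c, d}) * (inc D k u {d} - inc D k u {d, c}) ≤
      2 * ((D.card - 4).choose (k - 2) : ℝ) * ∑ A ∈ D.powersetCard k, u A ^ 2 := by
  set lam := 2 * ((D.card - 4).choose (k - 2) : ℝ)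
  set al := ((k : ℝ) - 1) / ((D.card : ℝ) - 2) with hal
  set a : V → ℝ := fun c => inc D k u {c} with ha
  set M : V → V → ℝ := dev D k u with hM
  have hm : 3 ≤ D.card := by omega
  have hrow : ∀ c ∈ D, ∑ d ∈ D, M c d = 0 := fun c hc => sum_erase_dev hc hm h0
  have hsa : ∑ c ∈ D, a c = 0 := by rw [ha, sum_inc_single, h0, mul_zero]
  have hdiag : ∀ c, M c c = 0 := fun c => if_pos rfl
  have hrow' : ∀ c ∈ D, ∑ d ∈ D.erase c, M c d = 0 := fun c hc => by
    rw [sum_erase_eq_sub hc, hrow c hc, hdiag, sub_zero]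
  have hs : ∀ c d, c ≠ d → inc D k u {c, d} = M c d + al * (a c + a d) := fun c d h => by
    simp [hM, dev, h, hal, ha]
  -- the correlation of `u` with the quadratic statistic
  have hG : ∑ A ∈ D.powersetCard k, u A * ∑ c ∈ A, ∑ d ∈ A, M c d =
      ∑ c ∈ D, ∑ d ∈ D, M c d ^ 2 := by
    have e : ∀ A ∈ D.powersetCard k, u A * ∑ c ∈ A, ∑ d ∈ A, M c d =
        ∑ c ∈ D, ∑ d ∈ D, M c d * if ({c, d} : Finset V) ⊆ A then u A else 0 := fun A hA => by
      have hAD := (mem_powersetCard.1 hA).1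
      rw [mul_sum, sum_eq_ite hAD]
      refine sum_congr rfl fun c _ => ?_
      by_cases hc : c ∈ A
      · rw [if_pos hc, mul_sum, sum_eq_ite hAD]
        exact sum_congr rfl fun d _ => by simp [insert_subset_iff, hc, mul_comm]
      · rw [if_neg hc]; simp [insert_subset_iff, hc]
    rw [sum_congr rfl e, sum_comm]
    simp only [sum_comm (s := D.powersetCard k), ← mul_sum]
    change ∑ c ∈ D, ∑ d ∈ D, M c d * inc D k u {c, d} = _
    rw [← sub_eq_zero, ← sum_sub_distrib]
    simp only [← sum_sub_distrib]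
    have e2 : ∀ c ∈ D, ∀ d ∈ D, M c d * inc D k u {c, d} - M c d ^ 2 =
        al * a c * M c d + al * (M c d * a d) := fun c _ d _ => by
      rcases eq_or_ne c d with rfl | h
      · simp [hdiag]
      · rw [hs c d h]; ring
    rw [sum_congr rfl fun c hc => sum_congr rfl (e2 c hc)]
    simp only [sum_add_distrib, ← mul_sum]
    rw [sum_eq_zero fun c hc => by rw [hrow c hc, mul_zero],
      sum_comm (f := fun c d => M c d * a d)]
    simp only [← sum_mul]
    rw [sum_eq_zero fun d hd => by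
      rw [sum_congr rfl fun c _ => dev_comm c d, show ∑ c ∈ D, dev D k u d c = 0 from hrow d hd,
        zero_mul]]
    ring
  set Q := ∑ c ∈ D, ∑ d ∈ D, M c d ^ 2 with hQ
  set U := ∑ A ∈ D.powersetCard k, u A ^ 2 with hU
  have hU0 : 0 ≤ U := sum_nonneg fun _ _ => sq_nonneg _
  have hQ0 : 0 ≤ Q := sum_nonneg fun _ _ => sum_nonneg fun _ _ => sq_nonneg _
  have hlam : 0 ≤ lam := mul_nonneg two_pos.le (Nat.cast_nonneg _)
  have hCS := sum_mul_sq_le_sq_mul_sq (D.powersetCard k) u fun A => ∑ c ∈ A, ∑ d ∈ A, M c d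
  rw [hG, sum_sq_quad (fun c d => dev_comm c d) hdiag hrow, cnt_combination h1 h2] at hCS
  have hQle : Q ≤ lam * U := by
    rcases hQ0.eq_or_lt with h | h
    · rw [← h]; positivity
    · refine le_of_mul_le_mul_left ?_ h
      simp only [lam]
      nlinarith [hCS]
  -- the algebra of the four sums
  have e3 : ∀ c ∈ D, ∀ d ∈ D.erase c,
      (inc D k u {c} - inc D k u {c, d}) * (inc D k u {d} - inc D k u {d, c}) =
        (1 - 2 * al + 2 * al ^ 2) * (a c * a d) + (al ^ 2 - al) * a c ^ 2 + (al ^ 2 - al) * a d ^ 2 +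
          M c d ^ 2 + (2 * al - 1) * (a c * M c d) + (2 * al - 1) * (M c d * a d) := fun c _ d hd => by
    rw [show ({d, c} : Finset V) = {c, d} from pair_comm d c, hs c d (mem_erase.1 hd).1.symm]
    simp only [ha]
    ring
  rw [sum_congr rfl fun c hc => sum_congr rfl (e3 c hc)]
  simp only [sum_add_distrib, ← mul_sum]
  have n1 : ∀ c ∈ D, ∑ d ∈ D.erase c, a d = -a c := fun c hc => by
    rw [sum_erase_eq_sub hc, hsa, zero_sub]
  set S := ∑ c ∈ D, a c ^ 2 with hS
  have t1 : ∑ c ∈ D, a c * ∑ d ∈ D.erase c, a d = -S := by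
    rw [hS, ← sum_neg_distrib]
    exact sum_congr rfl fun c hc => by rw [n1 c hc]; ring
  have t2 : ∑ c ∈ D, ∑ _d ∈ D.erase c, a c ^ 2 = ((D.card : ℝ) - 1) * S := by
    rw [mul_sum]
    exact sum_congr rfl fun c hc => by
      rw [sum_const, card_erase_of_mem hc, nsmul_eq_mul, Nat.cast_sub (by omega : 1 ≤ D.card)]
      simp
  have t3 : ∑ c ∈ D, ∑ d ∈ D.erase c, a d ^ 2 = ((D.card : ℝ) - 1) * S := by
    rw [sum_congr rfl fun c hc => sum_erase_eq_sub (f := fun d => a d ^ 2) hc, sum_sub_distrib,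
      sum_const, nsmul_eq_mul]
    ring
  have t4 : ∑ c ∈ D, ∑ d ∈ D.erase c, M c d ^ 2 = Q :=
    sum_congr rfl fun c hc => by rw [sum_erase_eq_sub hc, hdiag]; simp
  have t5 : ∑ c ∈ D, a c * ∑ d ∈ D.erase c, M c d = 0 :=
    sum_eq_zero fun c hc => by rw [hrow' c hc, mul_zero]
  have t6 : ∑ c ∈ D, ∑ d ∈ D.erase c, M c d * a d = 0 := by
    rw [sum_congr rfl fun c hc => sum_erase_eq_sub (f := fun d => M c d * a d) hc, sum_sub_distrib]
    rw [sum_comm]
    simp only [hdiag, zero_mul, sum_const_zero, sub_zero, ← sum_mul]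
    refine sum_eq_zero fun d hd => ?_
    rw [sum_congr rfl fun c _ => dev_comm c d, show ∑ c ∈ D, dev D k u d c = 0 from hrow d hd,
      zero_mul]
  simp only [t1, t2, t3, t4, t5, t6]
  have hal2 : al * ((D.card : ℝ) - 2) = (k : ℝ) - 1 := by
    rw [hal, div_mul_cancel₀]
    have : (3 : ℝ) ≤ D.card := by exact_mod_cast hm
    linarith
  have hal0 : 0 ≤ al ∧ al ≤ 1 := by
    have h1' : (2 : ℝ) ≤ k := by exact_mod_cast h1
    have h2' : (k : ℝ) + 2 ≤ D.card := by exact_mod_cast h2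
    constructor
    · exact div_nonneg (by linarith) (by linarith)
    · rw [hal, div_le_one (by linarith)]; linarith
  have hm' : (3 : ℝ) ≤ D.card := by exact_mod_cast hm
  have hcoef : (1 - 2 * al + 2 * al ^ 2) * -S +
      2 * ((al ^ 2 - al) * (((D.card : ℝ) - 1) * S)) ≤ 0 := by
    have e : (1 - 2 * al + 2 * al ^ 2) * -S + 2 * ((al ^ 2 - al) * (((D.card : ℝ) - 1) * S)) =
        -(1 + 2 * ((D.card : ℝ) - 2) * (al * (1 - al))) * S := by ring
    rw [e]
    have hS0 : 0 ≤ S := sum_nonneg fun _ _ => sq_nonneg _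
    nlinarith [mul_nonneg (mul_nonneg hal0.1 (sub_nonneg.2 hal0.2)) (show (0 : ℝ) ≤ (D.card : ℝ) - 2 by linarith)]
  linarith [hQle, hcoef]

theorem slack_two {c d e g : V} (hD : D = {c, d, e, g}) (h1 : c ≠ d) (h2 : c ≠ e) (h3 : c ≠ g)
    (h4 : d ≠ e) (h5 : d ≠ g) (h6 : e ≠ g) :
    slack D 2 u c d = ((u {c, e} - u {d, e}) ^ 2 + (u {c, g} - u {d, g}) ^ 2) / 2 -
      (u {c, e} + u {c, g} + (u {d, e} + u {d, g})) ^ 2 / 4 := by
  have ho : oppSets D 2 c d = {{c, e}, {c, g}} := by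
    ext A
    simp only [oppSets, mem_filter, mem_powersetCard, mem_insert, mem_singleton, hD]
    constructor
    · rintro ⟨⟨hAD, hcard⟩, hc, hd⟩
      obtain ⟨x, y, hxy, rfl⟩ := card_eq_two.1 hcard
      simp only [insert_subset_iff, singleton_subset_iff, mem_insert, mem_singleton] at hAD hc hd
      obtain ⟨hx, hy⟩ := hAD
      rcases hc with rfl | rfl
      · rcases hy with rfl | rfl | rfl | rfl <;> simp_all
      · rcases hx with rfl | rfl | rfl | rfl <;> simp_all [pair_comm]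
    · rintro (rfl | rfl) <;>
        simp [insert_subset_iff, h1, h2, h3, h1.symm, h4, h5]
  have hne : ({c, e} : Finset V) ≠ {c, g} := fun h => by
    have : e ∈ ({c, g} : Finset V) := h ▸ by simp
    simp [h2.symm, h6] at this
  have hx : ∀ x, c ≠ x → exch c d ({c, x} : Finset V) = {d, x} := fun x hx => by
    rw [exch, erase_insert (by simpa using hx)]
  rw [slack, ho, sum_pair hne, sum_pair hne, card_pair hne, hx e h2, hx g h3]
  push_cast
  ring

theorem perm4 {T : Finset V} {x y z w : V} (hx : x ∈ T) (hy : y ∈ T) (hz : z ∈ T) (hw : w ∈ T)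
    (h : T.card ≤ ({x, y, z, w} : Finset V).card) : ({x, y, z, w} : Finset V) = T :=
  eq_of_subset_of_card_le (by simp [insert_subset_iff, hx, hy, hz, hw]) h

theorem powersetCard_four {p q r s : V} (n1 : p ≠ q) (n2 : p ≠ r) (n3 : p ≠ s) (n4 : q ≠ r)
    (n5 : q ≠ s) (n6 : r ≠ s) :
    ({p, q, r, s} : Finset V).powersetCard 2 = {{p, q}, {p, r}, {p, s}, {q, r}, {q, s}, {r, s}} := by
  ext A
  simp only [mem_powersetCard, mem_insert, mem_singleton]
  constructor
  · rintro ⟨hA, hcard⟩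
    obtain ⟨x, y, hxy, rfl⟩ := card_eq_two.1 hcard
    simp only [insert_subset_iff, singleton_subset_iff, mem_insert, mem_singleton] at hA
    rcases hA with ⟨rfl | rfl | rfl | rfl, rfl | rfl | rfl | rfl⟩ <;>
      first | exact absurd rfl hxy | simp [pair_comm]
  · rintro (rfl | rfl | rfl | rfl | rfl | rfl) <;>
      simp [n1, n2, n3, n4, n5, n6, insert_subset_iff]

theorem sum_four {p q r s : V} (n1 : p ≠ q) (n2 : p ≠ r) (n3 : p ≠ s) (n4 : q ≠ r) (n5 : q ≠ s)
    (n6 : r ≠ s) (g : V → ℝ) : ∑ x ∈ ({p, q, r, s} : Finset V), g x = g p + g q + g r + g s := by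
  rw [sum_insert (by simp [n1, n2, n3]), sum_insert (by simp [n4, n5]), sum_pair n6]
  ring

theorem sum_powersetCard_four {p q r s : V} (n1 : p ≠ q) (n2 : p ≠ r) (n3 : p ≠ s) (n4 : q ≠ r)
    (n5 : q ≠ s) (n6 : r ≠ s) (h0 : ∑ A ∈ ({p, q, r, s} : Finset V).powersetCard 2, u A = 0) :
    u {p, q} + u {p, r} + u {p, s} + u {q, r} + u {q, s} + u {r, s} = 0 := by
  rw [powersetCard_four n1 n2 n3 n4 n5 n6, sum_insert, sum_insert, sum_insert, sum_insert, sum_insert, sum_singleton] at h0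
  · linarith
  all_goals
    have hmem : ∀ x y z w : V, ({x, y} : Finset V) = {z, w} →
        (x = z ∨ x = w) ∧ (y = z ∨ y = w) := fun x y z w h => by
      have h1 : x ∈ ({z, w} : Finset V) := h ▸ by simp
      have h2 : y ∈ ({z, w} : Finset V) := h ▸ by simp
      simp only [mem_insert, mem_singleton] at h1 h2
      exact ⟨h1, h2⟩
    simp only [mem_insert, mem_singleton, not_or]
    repeat' apply And.intro
    all_goals
      intro h
      have := hmem _ _ _ _ h
      simp [n1, n2, n3, n4, n5, n6, n1.symm, n2.symm, n3.symm, n4.symm, n5.symm, n6.symm] at this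

/-- The squares and the mean of one slot pair of a slice of four slots. -/
def four (x y z w : ℝ) : ℝ := ((x - y) ^ 2 + (z - w) ^ 2) / 2 - (x + z + (y + w)) ^ 2 / 4

theorem card_four {x y z w : V} (n1 : x ≠ y) (n2 : x ≠ z) (n3 : x ≠ w) (n4 : y ≠ z) (n5 : y ≠ w)
    (n6 : z ≠ w) : ({x, y, z, w} : Finset V).card = 4 :=
  card_eq_four.2 ⟨x, y, z, w, n1, n2, n3, n4, n5, n6, rfl⟩

/-- All slot pairs at one slot of a slice of four slots. -/
theorem row_four {c d e g : V} (hD : D = {c, d, e, g}) (h1 : c ≠ d) (h2 : c ≠ e) (h3 : c ≠ g)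
    (h4 : d ≠ e) (h5 : d ≠ g) (h6 : e ≠ g) :
    ∑ x ∈ D, slack D 2 u c x = four (u {c, e}) (u {d, e}) (u {c, g}) (u {d, g}) +
      four (u {c, d}) (u {e, d}) (u {c, g}) (u {e, g}) +
      four (u {c, d}) (u {g, d}) (u {c, e}) (u {g, e}) := by
  have e1 : D = {c, e, d, g} := by rw [hD, insert_comm d e]
  have e2 : D = {c, g, d, e} := by rw [hD, pair_comm e g, insert_comm d g]
  have h := sum_four h1 h2 h3 h4 h5 h6 (slack D 2 u c)
  rw [← hD, slack_two hD h1 h2 h3 h4 h5 h6, slack_two e1 h2 h1 h3 h4.symm h6 h5,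
    slack_two e2 h3 h1 h2 h5.symm h6.symm h4] at h
  rw [h]
  simp only [four, slack, oppSets_self, sum_empty, card_empty]
  norm_num

theorem four_ineq {a1 a2 a3 a4 a5 a6 : ℝ} (h : a1 + a2 + a3 + a4 + a5 + a6 = 0) :
    0 ≤ four a2 a4 a3 a5 + four a1 a4 a3 a6 + four a1 a5 a2 a6 +
      (four a4 a2 a5 a3 + four a1 a2 a5 a6 + four a1 a3 a4 a6) +
      (four a4 a1 a6 a3 + four a2 a1 a6 a5 + four a2 a3 a4 a5) +
      (four a5 a1 a6 a2 + four a3 a1 a6 a4 + four a3 a2 a5 a4) := by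
  obtain rfl : a6 = -(a1 + a2 + a3 + a4 + a5) := by linarith
  refine le_of_le_of_eq (show (0 : ℝ) ≤ 4 * (a1 ^ 2 + a2 ^ 2 + a3 ^ 2 + a4 ^ 2 + a5 ^ 2 +
    (a1 + a2 + a3 + a4 + a5) ^ 2) by positivity) ?_
  simp only [four]
  ring

theorem slack_four (hm : D.card = 4) (h0 : ∑ A ∈ D.powersetCard 2, u A = 0) :
    0 ≤ ∑ c ∈ D, ∑ d ∈ D, slack D 2 u c d := by
  obtain ⟨p, q, r, s, n1, n2, n3, n4, n5, n6, hD⟩ := card_eq_four.1 hm
  have hsum := sum_powersetCard_four (u := u) n1 n2 n3 n4 n5 n6 (hD ▸ h0)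
  have hq : D = {q, p, r, s} := by rw [hD, insert_comm p q]
  have hr : D = {r, p, q, s} := by rw [hD, insert_comm q r, insert_comm p r]
  have hs : D = {s, p, q, r} := by
    rw [hD, pair_comm r s, insert_comm q s, insert_comm p s]
  have h := sum_four n1 n2 n3 n4 n5 n6 fun c => ∑ d ∈ D, slack D 2 u c d
  rw [← hD, row_four hD n1 n2 n3 n4 n5 n6, row_four hq n1.symm n4 n5 n2 n3 n6,
    row_four hr n2.symm n4.symm n6 n1 n3 n5, row_four hs n3.symm n5.symm n6.symm n1 n2 n4] at h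
  rw [h]
  simp only [pair_comm q p, pair_comm r p, pair_comm r q, pair_comm s p, pair_comm s q,
    pair_comm s r]
  exact four_ineq hsum

/-- The inequality on a slice. -/
theorem slice (D : Finset V) (k : ℕ) (u : Finset V → ℝ) (h0 : ∑ A ∈ D.powersetCard k, u A = 0) :
    -(3 / 2) * ∑ A ∈ D.powersetCard k, u A ^ 2 ≤ ∑ c ∈ D, ∑ d ∈ D, slack D k u c d := by
  have hU : 0 ≤ ∑ A ∈ D.powersetCard k, u A ^ 2 := sum_nonneg fun _ _ => sq_nonneg _
  have hlow : ∑ c ∈ D, ∑ d ∈ D.erase c, -(2 * (∑ A ∈ oppSets D k c d, u A) *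
        (∑ A ∈ oppSets D k d c, u A)) / ((oppSets D k c d).card : ℝ) ≤
      ∑ c ∈ D, ∑ d ∈ D, slack D k u c d := by
    refine sum_le_sum fun c hc => ?_
    rw [← sum_erase (s := D) (a := c) (f := fun d => slack D k u c d) (by simp [slack, oppSets_self])]
    exact sum_le_sum fun d hd => slack_ge hc (mem_erase.1 hd).2
  rcases Nat.eq_zero_or_pos k with rfl | hk
  · refine le_trans (show -(3 / 2) * _ ≤ (0 : ℝ) from
      mul_nonpos_of_nonpos_of_nonneg (by norm_num) hU) ((le_of_eq ?_).trans hlow)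
    refine (sum_eq_zero fun c _ => sum_eq_zero fun d _ => ?_).symm
    have : oppSets D 0 c d = ∅ := by
      refine filter_eq_empty_iff.2 fun A hA h => ?_
      rw [powersetCard_zero, mem_singleton] at hA
      simp [hA] at h
    simp [this]
  rcases le_or_gt D.card k with hkm | hkm
  · refine le_trans (show -(3 / 2) * _ ≤ (0 : ℝ) from
      mul_nonpos_of_nonpos_of_nonneg (by norm_num) hU) ((le_of_eq ?_).trans hlow)
    refine (sum_eq_zero fun c _ => sum_eq_zero fun d hd => ?_).symm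
    have : oppSets D k c d = ∅ := by
      refine filter_eq_empty_iff.2 fun A hA h => h.2 ?_
      obtain ⟨hAD, hc⟩ := mem_powersetCard.1 hA
      rw [eq_of_subset_of_card_le hAD (by omega)]
      exact (mem_erase.1 hd).2
    simp [this]
  set n1 : ℝ := ((D.card - 2).choose (k - 1) : ℝ) with hn1
  have hn : 0 < n1 := Nat.cast_pos.2 (Nat.choose_pos (by omega))
  have hrw : ∑ c ∈ D, ∑ d ∈ D.erase c, -(2 * (∑ A ∈ oppSets D k c d, u A) *
        (∑ A ∈ oppSets D k d c, u A)) / ((oppSets D k c d).card : ℝ) =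
      -(2 / n1) * ∑ c ∈ D, ∑ d ∈ D.erase c,
        (inc D k u {c} - inc D k u {c, d}) * (inc D k u {d} - inc D k u {d, c}) := by
    rw [mul_sum]
    refine sum_congr rfl fun c hc => ?_
    rw [mul_sum]
    refine sum_congr rfl fun d hd => ?_
    rw [card_oppSets hc (mem_erase.1 hd).2 (mem_erase.1 hd).1.symm hk, inc_pair, inc_pair]
    rw [← hn1]
    ring
  rw [hrw] at hlow
  have hsa : ∑ c ∈ D, inc D k u {c} = 0 := by rw [sum_inc_single, h0, mul_zero]
  set T := ∑ c ∈ D, ∑ d ∈ D.erase c,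
    (inc D k u {c} - inc D k u {c, d}) * (inc D k u {d} - inc D k u {d, c})
  suffices hT : T ≤ 3 / 4 * n1 * ∑ A ∈ D.powersetCard k, u A ^ 2 ∨
      0 ≤ ∑ c ∈ D, ∑ d ∈ D, slack D k u c d by
    rcases hT with hT | hT
    · refine (le_trans ?_ hlow)
      rw [neg_mul, neg_mul, neg_le_neg_iff, div_mul_eq_mul_div, div_le_iff₀ hn]
      linarith
    · exact le_trans (mul_nonpos_of_nonpos_of_nonneg (by norm_num) hU) hT
  have hflat : (∀ c ∈ D, ∀ d ∈ D.erase c, (inc D k u {c} - inc D k u {c, d}) *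
      (inc D k u {d} - inc D k u {d, c}) = inc D k u {c} * inc D k u {d}) → T ≤ 0 := fun h => by
    simp only [T]
    rw [sum_congr rfl fun c hc => sum_congr rfl (h c hc)]
    simp only [← mul_sum]
    refine sum_nonpos fun c hc => ?_
    rw [sum_erase_eq_sub hc, hsa, zero_sub, mul_neg, neg_nonpos]
    exact mul_self_nonneg _
  rcases (show k = 1 ∨ k + 1 = D.card ∨ (2 ≤ k ∧ k + 2 ≤ D.card) by omega) with h | h | ⟨h1, h2⟩
  · refine Or.inl ((hflat fun c _ d hd => ?_).trans
      (mul_nonneg (mul_nonneg (by norm_num) hn.le) hU))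
    have hz : inc D k u {c, d} = 0 := sum_eq_zero fun A hA => if_neg fun hs => by
      have := card_le_card hs
      rw [card_pair (mem_erase.1 hd).1.symm, (mem_powersetCard.1 hA).2] at this
      omega
    rw [pair_comm d c, hz, sub_zero, sub_zero]
  · refine Or.inl ((hflat fun c hc d hd => ?_).trans
      (mul_nonneg (mul_nonneg (by norm_num) hn.le) hU))
    have hz : inc D k u {c, d} = inc D k u {c} + inc D k u {d} := by
      rw [← add_zero (inc D k u {c, d}), ← h0, inc, inc, inc, ← sum_add_distrib, ← sum_add_distrib]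
      refine sum_congr rfl fun A hA => ?_
      obtain ⟨hAD, hk'⟩ := mem_powersetCard.1 hA
      have hor : c ∈ A ∨ d ∈ A := by
        by_contra hno
        rw [not_or] at hno
        have hsub : A ⊆ (D.erase c).erase d := fun x hx =>
          mem_erase.2 ⟨fun e => hno.2 (e ▸ hx), mem_erase.2 ⟨fun e => hno.1 (e ▸ hx), hAD hx⟩⟩
        have := card_le_card hsub
        rw [card_erase_of_mem hd, card_erase_of_mem hc] at this
        omega
      by_cases hcA : c ∈ A <;> by_cases hdA : d ∈ A <;>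
        simp_all [insert_subset_iff]
    rw [pair_comm d c, hz]; ring
  · rcases lt_or_ge D.card 5 with h5 | h5
    · obtain rfl : k = 2 := by omega
      exact Or.inr (slack_four (by omega) h0)
    · refine Or.inl ((sum_prod_le h1 h2 h0).trans ?_)
      exact mul_le_mul_of_nonneg_right (choose_ratio h1 h2 h5) hU

end Vale.Agent.P335
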