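import Vale.Agent.P335.Pins
import Vale.Agent.P335.ClassSlice
import Vale.Agent.P335.Compare
import Vale.Agent.P335.Slice

/-!
The slice inequality read on the graphs: in each class of a pair, the middle graphs of two free
vertices are the subsets containing exactly one of them.
-/

noncomputable section

open Finset
open scoped Classical

namespace Vale.Agent.P335

variable {n : ℕ} {d : Fin n → ℕ} {a b c e : Fin n}

namespace PairSlice

variable (G : Graphs d)

/-- The slice of a class. -/
def slice' (a b : Fin n) (G : Graphs d) : Finset (Finset (Fin n)) :=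
  (free a b G.1).powersetCard (priv a b G.1).card

/-- A function on a class, read on the slice. -/
def coord (hab : a ≠ b) (F : Graphs d → ℝ) (A : Finset (Fin n)) : ℝ :=
  if h : A ∈ (free a b G.1).powersetCard (priv a b G.1).card then F (member a b hab G ⟨A, h⟩) else 0

variable {G}

theorem middle_member (hab : a ≠ b) (hca : c ≠ a) (hcb : c ≠ b) (hea : e ≠ a) (heb : e ≠ b)
    (A : {A // A ∈ (free a b G.1).powersetCard (priv a b G.1).card}) :
    Middle a b c e (member a b hab G A).1 ↔
      c ∈ free a b G.1 ∧ e ∈ free a b G.1 ∧ ¬(c ∈ A.1 ↔ e ∈ A.1) := by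
  have ha := not_mem_free_left (a := a) (b := b) G.1
  have hb := not_mem_free_right (a := a) (b := b) G.1
  have hc := mem_free (a := a) (b := b) (G := G.1) (c := c)
  have he := mem_free (a := a) (b := b) (G := G.1) (c := e)
  have hs := (mem_powersetCard.1 A.2).1
  have := @hs c
  have := @hs e
  simp only [Middle, member, relabel_adj, relAdj]
  grind

theorem agree_iff (hab : a ≠ b) (hca : c ≠ a) (hcb : c ≠ b) (hea : e ≠ a) (heb : e ≠ b)
    (hce : c ≠ e) (A B : {A // A ∈ (free a b G.1).powersetCard (priv a b G.1).card})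
    (hc : c ∈ free a b G.1) (he : e ∈ free a b G.1) (hcA : c ∈ A.1) (heA : e ∉ A.1) :
    (Middle a b c e (member a b hab G B).1 ∧ member a b hab G A ≠ member a b hab G B ∧
      ∀ u v, s(u, v) ≠ s(a, c) → s(u, v) ≠ s(b, e) → s(u, v) ≠ s(a, e) → s(u, v) ≠ s(b, c) →
        ((member a b hab G A).1.Adj u v ↔ (member a b hab G B).1.Adj u v)) ↔
      B.1 = exch c e A.1 := by
  rw [middle_member hab hca hcb hea heb]
  have hne : member a b hab G A ≠ member a b hab G B ↔ A ≠ B :=
    (((member_bijective a b hab G).injOn.eq_iff (Set.mem_univ A) (Set.mem_univ B))).not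
  have ha := not_mem_free_left (a := a) (b := b) G.1
  have hb := not_mem_free_right (a := a) (b := b) G.1
  have hsA := (mem_powersetCard.1 A.2).1
  have hsB := (mem_powersetCard.1 B.2).1
  rw [hne]
  constructor
  · rintro ⟨⟨-, -, hmid⟩, hAB, hagree⟩
    have other : ∀ x, x ≠ c → x ≠ e → (x ∈ A.1 ↔ x ∈ B.1) := fun x hxc hxe => by
      by_cases hx : x ∈ free a b G.1
      · have := hagree a x (by simp; grind) (by simp; grind) (by simp; grind) (by simp; grind)
        simpa [member, relabel_adj, relAdj, hx] using this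
      · exact ⟨fun h => absurd (hsA h) hx, fun h => absurd (hsB h) hx⟩
    have hcB : c ∉ B.1 := fun hh => hAB (Subtype.ext (Finset.ext fun x => by
      by_cases hxc : x = c
      · subst hxc; simp [hcA, hh]
      by_cases hxe : x = e
      · subst hxe; exact ⟨fun h => absurd h heA, fun h => absurd (iff_of_true hh h) hmid⟩
      exact other x hxc hxe))
    ext x
    simp only [exch, mem_insert, mem_erase]
    by_cases hxc : x = c
    · subst hxc; simp [hcB, hce]
    by_cases hxe : x = e
    · subst hxe; simp only [true_or, iff_true]; tauto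
    have := other x hxc hxe
    tauto
  · intro hB
    refine ⟨⟨hc, he, by simp [hB, exch, hce]⟩, fun hh => ?_, fun u v h1 h2 h3 h4 => ?_⟩
    · have : e ∈ A.1 := by rw [hh, hB]; simp [exch]
      exact heA this
    · simp only [Sym2.eq_iff, ne_eq] at h1 h2 h3 h4
      simp only [member, relabel_adj, relAdj, hB, exch, mem_insert, mem_erase]
      split_ifs <;> grind

/-- The deviation term at a graph. -/
def devAt (a b c e : Fin n) (f : Graphs d → ℝ) (x : Graphs d) : ℝ :=
  ∑ H : Graphs d,
    if Middle a b c e x.1 ∧ Middle a b c e H.1 ∧ x ≠ H ∧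
        (∀ u v, s(u, v) ≠ s(a, c) → s(u, v) ≠ s(b, e) → s(u, v) ≠ s(a, e) → s(u, v) ≠ s(b, c) →
          (x.1.Adj u v ↔ H.1.Adj u v))
      then ((f x - f H) / 2) ^ 2 else 0

/-- The mean term at a graph. -/
def meanAt (a b c e : Fin n) (f : Graphs d → ℝ) (x : Graphs d) : ℝ :=
  if Middle a b c e x.1 then
    ((∑ H ∈ (cls a b x).filter (fun H => Middle a b c e H.1), pairLap a b f H) /
      #((cls a b x).filter fun H => Middle a b c e H.1)) ^ 2 else 0

theorem midDev_eq (f : Graphs d → ℝ) : midDev a b c e f = ∑ x, devAt a b c e f x := rfl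

theorem midMean_eq (f : Graphs d → ℝ) : midMean a b c e f = ∑ x, meanAt a b c e f x := rfl

theorem swap_middle (x : SimpleGraph (Fin n)) : Middle a b e c x ↔ Middle a b c e x := by
  unfold Middle; tauto

theorem devAt_swap (f : Graphs d → ℝ) (x : Graphs d) : devAt a b e c f x = devAt a b c e f x := by
  refine sum_congr rfl fun H _ => if_congr ?_ rfl rfl
  simp only [swap_middle]
  refine and_congr_right fun _ => and_congr_right fun _ => and_congr_right fun _ => ?_
  constructor <;> intro h u v h1 h2 h3 h4 <;> exact h u v h3 h4 h1 h2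

/-- The deviation at a middle member is the difference along the exchange. -/
theorem devAt_member (hab : a ≠ b) (hca : c ≠ a) (hcb : c ≠ b) (hea : e ≠ a) (heb : e ≠ b)
    (hce : c ≠ e) (f : Graphs d → ℝ) {A : Finset (Fin n)}
    (hA : A ∈ oppSets (free a b G.1) (priv a b G.1).card c e) (hc : c ∈ free a b G.1)
    (he : e ∈ free a b G.1) :
    devAt a b c e f (member a b hab G ⟨A, (mem_filter.1 hA).1⟩) =
      ((coord G hab (pairLap a b f) A - coord G hab (pairLap a b f) (exch c e A)) / 2) ^ 2 := by
  obtain ⟨hAP, hcA, heA⟩ := mem_filter.1 hA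
  have hA' : exch c e A ∈ (free a b G.1).powersetCard (priv a b G.1).card :=
    (mem_filter.1 (exch_mem he hA).1).1
  set x := member a b hab G ⟨A, hAP⟩
  set y := member a b hab G ⟨exch c e A, hA'⟩
  have hxc : x ∈ cls a b G := mem_coe.1 ((member_bijective a b hab G).1 (Set.mem_univ _))
  have hyc : y ∈ cls a b G := mem_coe.1 ((member_bijective a b hab G).1 (Set.mem_univ _))
  have hd : pairLap a b f x - pairLap a b f y = f x - f y := by
    simp only [pairLap, pairAvg, cls_eq_of_mem hxc, cls_eq_of_mem hyc]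
    ring
  rw [coord, coord, dif_pos hAP, dif_pos hA', hd, devAt, sum_eq_single y]
  · have h := (agree_iff hab hca hcb hea heb hce ⟨A, hAP⟩ ⟨_, hA'⟩ hc he hcA heA).2 rfl
    rw [if_pos ⟨(middle_member hab hca hcb hea heb _).2 ⟨hc, he, by simp [hcA, heA]⟩, h⟩]
  · intro H _ hH
    refine if_neg ?_
    rintro ⟨-, h⟩
    have hH' : H ∈ cls a b G := by
      rw [← cls_eq_of_mem hxc]
      simp only [cls, mem_filter, mem_univ, true_and]
      intro i j h1 h2
      unfold Across at h1 h2
      refine h.2.2 i j ?_ ?_ ?_ ?_ <;> simp only [ne_eq, Sym2.eq_iff] <;> grind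
    obtain ⟨B, -, rfl⟩ := (member_bijective a b hab G).2.2 hH'
    have hB := (agree_iff hab hca hcb hea heb hce ⟨A, hAP⟩ B hc he hcA heA).1 h
    exact hH (congrArg (member a b hab G) (Subtype.ext hB))
  · simp

/-- In one class, the terms of an ordered pair of free vertices give minus the slack. -/
theorem class_term (hab : a ≠ b) (hca : c ≠ a) (hcb : c ≠ b) (hea : e ≠ a) (heb : e ≠ b)
    (hce : c ≠ e) (f : Graphs d → ℝ) (hc : c ∈ free a b G.1) (he : e ∈ free a b G.1) :
    ∑ x ∈ cls a b G, (meanAt a b c e f x - devAt a b c e f x) =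
      -slack (free a b G.1) (priv a b G.1).card (coord G hab (pairLap a b f)) c e := by
  set D := free a b G.1
  set k := (priv a b G.1).card
  set u := coord G hab (pairLap a b f) with hu
  set P := D.powersetCard k
  have hdis : Disjoint (oppSets D k c e) (oppSets D k e c) := by
    simp only [oppSets, disjoint_filter]; tauto
  have hmid : P.filter (fun A => ¬(c ∈ A ↔ e ∈ A)) = oppSets D k c e ∪ oppSets D k e c := by
    ext A; simp only [P, oppSets, mem_filter, mem_union]; tauto
  have hF : ∀ F : Graphs d → ℝ, ∑ x ∈ (cls a b G).filter (fun x => Middle a b c e x.1), F x =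
      ∑ A ∈ oppSets D k c e, coord G hab F A + ∑ A ∈ oppSets D k e c, coord G hab F A := fun F => by
    rw [sum_filter, sum_cls_eq hab G, ← sum_union hdis, ← hmid, sum_filter]
    refine sum_congr rfl fun A hA => ?_
    rw [dif_pos hA]
    refine if_congr ?_ (by rw [coord, dif_pos hA]) rfl
    rw [middle_member hab hca hcb hea heb]
    exact ⟨fun h => h.2.2, fun h => ⟨hc, he, h⟩⟩
  have hcard : ((#((cls a b G).filter fun x => Middle a b c e x.1) : ℕ) : ℝ) =
      2 * ((oppSets D k c e).card : ℝ) := by
    have h := hF fun _ => 1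
    have h1 : ∀ {p q : Fin n}, ∀ A ∈ oppSets D k p q, coord G hab (fun _ => (1 : ℝ)) A = 1 :=
      fun A hA => by rw [coord, dif_pos (mem_filter.1 hA).1]
    rw [sum_congr rfl h1, sum_congr rfl h1] at h
    have h2 : ∑ A ∈ oppSets D k e c, (1 : ℝ) = ∑ A ∈ oppSets D k c e, (1 : ℝ) :=
      (sum_exch hc he fun _ => (1 : ℝ)).symm
    rw [h2] at h
    simp only [sum_const, nsmul_eq_mul, mul_one] at h
    rw [h]; ring
  set q := ((∑ A ∈ oppSets D k c e, u A + ∑ A ∈ oppSets D k e c, u A) /
    (2 * ((oppSets D k c e).card : ℝ))) ^ 2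
  have hmean : ∀ x ∈ cls a b G, meanAt a b c e f x = if Middle a b c e x.1 then q else 0 :=
    fun x hx => by rw [meanAt, cls_eq_of_mem hx, hF, hcard]
  have hdev0 : ∀ x : Graphs d, ¬Middle a b c e x.1 → devAt a b c e f x = 0 := fun x hx =>
    sum_eq_zero fun H _ => if_neg fun h => hx h.1
  have hdev : ∀ x ∈ cls a b G, devAt a b c e f x =
      if Middle a b c e x.1 then devAt a b c e f x else 0 := fun x _ => by
    by_cases hx : Middle a b c e x.1
    · rw [if_pos hx]
    · rw [if_neg hx, hdev0 x hx]
  rw [sum_sub_distrib, sum_congr rfl hmean, sum_congr rfl hdev, ← sum_filter, ← sum_filter,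
    sum_const, nsmul_eq_mul, hcard, hF]
  have e1 : ∑ A ∈ oppSets D k c e, coord G hab (devAt a b c e f) A =
      ∑ A ∈ oppSets D k c e, ((u A - u (exch c e A)) / 2) ^ 2 := sum_congr rfl fun A hA => by
    rw [coord, dif_pos (mem_filter.1 hA).1, devAt_member hab hca hcb hea heb hce f hA hc he]
  have e2 : ∑ A ∈ oppSets D k e c, coord G hab (devAt a b c e f) A =
      ∑ A ∈ oppSets D k c e, ((u A - u (exch c e A)) / 2) ^ 2 := by
    rw [← sum_exch hc he]
    refine sum_congr rfl fun A hA => ?_
    obtain ⟨h1, h2⟩ := exch_mem he hA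
    rw [coord, dif_pos (mem_filter.1 h1).1, ← devAt_swap,
      devAt_member hab hea heb hca hcb hce.symm f h1 he hc, h2, ← hu]
    ring
  rw [e1, e2, slack, sum_add_distrib, sum_exch hc he u]
  simp only [q, div_pow, ← sum_div]
  rcases eq_or_ne ((oppSets D k c e).card : ℝ) 0 with h0 | h0
  · rw [h0]; ring
  · field_simp
    ring

theorem ip_self_pairLap (f : Graphs d → ℝ) :
    ip f (pairLap a b f) = ∑ G, pairLap a b f G ^ 2 := by
  have h0 : ∑ G, pairAvg a b f G * pairLap a b f G = 0 := by
    rw [← sum_cls_avg (a := a) (b := b) fun G => pairAvg a b f G * pairLap a b f G]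
    refine sum_eq_zero fun G _ => ?_
    have e : ∀ x ∈ cls a b G, pairAvg a b f x * pairLap a b f x =
        pairAvg a b f G * (f x - pairAvg a b f G) := fun x hx => by
      simp only [pairLap, pairAvg, cls_eq_of_mem hx]
    rw [sum_congr rfl e, ← mul_sum, sum_sub_distrib, sum_const, nsmul_eq_mul, pairAvg]
    have hc : ((cls a b G).card : ℝ) ≠ 0 := by exact_mod_cast (card_pos.2 ⟨G, mem_cls_self G⟩).ne'
    rw [mul_div_cancel₀ _ hc, sub_self, mul_zero, zero_div]
  have e : ∀ G, pairLap a b f G ^ 2 =
      f G * pairLap a b f G - pairAvg a b f G * pairLap a b f G := fun G => by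
    simp only [pairLap]; ring
  simp only [ip, e, sum_sub_distrib, h0, sub_zero]

theorem coord_mean (hab : a ≠ b) (f : Graphs d → ℝ) :
    ∑ A ∈ (free a b G.1).powersetCard (priv a b G.1).card, coord G hab (pairLap a b f) A = 0 := by
  have h := sum_cls_eq hab G (pairLap a b f)
  simp only [coord]
  rw [← h]
  have e : ∀ x ∈ cls a b G, pairLap a b f x = f x - pairAvg a b f G := fun x hx => by
    simp only [pairLap, pairAvg, cls_eq_of_mem hx]
  have hc : ((cls a b G).card : ℝ) ≠ 0 := by exact_mod_cast (card_pos.2 ⟨G, mem_cls_self G⟩).ne'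
  rw [sum_congr rfl e, sum_sub_distrib, sum_const, nsmul_eq_mul, pairAvg, mul_div_cancel₀ _ hc,
    sub_self]

/-- The inequality in one class. -/
theorem class_le (hab : a ≠ b) (f : Graphs d → ℝ) (G : Graphs d) :
    ∑ x ∈ cls a b G, ∑ c : Fin n, ∑ e : Fin n,
        (if c ≠ e ∧ c ≠ a ∧ c ≠ b ∧ e ≠ a ∧ e ≠ b
          then meanAt a b c e f x - devAt a b c e f x else 0) ≤
      3 / 2 * ∑ x ∈ cls a b G, pairLap a b f x ^ 2 := by
  set D := free a b G.1
  set k := (priv a b G.1).card
  set u := coord G hab (pairLap a b f)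
  have hsl := slice D k u (coord_mean hab f)
  have hu : ∑ x ∈ cls a b G, pairLap a b f x ^ 2 = ∑ A ∈ D.powersetCard k, u A ^ 2 := by
    rw [sum_cls_eq hab G]
    exact sum_congr rfl fun A hA => by simp only [u, coord, dif_pos hA, D, k]
  rw [hu, sum_comm]
  simp_rw [sum_comm (s := cls a b G)]
  calc ∑ c : Fin n, ∑ e : Fin n, ∑ x ∈ cls a b G,
        (if c ≠ e ∧ c ≠ a ∧ c ≠ b ∧ e ≠ a ∧ e ≠ b
          then meanAt a b c e f x - devAt a b c e f x else 0)
      = ∑ c : Fin n, ∑ e : Fin n, if c ∈ D ∧ e ∈ D then -slack D k u c e else 0 := by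
        refine sum_congr rfl fun c _ => sum_congr rfl fun e _ => ?_
        by_cases hq : c ≠ e ∧ c ≠ a ∧ c ≠ b ∧ e ≠ a ∧ e ≠ b
        · obtain ⟨hce, hca, hcb, hea, heb⟩ := hq
          simp only [ne_eq, hce, hca, hcb, hea, heb, not_false_eq_true, and_self, if_true]
          by_cases hD : c ∈ D ∧ e ∈ D
          · rw [if_pos hD, class_term hab hca hcb hea heb hce f hD.1 hD.2]
          · rw [if_neg hD]
            refine sum_eq_zero fun x hx => ?_
            obtain ⟨A, -, rfl⟩ := (member_bijective a b hab G).2.2 hx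
            have hm : ¬Middle a b c e (member a b hab G A).1 := fun h =>
              hD ⟨((middle_member hab hca hcb hea heb A).1 h).1,
                ((middle_member hab hca hcb hea heb A).1 h).2.1⟩
            simp only [meanAt, devAt, hm, false_and, if_false, sum_const_zero, sub_zero]
        · simp only [if_neg hq, sum_const_zero]
          split_ifs with hD
          · have hce : c = e := by
              have h1 := mem_free.1 hD.1
              have h2 := mem_free.1 hD.2
              by_contra hce
              exact hq ⟨hce, h1.1, h1.2.1, h2.1, h2.2.1⟩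
            simp [hce, slack, oppSets_self]
          · rfl
    _ = ∑ c ∈ D, ∑ e ∈ D, -slack D k u c e := by
        simp only [ite_and]
        simp [sum_ite_mem]
    _ ≤ _ := by simp only [sum_neg_distrib]; linarith

end PairSlice

open PairSlice in
/-- The slice inequality on the graphs. -/
theorem pairSliceThm : PairSliceThm := by
  intro n d a b hab f
  set T : Graphs d → ℝ := fun x => ∑ c : Fin n, ∑ e : Fin n,
    (if c ≠ e ∧ c ≠ a ∧ c ≠ b ∧ e ≠ a ∧ e ≠ b
      then meanAt a b c e f x - devAt a b c e f x else 0)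
  have hl : ∑ c : Fin n, ∑ e : Fin n,
      (if c ≠ e ∧ c ≠ a ∧ c ≠ b ∧ e ≠ a ∧ e ≠ b
        then midMean a b c e f - midDev a b c e f else 0) = ∑ x, T x := by
    simp only [T]
    symm
    rw [sum_comm]
    refine sum_congr rfl fun c _ => ?_
    rw [sum_comm]
    refine sum_congr rfl fun e _ => ?_
    split_ifs with h
    · rw [sum_sub_distrib, midMean_eq, midDev_eq]
    · exact sum_const_zero
  rw [hl, ip_self_pairLap, ← sum_cls_avg (a := a) (b := b) T,
    ← sum_cls_avg (a := a) (b := b) (fun x => pairLap a b f x ^ 2), mul_sum]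
  refine sum_le_sum fun G _ => ?_
  rw [← mul_div_assoc]
  exact div_le_div_of_nonneg_right (class_le hab f G) (Nat.cast_nonneg _)

end Vale.Agent.P335
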