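import Vale.Agent.P335.Pins

/-!
The three pairs inside a vertex triple form a three-row problem: the columns are the other vertices
and one further column holding, for each of the three vertices, whether the opposite edge is absent.
-/

noncomputable section

open Finset
open scoped Classical

namespace Vale.Agent.P335

variable {n : ℕ} {d : Fin n → ℕ}

theorem fin3_cases : ∀ i j : Fin 3, j = i ∨ j = i + 1 ∨ j = i + 2 := by decide

theorem fin3_ne : ∀ i : Fin 3, i ≠ i + 1 ∧ i ≠ i + 2 ∧ i + 1 ≠ i + 2 := by decide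

theorem fin3_no_rev : ∀ i j : Fin 3, i + 2 = j + 1 → i + 1 = j + 2 → False := by decide

theorem cls_comm (a b : Fin n) : cls (d := d) a b = cls b a := by
  funext G
  have e : ∀ i j, Across a b i j ↔ Across b a i j := fun i j => by
    simp only [Across]; tauto
  ext H
  simp only [cls, SameRest, mem_filter, mem_univ, true_and, e]

theorem pairLap_comm (a b : Fin n) (f : Graphs d → ℝ) : pairLap a b f = pairLap b a f := by
  funext G
  simp only [pairLap, pairAvg, cls_comm a b]

namespace Tri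

variable (v : Fin 3 → Fin n)

/-- The vertices outside the triple. -/
abbrev Out : Type := {u : Fin n // ∀ i, v i ≠ u}

/-- The matrix of a graph at the triple. -/
def mat (G : SimpleGraph (Fin n)) (i : Fin 3) : Option (Out v) → Bool
  | none => decide (¬ G.Adj (v (i + 1)) (v (i + 2)))
  | some u => decide (G.Adj (v i) u)

/-- Indicator of adjacency. -/
def ad (G : SimpleGraph (Fin n)) (x y : Fin n) : ℕ := if G.Adj x y then 1 else 0

theorem ad_comm (G : SimpleGraph (Fin n)) (x y : Fin n) : ad G x y = ad G y x := by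
  simp only [ad, G.adj_comm]

theorem ad_self (G : SimpleGraph (Fin n)) (x : Fin n) : ad G x x = 0 := by simp [ad]

theorem ad_le (G : SimpleGraph (Fin n)) (x y : Fin n) : ad G x y ≤ 1 := by
  unfold ad; split <;> omega

theorem card_nbrs (G : SimpleGraph (Fin n)) (x : Fin n) : (nbrs G x).card = ∑ y, ad G x y := by
  rw [nbrs, Finset.card_filter]
  rfl

variable {v}

theorem split (hv : Function.Injective v) (φ : Fin n → ℕ) :
    ∑ u, φ u = φ (v 0) + φ (v 1) + φ (v 2) + ∑ u : Out v, φ u := by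
  rw [← Fin.sum_univ_three (fun i => φ (v i)), ← Finset.sum_image (fun x _ y _ h => hv h),
    ← Finset.sum_subtype (univ \ univ.image v) (by simp) φ, add_comm,
    Finset.sum_sdiff (Finset.subset_univ _)]

/-- Row and column sums. -/
def rowSum (A : Fin 3 → Option (Out v) → Bool) (i : Fin 3) : ℕ :=
  #(univ.filter fun x => A i x = true)

def colSum (A : Fin 3 → Option (Out v) → Bool) (x : Option (Out v)) : ℕ :=
  #(univ.filter fun i => A i x = true)

theorem rowSum_mat (G : SimpleGraph (Fin n)) (i : Fin 3) :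
    rowSum (mat v G) i + ad G (v (i + 1)) (v (i + 2)) = 1 + ∑ u : Out v, ad G (v i) u := by
  rw [rowSum, Finset.card_filter, Fintype.sum_option]
  simp only [mat, decide_eq_true_eq, ad]
  split <;> simp_all [Nat.add_comm]

theorem colSum_mat_none (G : SimpleGraph (Fin n)) :
    colSum (mat v G) none + (ad G (v 1) (v 2) + ad G (v 2) (v 0) + ad G (v 0) (v 1)) = 3 := by
  rw [colSum, Finset.card_filter, Fin.sum_univ_three]
  simp only [mat, decide_eq_true_eq, ad]
  simp only [show (0 : Fin 3) + 1 = 1 from rfl, show (0 : Fin 3) + 2 = 2 from rfl,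
    show (1 : Fin 3) + 1 = 2 from rfl, show (1 : Fin 3) + 2 = 0 from rfl,
    show (2 : Fin 3) + 1 = 0 from rfl, show (2 : Fin 3) + 2 = 1 from rfl]
  split_ifs <;> simp_all

theorem colSum_mat_some (G : SimpleGraph (Fin n)) (u : Out v) :
    colSum (mat v G) (some u) = ad G (v 0) u + ad G (v 1) u + ad G (v 2) u := by
  rw [colSum, Finset.card_filter, Fin.sum_univ_three]
  simp only [mat, decide_eq_true_eq, ad]

/-- The degree at a vertex of the triple. -/
theorem deg_in (hv : Function.Injective v) (G : SimpleGraph (Fin n)) (i : Fin 3) :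
    (nbrs G (v i)).card + ad G (v (i + 1)) (v (i + 2)) + 1
      = rowSum (mat v G) i + ad G (v (i + 1)) (v (i + 2))
        + (ad G (v 1) (v 2) + ad G (v 2) (v 0) + ad G (v 0) (v 1)) := by
  rw [card_nbrs, split hv, rowSum_mat]
  have h10 := ad_comm G (v 1) (v 0)
  have h21 := ad_comm G (v 2) (v 1)
  have h02 := ad_comm G (v 0) (v 2)
  fin_cases i <;>
  · simp only [Fin.reduceFinMk, ad_self, Fin.reduceAdd]
    omega

/-- The degree outside. -/
theorem deg_out (hv : Function.Injective v) (G : SimpleGraph (Fin n)) (u : Out v) :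
    (nbrs G u).card = colSum (mat v G) (some u) + ∑ w : Out v, ad G u w := by
  rw [card_nbrs, split hv, colSum_mat_some, ad_comm G u (v 0), ad_comm G u (v 1),
    ad_comm G u (v 2)]

/-- The graph with given matrix and given edges outside. -/
def build (v : Fin 3 → Fin n) (G0 : SimpleGraph (Fin n)) (A : Fin 3 → Option (Out v) → Bool) :
    SimpleGraph (Fin n) :=
  SimpleGraph.fromRel fun x y =>
    (∃ i, ∃ u : Out v, x = v i ∧ y = u.1 ∧ A i (some u) = true) ∨
    (∃ i, x = v (i + 1) ∧ y = v (i + 2) ∧ A i none = false) ∨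
    ((∀ i, v i ≠ x) ∧ (∀ i, v i ≠ y) ∧ G0.Adj x y)

variable (hv : Function.Injective v) (G0 : SimpleGraph (Fin n))
  (A : Fin 3 → Option (Out v) → Bool)
include hv

theorem build_mixed (i : Fin 3) (u : Out v) :
    (build v G0 A).Adj (v i) u ↔ A i (some u) = true := by
  refine ⟨?_, fun h => ⟨u.2 i, Or.inl (Or.inl ⟨i, u, rfl, rfl, h⟩)⟩⟩
  rintro ⟨-, h⟩
  rcases h with (⟨j, w, hj, hw, h⟩ | ⟨j, -, hw, -⟩ | ⟨hi, -, -⟩) |
    (⟨j, w, hj, -, -⟩ | ⟨j, hj, -, -⟩ | ⟨-, hi, -⟩)
  · cases hv hj; cases Subtype.ext hw; exact h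
  · exact absurd hw.symm (u.2 _)
  · exact absurd rfl (hi i)
  · exact absurd hj.symm (u.2 _)
  · exact absurd hj.symm (u.2 _)
  · exact absurd rfl (hi i)

theorem build_inside (i : Fin 3) :
    (build v G0 A).Adj (v (i + 1)) (v (i + 2)) ↔ A i none = false := by
  have hne : v (i + 1) ≠ v (i + 2) := hv.ne (fin3_ne i).2.2
  refine ⟨?_, fun h => ⟨hne, Or.inl (Or.inr (Or.inl ⟨i, rfl, rfl, h⟩))⟩⟩
  rintro ⟨-, h⟩
  rcases h with (⟨j, w, -, hw, -⟩ | ⟨j, hj, -, h⟩ | ⟨hi, -, -⟩) |
    (⟨j, w, -, hw, -⟩ | ⟨j, hj, hk, -⟩ | ⟨-, hi, -⟩)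
  · exact absurd hw (w.2 _)
  · cases add_right_cancel (hv hj); exact h
  · exact absurd rfl (hi _)
  · exact absurd hw (w.2 _)
  · exfalso
    exact fin3_no_rev i j (hv hj) (hv hk)
  · exact absurd rfl (hi _)

omit hv in
theorem build_outside (u w : Out v) : (build v G0 A).Adj u w ↔ G0.Adj u w := by
  refine ⟨?_, fun h => ⟨h.ne, Or.inl (Or.inr (Or.inr ⟨u.2, w.2, h⟩))⟩⟩
  rintro ⟨-, h⟩
  rcases h with (⟨j, x, hj, -, -⟩ | ⟨j, hj, -, -⟩ | ⟨-, -, h⟩) |
    (⟨j, x, hj, -, -⟩ | ⟨j, hj, -, -⟩ | ⟨-, -, h⟩)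
  · exact absurd hj.symm (u.2 _)
  · exact absurd hj.symm (u.2 _)
  · exact h
  · exact absurd hj.symm (w.2 _)
  · exact absurd hj.symm (w.2 _)
  · exact h.symm

theorem mat_build : mat v (build v G0 A) = A := by
  funext i x
  rcases x with _ | u
  · simp [mat, build_inside hv]
  · simp [mat, build_mixed hv]

omit hv in
theorem vertex_cases (v : Fin 3 → Fin n) (x : Fin n) :
    (∃ i, v i = x) ∨ ∃ u : Out v, u.1 = x := by
  by_cases hx : ∀ i, v i ≠ x
  · exact Or.inr ⟨⟨x, hx⟩, rfl⟩
  · push Not at hx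
    exact Or.inl hx

/-- The graphs with the edges outside the triple equal to those of a given one. -/
def fibre (v : Fin 3 → Fin n) (G0 : Graphs d) : Finset (Graphs d) :=
  univ.filter fun G => ∀ u w : Out v, (G.1.Adj u w ↔ G0.1.Adj u w)

omit hv in
theorem mem_fibre {G0 G : Graphs d} :
    G ∈ fibre v G0 ↔ ∀ u w : Out v, (G.1.Adj u w ↔ G0.1.Adj u w) := by simp [fibre]

omit hv in
theorem mat_injOn (G0 : Graphs d) :
    Set.InjOn (fun G : Graphs d => mat v G.1) (fibre v G0 : Set (Graphs d)) := by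
  intro G hG H hH h
  rw [Finset.mem_coe, mem_fibre] at hG hH
  apply Subtype.ext
  have hm : ∀ i (u : Out v), G.1.Adj (v i) u ↔ H.1.Adj (v i) u := fun i u => by
    simpa [mat] using congrFun (congrFun h i) (some u)
  have hi : ∀ i, G.1.Adj (v (i + 1)) (v (i + 2)) ↔ H.1.Adj (v (i + 1)) (v (i + 2)) := fun i => by
    simpa [mat, not_iff_not] using congrFun (congrFun h i) none
  ext x y
  rcases vertex_cases v x with ⟨i, rfl⟩ | ⟨u, rfl⟩ <;>
    rcases vertex_cases v y with ⟨j, rfl⟩ | ⟨w, rfl⟩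
  · rcases fin3_cases i j with h1 | h1 | h1 <;> subst h1
    · simp
    · have := hi (i + 2)
      rw [show i + 2 + 1 = i by omega, show i + 2 + 2 = i + 1 by omega] at this
      exact this
    · have := hi (i + 1)
      rw [show i + 1 + 1 = i + 2 by omega, show i + 1 + 2 = i by omega] at this
      rw [G.1.adj_comm, H.1.adj_comm]
      exact this
  · exact hm i w
  · rw [G.1.adj_comm, H.1.adj_comm]; exact hm j u
  · exact (hG u w).trans (hH u w).symm

theorem sums_eq {G0 G : Graphs d} (hG : G ∈ fibre v G0) :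
    (∀ i, rowSum (mat v G.1) i = rowSum (mat v G0.1) i) ∧
      ∀ x, colSum (mat v G.1) x = colSum (mat v G0.1) x := by
  rw [mem_fibre] at hG
  have hout : ∀ u, colSum (mat v G.1) (some u) = colSum (mat v G0.1) (some u) := fun u => by
    have h1 := deg_out hv G.1 u
    have h2 := deg_out hv G0.1 u
    rw [G.2] at h1; rw [G0.2] at h2
    have h3 : ∑ w : Out v, ad G.1 u w = ∑ w : Out v, ad G0.1 u w :=
      Finset.sum_congr rfl fun w _ => by simp only [ad, hG u w]
    omega
  have hsum : ∀ H : SimpleGraph (Fin n),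
      ∑ u : Out v, colSum (mat v H) (some u) = ∑ u : Out v, ad H (v 0) u
        + ∑ u : Out v, ad H (v 1) u + ∑ u : Out v, ad H (v 2) u := fun H => by
    simp only [colSum_mat_some, Finset.sum_add_distrib]
  have hs : ∑ u : Out v, colSum (mat v G.1) (some u) = ∑ u : Out v, colSum (mat v G0.1) (some u) :=
    Finset.sum_congr rfl fun u _ => hout u
  rw [hsum, hsum] at hs
  have a0 := deg_in hv G.1 0; have a1 := deg_in hv G.1 1; have a2 := deg_in hv G.1 2
  have b0 := deg_in hv G0.1 0; have b1 := deg_in hv G0.1 1; have b2 := deg_in hv G0.1 2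
  have r0 := rowSum_mat (v := v) G.1 0; have r1 := rowSum_mat (v := v) G.1 1
  have r2 := rowSum_mat (v := v) G.1 2
  have s0 := rowSum_mat (v := v) G0.1 0; have s1 := rowSum_mat (v := v) G0.1 1
  have s2 := rowSum_mat (v := v) G0.1 2
  have cn := colSum_mat_none (v := v) G.1
  have cn' := colSum_mat_none (v := v) G0.1
  simp only [G.2, G0.2, Fin.reduceAdd] at a0 a1 a2 b0 b1 b2 r0 r1 r2 s0 s1 s2
  refine ⟨fun i => ?_, fun x => ?_⟩
  · fin_cases i <;> simp only [Fin.reduceFinMk] <;> omega
  · rcases x with _ | u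
    · omega
    · exact hout u

theorem build_deg {G0 : Graphs d} {A : Fin 3 → Option (Out v) → Bool}
    (hr : ∀ i, rowSum A i = rowSum (mat v G0.1) i)
    (hc : ∀ x, colSum A x = colSum (mat v G0.1) x) (x : Fin n) :
    (nbrs (build v G0.1 A) x).card = d x := by
  rw [← G0.2 x]
  rcases vertex_cases v x with ⟨i, rfl⟩ | ⟨u, rfl⟩
  · have h1 := deg_in hv (build v G0.1 A) i
    have h2 := deg_in hv G0.1 i
    have c1 := colSum_mat_none (v := v) (build v G0.1 A)
    have c2 := colSum_mat_none (v := v) G0.1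
    rw [mat_build hv] at h1 c1
    rw [hr] at h1; rw [hc] at c1
    omega
  · have h1 := deg_out hv (build v G0.1 A) u
    have h2 := deg_out hv G0.1 u
    rw [mat_build hv, hc] at h1
    have h3 : ∑ w : Out v, ad (build v G0.1 A) u w = ∑ w : Out v, ad G0.1 u w :=
      Finset.sum_congr rfl fun w _ => by simp only [ad, build_outside G0.1 A u w]
    omega

theorem mem_image_mat (G0 : Graphs d) (A : Fin 3 → Option (Out v) → Bool) :
    A ∈ (fibre v G0).image (fun G => mat v G.1) ↔
      (∀ i, rowSum A i = rowSum (mat v G0.1) i) ∧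
        ∀ x, colSum A x = colSum (mat v G0.1) x := by
  refine ⟨fun hA => ?_, fun ⟨hr, hc⟩ => ?_⟩
  · obtain ⟨G, hG, rfl⟩ := mem_image.1 hA
    exact sums_eq hv hG
  · exact mem_image.2 ⟨⟨build v G0.1 A, build_deg hv hr hc⟩,
      mem_fibre.2 fun u w => build_outside G0.1 A u w, mat_build hv _ A⟩

/-- A pair class is the set of matrices with the third row fixed. -/
theorem cls_eq {G0 G : Graphs d} (hG : G ∈ fibre v G0) (i : Fin 3) :
    cls (v (i + 1)) (v (i + 2)) G
      = (fibre v G0).filter (fun H => mat v H.1 i = mat v G.1 i) := by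
  have hout : ∀ (u : Out v) (y : Fin n), ¬ Across (v (i + 1)) (v (i + 2)) u.1 y := by
    rintro u y ⟨h | h, -⟩ <;> exact u.2 _ h.symm
  have hi : ∀ y : Fin n, ¬ Across (v (i + 1)) (v (i + 2)) (v i) y := by
    rintro y ⟨h | h, -⟩
    · exact (fin3_ne i).1 (hv h)
    · exact (fin3_ne i).2.1 (hv h)
  rw [mem_fibre] at hG
  ext H
  simp only [cls, mem_filter, mem_univ, true_and, mem_fibre]
  constructor
  · intro h
    refine ⟨fun u w => (h u w (hout u _) (hout w _)).symm.trans (hG u w), ?_⟩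
    funext x
    rcases x with _ | u
    · simp only [mat, decide_eq_decide]
      exact not_congr (h _ _ (fun hh => hh.2 (Or.inr rfl)) (fun hh => hh.2 (Or.inl rfl))).symm
    · simp only [mat, decide_eq_decide]
      exact (h _ _ (hi _) (hout u _)).symm
  · rintro ⟨hH, hrow⟩
    have hmix : ∀ u : Out v, (G.1.Adj (v i) u ↔ H.1.Adj (v i) u) := fun u => by
      simpa [mat] using (congrFun hrow (some u)).symm
    have hin : G.1.Adj (v (i + 1)) (v (i + 2)) ↔ H.1.Adj (v (i + 1)) (v (i + 2)) := by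
      simpa [mat, not_iff_not] using (congrFun hrow none).symm
    have hpos : ∀ x, x = v i ∨ x = v (i + 1) ∨ x = v (i + 2) ∨ ∃ u : Out v, u.1 = x := by
      intro x
      rcases vertex_cases v x with ⟨j, rfl⟩ | h
      · rcases fin3_cases i j with h | h | h <;> subst h <;> simp
      · exact Or.inr (Or.inr (Or.inr h))
    have hne : v i ≠ v (i + 1) ∧ v i ≠ v (i + 2) :=
      ⟨hv.ne (fin3_ne i).1, hv.ne (fin3_ne i).2.1⟩
    intro x y hxy hyx
    rcases hpos x with rfl | rfl | rfl | ⟨u, rfl⟩ <;>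
      rcases hpos y with rfl | rfl | rfl | ⟨w, rfl⟩
    · simp
    · exact absurd ⟨Or.inl rfl, not_or.2 ⟨hne.1, hne.2⟩⟩ hyx
    · exact absurd ⟨Or.inr rfl, not_or.2 ⟨hne.1, hne.2⟩⟩ hyx
    · exact hmix w
    · exact absurd ⟨Or.inl rfl, not_or.2 ⟨hne.1, hne.2⟩⟩ hxy
    · simp
    · exact hin
    · exact absurd ⟨Or.inl rfl, not_or.2 ⟨(w.2 _).symm, (w.2 _).symm⟩⟩ hxy
    · exact absurd ⟨Or.inr rfl, not_or.2 ⟨hne.1, hne.2⟩⟩ hxy
    · rw [G.1.adj_comm, H.1.adj_comm]; exact hin
    · simp
    · exact absurd ⟨Or.inr rfl, not_or.2 ⟨(w.2 _).symm, (w.2 _).symm⟩⟩ hxy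
    · rw [G.1.adj_comm, H.1.adj_comm]; exact hmix u
    · exact absurd ⟨Or.inl rfl, not_or.2 ⟨(u.2 _).symm, (u.2 _).symm⟩⟩ hyx
    · exact absurd ⟨Or.inr rfl, not_or.2 ⟨(u.2 _).symm, (u.2 _).symm⟩⟩ hyx
    · exact (hG u w).trans (hH u w).symm

/-- The cross terms of the three pairs over one fibre. -/
theorem fibre_nonneg (h3 : ThreeRowThm) (G0 : Graphs d) (f : Graphs d → ℝ) :
    0 ≤ ∑ i : Fin 3, ∑ j ∈ univ.filter (fun j => j ≠ i), ∑ G ∈ fibre v G0,
      pairLap (v (i + 1)) (v (i + 2)) f G * pairLap (v (j + 1)) (v (j + 2)) f G := by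
  set K := fibre v G0 with hK
  let S := K.image fun G => mat v G.1
  let f' : (Fin 3 → Option (Out v) → Bool) → ℝ := fun A =>
    ∑ G ∈ K.filter (fun G => mat v G.1 = A), f G
  have hinj := mat_injOn (v := v) G0
  have hf : ∀ G ∈ K, f' (mat v G.1) = f G := by
    intro G hG
    have : K.filter (fun H : Graphs d => mat v H.1 = mat v G.1) = {G} := by
      ext H
      simp only [mem_filter, mem_singleton]
      exact ⟨fun h => hinj h.1 hG h.2, fun h => by subst h; exact ⟨hG, rfl⟩⟩
    simp [f', this]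
  have havg : ∀ i, ∀ G ∈ K, pairLap (v (i + 1)) (v (i + 2)) f G
      = f' (mat v G.1) - (∑ B ∈ S.filter (fun B => B i = mat v G.1 i), f' B)
          / #(S.filter fun B => B i = mat v G.1 i) := by
    intro i G hG
    have hsub : Set.InjOn (fun H : Graphs d => mat v H.1)
        ((K.filter fun H => mat v H.1 i = mat v G.1 i : Finset _) : Set (Graphs d)) :=
      hinj.mono (Finset.coe_subset.2 (Finset.filter_subset _ _))
    rw [pairLap, pairAvg, cls_eq hv hG i, hf G hG, Finset.filter_image, Finset.sum_image hsub,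
      Finset.card_image_of_injOn hsub]
    congr 2
    exact Finset.sum_congr rfl fun H hH => (hf H (mem_filter.1 hH).1).symm
  refine (h3 (Option (Out v)) (rowSum (mat v G0.1)) (colSum (mat v G0.1)) S
    (mem_image_mat hv G0) f').trans_eq ?_
  refine Finset.sum_congr rfl fun i _ => Finset.sum_congr rfl fun j _ => ?_
  rw [Finset.sum_image hinj]
  exact Finset.sum_congr rfl fun G hG => by rw [havg i G hG, havg j G hG]

end Tri

open Tri

theorem triThm_of_threeRow (h3 : ThreeRowThm) : TriThm := by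
  intro n d a b c hab hac hbc f
  have hv : Function.Injective ![a, b, c] := by
    intro i j h
    fin_cases i <;> fin_cases j <;> simp_all [eq_comm]
  set v : Fin 3 → Fin n := ![a, b, c] with hvdef
  set F : Graphs d → ℝ := fun G => ∑ i : Fin 3, ∑ j ∈ univ.filter (fun j => j ≠ i),
    pairLap (v (i + 1)) (v (i + 2)) f G * pairLap (v (j + 1)) (v (j + 2)) f G with hF
  have key : 0 ≤ ∑ G, F G := by
    rw [← Finset.sum_fiberwise univ (fun (G : Graphs d) (u w : Out v) => decide (G.1.Adj u w))]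
    refine Finset.sum_nonneg fun k _ => ?_
    by_cases hk : ∃ G0 : Graphs d, (fun (u w : Out v) => decide (G0.1.Adj u w)) = k
    · obtain ⟨G0, rfl⟩ := hk
      have hfib : univ.filter (fun G : Graphs d => (fun (u w : Out v) => decide (G.1.Adj u w))
          = fun (u w : Out v) => decide (G0.1.Adj u w)) = fibre v G0 := by
        ext G; simp [fibre, funext_iff]
      rw [hfib, hF, Finset.sum_comm]
      simp only [Finset.sum_comm (s := fibre v G0)]
      exact fibre_nonneg hv h3 G0 f
    · rw [Finset.filter_false_of_mem (fun G _ hG => hk ⟨G, hG⟩)]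
      simp
  have e : ∀ G, F G = 2 * (pairLap a b f G * pairLap a c f G + pairLap a b f G * pairLap b c f G
      + pairLap a c f G * pairLap b c f G) := fun G => by
    simp only [hF, Finset.sum_filter, Fin.sum_univ_three, Fin.reduceAdd, ne_eq, Fin.reduceEq,
      not_false_eq_true, not_true_eq_false, if_true, if_false, hvdef, Matrix.cons_val_zero,
      Matrix.cons_val_one, Matrix.cons_val, pairLap_comm c a]
    ring
  simp only [e, ← Finset.mul_sum, Finset.sum_add_distrib] at key
  simp only [ip]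
  linarith

end Vale.Agent.P335
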