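import Vale.Agent.P335.Spectral
import Vale.Agent.P335.TriGraph
import Vale.Agent.P335.PairSlice

/-!
The gap of the sum of pair heat baths: the square is at least a quarter of the form.
-/

noncomputable section

open Finset
open scoped Classical

namespace Vale.Agent.P335.Gap

variable {n : ℕ} {d : Fin n → ℕ}

theorem ip_comm (f g : Graphs d → ℝ) : ip f g = ip g f :=
  sum_congr rfl fun _ _ => mul_comm _ _

theorem pairsLap_eq (f : Graphs d → ℝ) (G : Graphs d) :
    pairsLap f G = (1 / 2) * ∑ a : Fin n, ∑ b : Fin n, (if a ≠ b then pairLap a b f G else 0) := by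
  rw [pairsLap, sum_filter, Fintype.sum_prod_type]

theorem ip_pairsLap (f g : Graphs d → ℝ) :
    ip g (pairsLap f) =
      (1 / 2) * ∑ a : Fin n, ∑ b : Fin n, (if a ≠ b then ip g (pairLap a b f) else 0) := by
  simp only [ip, pairsLap_eq, mul_sum, mul_ite, mul_zero]
  rw [sum_comm]
  refine sum_congr rfl fun a _ => ?_
  rw [sum_comm]
  refine sum_congr rfl fun b _ => ?_
  split_ifs
  · exact sum_congr rfl fun G _ => by ring
  · simp

theorem sum_pairAvg_mul (a b : Fin n) (f g : Graphs d → ℝ) :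
    ∑ G, f G * pairAvg a b g G = ∑ G, pairAvg a b f G * g G := by
  have e : ∀ F : Graphs d → ℝ, ∀ G, pairAvg a b F G =
      ∑ x, if x ∈ cls a b G then F x / (cls a b G).card else 0 := fun F G => by
    rw [pairAvg, sum_ite_mem, univ_inter, sum_div]
  simp only [e, mul_sum, sum_mul]
  rw [sum_comm]
  refine sum_congr rfl fun x _ => sum_congr rfl fun G _ => ?_
  by_cases h : x ∈ cls a b G
  · rw [if_pos h, if_pos (mem_cls_comm.1 h), cls_eq_of_mem h]
    ring
  · rw [if_neg h, if_neg fun h' => h (mem_cls_comm.1 h')]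
    simp

theorem ip_pairLap_symm (a b : Fin n) (f g : Graphs d → ℝ) :
    ip f (pairLap a b g) = ip (pairLap a b f) g := by
  simp only [ip, pairLap, mul_sub, sub_mul, sum_sub_distrib, sum_pairAvg_mul]

/-- The cross term of two pairs. -/
def cross (f : Graphs d → ℝ) (a b c e : Fin n) : ℝ := ip (pairLap a b f) (pairLap c e f)

theorem cross_self (f : Graphs d → ℝ) (a b : Fin n) :
    cross f a b a b = ip f (pairLap a b f) := by
  rw [PairSlice.ip_self_pairLap]
  exact sum_congr rfl fun G _ => (sq _).symm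

theorem ip_sq (f : Graphs d → ℝ) :
    ip (pairsLap f) (pairsLap f) = (1 / 4) * ∑ a : Fin n, ∑ b : Fin n,
      (if a ≠ b then ∑ c : Fin n, ∑ e : Fin n, (if c ≠ e then cross f a b c e else 0) else 0) := by
  rw [ip_pairsLap, show (1 / 4 : ℝ) = (1 / 2) * (1 / 2) by norm_num, mul_assoc]
  congr 1
  rw [mul_sum]
  refine sum_congr rfl fun a _ => ?_
  rw [mul_sum]
  refine sum_congr rfl fun b _ => ?_
  split_ifs
  · rw [ip_comm, ip_pairsLap]
    rfl
  · simp

/-- Pairs equal, sharing one vertex, or disjoint. -/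
theorem sum_pairs_split (a b : Fin n) (hab : a ≠ b) (X : Fin n → Fin n → ℝ) :
    ∑ c : Fin n, ∑ e : Fin n, (if c ≠ e then X c e else 0) =
      X a b + X b a +
      ∑ e : Fin n, (if e ≠ a ∧ e ≠ b then X a e + X b e + X e a + X e b else 0) +
      ∑ c : Fin n, ∑ e : Fin n,
        (if c ≠ e ∧ c ≠ a ∧ c ≠ b ∧ e ≠ a ∧ e ≠ b then X c e else 0) := by
  have key : ∀ c e, (if c ≠ e then X c e else 0) =
      (if c = a then (if e = b then X c e else 0) else 0) +
      (if c = b then (if e = a then X c e else 0) else 0) +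
      ((if c = a then (if e ≠ a ∧ e ≠ b then X c e else 0) else 0) +
       (if c = b then (if e ≠ a ∧ e ≠ b then X c e else 0) else 0) +
       (if c ≠ a ∧ c ≠ b then (if e = a then X c e else 0) else 0) +
       (if c ≠ a ∧ c ≠ b then (if e = b then X c e else 0) else 0)) +
      (if c ≠ e ∧ c ≠ a ∧ c ≠ b ∧ e ≠ a ∧ e ≠ b then X c e else 0) := by
    intro c e
    by_cases c = a <;> by_cases c = b <;> by_cases e = a <;> by_cases e = b <;>
      by_cases c = e <;> simp_all
  simp only [key, sum_add_distrib]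
  have k : ∀ (x : Fin n) (F : Fin n → Fin n → ℝ),
      ∑ c : Fin n, ∑ e : Fin n, (if c = x then F c e else 0) = ∑ e, F x e := fun x F => by
    rw [sum_eq_single x (fun c _ hc => by simp [hc]) (by simp)]
    simp
  simp only [k]
  have m : ∀ (x : Fin n), ∑ c : Fin n, ∑ e : Fin n,
      (if c ≠ a ∧ c ≠ b then (if e = x then X c e else 0) else 0) =
      ∑ c : Fin n, (if c ≠ a ∧ c ≠ b then X c x else 0) := fun x => by
    refine sum_congr rfl fun c _ => ?_
    split_ifs with h <;> simp
  simp only [m, ite_add_zero, sum_add_distrib, sum_ite_eq', mem_univ, if_true]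

theorem sum_swap {M : Type*} [AddCommMonoid M] (F : Fin n → Fin n → Fin n → Fin n → M) :
    ∑ a, ∑ b, ∑ c, ∑ e, F c e a b = ∑ a, ∑ b, ∑ c, ∑ e, F a b c e := by
  calc ∑ a, ∑ b, ∑ c, ∑ e, F c e a b
      = ∑ p : Fin n × Fin n, ∑ q : Fin n × Fin n, F q.1 q.2 p.1 p.2 := by
        simp only [Fintype.sum_prod_type]
    _ = ∑ q : Fin n × Fin n, ∑ p : Fin n × Fin n, F q.1 q.2 p.1 p.2 := sum_comm
    _ = ∑ a, ∑ b, ∑ c, ∑ e, F a b c e := by simp only [Fintype.sum_prod_type]

/-- The terms of pairs sharing one vertex are nonnegative in total. -/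
theorem share_nonneg (htri : TriThm) (f : Graphs d → ℝ) :
    0 ≤ ∑ a : Fin n, ∑ b : Fin n, (if a ≠ b then ∑ e : Fin n, (if e ≠ a ∧ e ≠ b then
      cross f a b a e + cross f a b b e + cross f a b e a + cross f a b e b else 0) else 0) := by
  set S : ℝ := ∑ a : Fin n, ∑ b : Fin n, ∑ e : Fin n,
    (if a ≠ b ∧ e ≠ a ∧ e ≠ b then cross f a b a e else 0) with hS
  have h2 : ∑ a : Fin n, ∑ b : Fin n, ∑ e : Fin n,
      (if a ≠ b ∧ e ≠ a ∧ e ≠ b then cross f a b b e else 0) = S := by
    rw [hS, sum_comm]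
    refine sum_congr rfl fun a _ => sum_congr rfl fun b _ => sum_congr rfl fun e _ => ?_
    refine if_congr (by tauto) ?_ rfl
    rw [cross, pairLap_comm b a]
    rfl
  have h3 : ∑ a : Fin n, ∑ b : Fin n, ∑ e : Fin n,
      (if a ≠ b ∧ e ≠ a ∧ e ≠ b then cross f a e b e else 0) = S := by
    rw [hS]
    conv_lhs => arg 2; ext a; rw [sum_comm]
    rw [sum_comm]
    refine sum_congr rfl fun a _ => sum_congr rfl fun b _ => sum_congr rfl fun e _ => ?_
    refine if_congr (by tauto) ?_ rfl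
    rw [cross, pairLap_comm b a, pairLap_comm e a]
    rfl
  have hpos : 0 ≤ S + S + S := by
    conv_rhs => arg 1; arg 2; rw [← h2]
    conv_rhs => arg 2; rw [← h3]
    simp only [hS, ← sum_add_distrib]
    refine sum_nonneg fun a _ => sum_nonneg fun b _ => sum_nonneg fun e _ => ?_
    split_ifs with h
    · exact htri n d a b e h.1 h.2.1.symm h.2.2.symm f
    · simp
  have e0 : ∀ a b : Fin n, (if a ≠ b then ∑ e : Fin n, (if e ≠ a ∧ e ≠ b then
      cross f a b a e + cross f a b b e + cross f a b e a + cross f a b e b else 0) else 0) =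
      ∑ e : Fin n, (2 * (if a ≠ b ∧ e ≠ a ∧ e ≠ b then cross f a b a e else 0) +
        2 * (if a ≠ b ∧ e ≠ a ∧ e ≠ b then cross f a b b e else 0)) := by
    intro a b
    by_cases h : a = b
    · simp [h]
    rw [if_pos h]
    refine sum_congr rfl fun e _ => ?_
    by_cases he : e ≠ a ∧ e ≠ b
    · rw [if_pos he, if_pos ⟨h, he⟩, if_pos ⟨h, he⟩]
      simp only [cross, pairLap_comm e a, pairLap_comm e b]
      ring
    · rw [if_neg he, if_neg fun h' => he h'.2, if_neg fun h' => he h'.2]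
      ring
  simp only [e0, sum_add_distrib, ← mul_sum, h2, ← hS]
  linarith

/-- The terms of disjoint pairs lose at most three quarters of the form. -/
theorem disjoint_ge (hquad : QuadThm) (hslice : PairSliceThm) (f : Graphs d → ℝ) :
    -(3 * ip f (pairsLap f)) ≤ ∑ a : Fin n, ∑ b : Fin n, (if a ≠ b then ∑ c : Fin n, ∑ e : Fin n,
      (if c ≠ e ∧ c ≠ a ∧ c ≠ b ∧ e ≠ a ∧ e ≠ b then cross f a b c e else 0) else 0) := by
  set T : Fin n → Fin n → Fin n → Fin n → ℝ := fun a b c e =>
    if a ≠ b ∧ c ≠ e ∧ c ≠ a ∧ c ≠ b ∧ e ≠ a ∧ e ≠ b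
      then midDev a b c e f - midMean a b c e f else 0 with hT
  have hq : ∀ a b c e, T a b c e + T c e a b ≤
      2 * (if a ≠ b ∧ c ≠ e ∧ c ≠ a ∧ c ≠ b ∧ e ≠ a ∧ e ≠ b then cross f a b c e else 0) := by
    intro a b c e
    by_cases h : a ≠ b ∧ c ≠ e ∧ c ≠ a ∧ c ≠ b ∧ e ≠ a ∧ e ≠ b
    · obtain ⟨h1, h2, h3, h4, h5, h6⟩ := h
      have h' : c ≠ e ∧ a ≠ b ∧ a ≠ c ∧ a ≠ e ∧ b ≠ c ∧ b ≠ e :=
        ⟨h2, h1, h3.symm, h5.symm, h4.symm, h6.symm⟩
      have hh : a ≠ b ∧ c ≠ e ∧ c ≠ a ∧ c ≠ b ∧ e ≠ a ∧ e ≠ b := ⟨h1, h2, h3, h4, h5, h6⟩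
      simp only [hT, if_pos h', if_pos hh]
      exact hquad n d a b c e h1 h3.symm h5.symm h4.symm h6.symm h2 f
    · have h' : ¬(c ≠ e ∧ a ≠ b ∧ a ≠ c ∧ a ≠ e ∧ b ≠ c ∧ b ≠ e) := fun q =>
        h ⟨q.2.1, q.1, q.2.2.1.symm, q.2.2.2.2.1.symm, q.2.2.2.1.symm, q.2.2.2.2.2.symm⟩
      simp only [hT, if_neg h, if_neg h']
      simp
  have hs : ∀ a b : Fin n, -((3 / 2) * (if a ≠ b then ip f (pairLap a b f) else 0)) ≤
      ∑ c : Fin n, ∑ e : Fin n, T a b c e := by
    intro a b
    by_cases h : a = b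
    · simp [hT, h]
    · rw [if_pos h, neg_le, ← sum_neg_distrib]
      refine le_trans (le_of_eq ?_) (hslice n d a b h f)
      refine sum_congr rfl fun c _ => ?_
      rw [← sum_neg_distrib]
      refine sum_congr rfl fun e _ => ?_
      simp only [hT, ne_eq, h, not_false_eq_true, true_and]
      split_ifs <;> ring
  have h1 : -(3 * ip f (pairsLap f)) ≤ ∑ a : Fin n, ∑ b, ∑ c, ∑ e, T a b c e := by
    refine le_trans (le_of_eq ?_) (sum_le_sum fun a _ => sum_le_sum fun b _ => hs a b)
    rw [ip_pairsLap]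
    simp only [sum_neg_distrib, ← mul_sum]
    ring
  have h2 := sum_le_sum (s := univ) fun a _ => sum_le_sum (s := univ) fun b _ =>
    sum_le_sum (s := univ) fun c _ => sum_le_sum (s := univ) fun e _ => hq a b c e
  simp only [sum_add_distrib, ← mul_sum, sum_swap T] at h2
  refine h1.trans (le_trans (by linarith) (le_of_eq ?_))
  refine sum_congr rfl fun a _ => sum_congr rfl fun b _ => ?_
  by_cases h : a = b
  · simp [h]
  · simp [h]

/-- The square of the sum of pair Laplacians is at least a quarter of its form. -/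
theorem sq_ge (htri : TriThm) (hquad : QuadThm) (hslice : PairSliceThm) (f : Graphs d → ℝ) :
    (1 / 4) * ip f (pairsLap f) ≤ ip (pairsLap f) (pairsLap f) := by
  have hd := disjoint_ge hquad hslice f
  have ht := share_nonneg htri f
  have he : ∑ a : Fin n, ∑ b : Fin n,
      (if a ≠ b then cross f a b a b + cross f a b b a else 0) = 4 * ip f (pairsLap f) := by
    rw [ip_pairsLap, show ∀ x : ℝ, 4 * ((1 / 2) * x) = 2 * x from fun x => by ring, mul_sum]
    refine sum_congr rfl fun a _ => ?_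
    rw [mul_sum]
    refine sum_congr rfl fun b _ => ?_
    split_ifs
    · rw [cross, cross, pairLap_comm b a, ← cross, cross_self]
      ring
    · ring
  have hsplit : ∑ a : Fin n, ∑ b : Fin n,
      (if a ≠ b then ∑ c : Fin n, ∑ e : Fin n, (if c ≠ e then cross f a b c e else 0) else 0) =
      ∑ a : Fin n, ∑ b : Fin n,
        ((if a ≠ b then cross f a b a b + cross f a b b a else 0) +
        (if a ≠ b then ∑ e : Fin n, (if e ≠ a ∧ e ≠ b then
          cross f a b a e + cross f a b b e + cross f a b e a + cross f a b e b else 0) else 0) +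
        (if a ≠ b then ∑ c : Fin n, ∑ e : Fin n,
          (if c ≠ e ∧ c ≠ a ∧ c ≠ b ∧ e ≠ a ∧ e ≠ b then cross f a b c e else 0) else 0)) := by
    refine sum_congr rfl fun a _ => sum_congr rfl fun b _ => ?_
    split_ifs with h
    · rw [sum_pairs_split a b h]
    · simp
  rw [ip_sq, hsplit]
  simp only [sum_add_distrib] at he ⊢
  linarith

/-- The sum of pair Laplacians as a linear map. -/
def lapMap (d : Fin n → ℕ) : (Graphs d → ℝ) →ₗ[ℝ] (Graphs d → ℝ) where
  toFun := pairsLap
  map_add' f g := by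
    funext G
    simp only [pairsLap, pairLap, pairAvg, Pi.add_apply, sum_add_distrib, add_div,
      sum_sub_distrib]
    ring
  map_smul' c f := by
    funext G
    simp only [pairsLap, pairLap, pairAvg, Pi.smul_apply, smul_eq_mul, RingHom.id_apply, mul_sum]
    refine sum_congr rfl fun p _ => ?_
    rw [← mul_sum, mul_div_assoc]
    ring

theorem ip_pairsLap_nonneg (f : Graphs d → ℝ) : 0 ≤ ip f (pairsLap f) := by
  rw [ip_pairsLap]
  refine mul_nonneg (by norm_num) (sum_nonneg fun a _ => sum_nonneg fun b _ => ?_)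
  split_ifs
  · rw [PairSlice.ip_self_pairLap]
    exact sum_nonneg fun _ _ => sq_nonneg _
  · exact le_rfl

theorem pairLap_eq_zero (f : Graphs d → ℝ) (h : pairsLap f = 0) (a b : Fin n) (hab : a ≠ b)
    (G : Graphs d) : pairLap a b f G = 0 := by
  have h0 : ip f (pairsLap f) = 0 := by simp [ip, h]
  rw [ip_pairsLap] at h0
  have nn : ∀ x y : Fin n, 0 ≤ (if x ≠ y then ip f (pairLap x y f) else 0) := fun x y => by
    split_ifs
    · rw [PairSlice.ip_self_pairLap]
      exact sum_nonneg fun _ _ => sq_nonneg _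
    · exact le_rfl
  have h1 := (sum_eq_zero_iff_of_nonneg fun x _ => sum_nonneg fun y _ => nn x y).1
    ((mul_eq_zero.1 h0).resolve_left (by norm_num)) a (mem_univ a)
  have h2 := (sum_eq_zero_iff_of_nonneg fun y _ => nn a y).1 h1 b (mem_univ b)
  rw [if_pos hab, PairSlice.ip_self_pairLap] at h2
  exact (pow_eq_zero_iff two_ne_zero).1
    ((sum_eq_zero_iff_of_nonneg fun _ _ => sq_nonneg _).1 h2 G (mem_univ G))

theorem pairsLap_const : pairsLap (fun _ : Graphs d => (1 : ℝ)) = 0 := by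
  funext G
  simp only [pairsLap, pairLap, pairAvg, sum_const, nsmul_eq_mul, mul_one, Pi.zero_apply]
  rw [sum_eq_zero fun p _ => ?_, mul_zero]
  rw [div_self (by exact_mod_cast (card_pos.2 ⟨G, mem_cls_self G⟩).ne'), sub_self]

theorem gapThm_of (htri : TriThm) (hquad : QuadThm) (hslice : PairSliceThm) (hconn : ConnThm) :
    GapThm := by
  intro n d f
  have hs : ∀ u v : Graphs d → ℝ, ip u (pairsLap v) = ip (pairsLap u) v := fun u v => by
    rw [ip_comm (pairsLap u) v, ip_pairsLap, ip_pairsLap]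
    congr 1
    refine sum_congr rfl fun a _ => sum_congr rfl fun b _ => ?_
    split_ifs
    · rw [ip_pairLap_symm, ip_comm]
    · rfl
  have h := gap_of_sq (lapMap d) hs ip_pairsLap_nonneg
    (fun u hu => hconn n d u fun a b hab G => pairLap_eq_zero u hu a b hab G)
    (c := 1 / 4) (by norm_num) (fun u => sq_ge htri hquad hslice u) f pairsLap_const
  change (1 / 4 : ℝ) * _ ≤ ip f (pairsLap f) at h
  have e : (∑ G, ∑ H, (f G - f H) ^ 2) / (2 * (Fintype.card (Graphs d) : ℝ)) =
      ∑ G, (f G - (∑ H, f H) / Fintype.card (Graphs d)) ^ 2 := by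
    rcases isEmpty_or_nonempty (Graphs d) with hE | hE
    · simp
    · have hc : (Fintype.card (Graphs d) : ℝ) ≠ 0 := by exact_mod_cast Fintype.card_ne_zero
      simp only [sub_sq, sum_add_distrib, sum_sub_distrib, sum_const, nsmul_eq_mul, ← mul_sum,
        ← sum_mul, card_univ]
      field_simp
      ring
  rw [e]
  linarith

end Vale.Agent.P335.Gap
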