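import Vale.Agent.P335.QuadGraph

/-!
Two disjoint pairs: their cross term is bounded below by the exchange of the two middle matchings,
minus the squares of the middle means of each pair.
-/

noncomputable section

open Finset
open scoped Classical

namespace Vale.Agent.P335.Quad

variable {n : ℕ} {d : Fin n → ℕ} {a b c e : Fin n}

/-- The exchange of the two middle matchings. -/
def flip (h : Four a b c e) (G : Graphs d) : Graphs d := (exists_flip h G).choose

theorem flip_adj (h : Four a b c e) (G : Graphs d) (i j : Fin n) :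
    (flip h G).1.Adj i j ↔
      if Middle a b c e G.1 ∧ sig a b c e i j then ¬G.1.Adj i j else G.1.Adj i j :=
  (exists_flip h G).choose_spec i j

theorem flip_adj_of (h : Four a b c e) {G : Graphs d} (hm : Middle a b c e G.1) {i j : Fin n}
    (hs : sig a b c e i j) : (flip h G).1.Adj i j ↔ ¬G.1.Adj i j := by
  rw [flip_adj, if_pos ⟨hm, hs⟩]

theorem ag_flip (h : Four a b c e) (G : Graphs d) : ag (sig a b c e) G (flip h G) :=
  fun i j hs => by rw [flip_adj, if_neg fun h' => hs h'.2]

theorem flip_of_not (h : Four a b c e) {G : Graphs d} (hm : ¬Middle a b c e G.1) :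
    flip h G = G :=
  Subtype.ext (SimpleGraph.ext (funext fun i => funext fun j => propext (by simp [flip_adj, hm])))

theorem bn_flip (h : Four a b c e) {G : Graphs d} (hm : Middle a b c e G.1) :
    bn (flip h G) a c = 1 - bn G a c ∧ bn (flip h G) a e = 1 - bn G a e ∧
      bn (flip h G) b c = 1 - bn G b c ∧ bn (flip h G) b e = 1 - bn G b e := by
  have key : ∀ i j, sig a b c e i j → bn (flip h G) i j = 1 - bn G i j := fun i j hs => by
    unfold bn
    by_cases hh : G.1.Adj i j <;> simp [flip_adj_of h hm hs, hh]
  exact ⟨key _ _ (Or.inl ⟨Or.inl rfl, Or.inl rfl⟩), key _ _ (Or.inl ⟨Or.inl rfl, Or.inr rfl⟩),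
    key _ _ (Or.inl ⟨Or.inr rfl, Or.inl rfl⟩), key _ _ (Or.inl ⟨Or.inr rfl, Or.inr rfl⟩)⟩

theorem middle_flip (h : Four a b c e) (G : Graphs d) :
    Middle a b c e (flip h G).1 ↔ Middle a b c e G.1 := by
  by_cases hm : Middle a b c e G.1
  · obtain ⟨h1, h2, h3, h4⟩ := bn_flip h hm
    simp only [hm, iff_true]
    rw [middle_iff] at hm ⊢
    have := bn_le G a c
    omega
  · rw [flip_of_not h hm]

theorem flip_invol (h : Four a b c e) : Function.Involutive (flip (d := d) h) := fun G => by
  by_cases hm : Middle a b c e G.1
  · refine Subtype.ext (SimpleGraph.ext (funext fun i => funext fun j => propext ?_))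
    rw [flip_adj, flip_adj]
    by_cases hs : sig a b c e i j <;> simp [hs, hm, middle_flip]
  · rw [flip_of_not h hm, flip_of_not h hm]

/-- The exchange as a permutation. -/
def fl (h : Four a b c e) : Equiv.Perm (Graphs d) := (flip_invol h).toPerm

@[simp] theorem fl_apply (h : Four a b c e) (G : Graphs d) : fl h G = flip h G := rfl

@[simp] theorem fl_symm_apply (h : Four a b c e) (G : Graphs d) : (fl h).symm G = flip h G := rfl

theorem sigEq_swap {G H : Graphs d} (hs : SigEq c e a b G H) : SigEq a b c e G H := by
  obtain ⟨h1, h2, h3, h4⟩ := hs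
  exact ⟨by rw [bn_symm G, bn_symm H]; exact h1, by rw [bn_symm G, bn_symm H]; exact h3,
    by rw [bn_symm G, bn_symm H]; exact h2, by rw [bn_symm G, bn_symm H]; exact h4⟩

theorem ag_flip_flip (h : Four a b c e) {S : Fin n → Fin n → Prop} {G H : Graphs d}
    (hGH : ag S G H) (hs : SigEq a b c e G H) : ag S (flip h G) (flip h H) := fun i j hS => by
  rw [flip_adj, flip_adj]
  by_cases hsig : sig a b c e i j
  · simp only [hsig, and_true, middle_congr hs, adj_iff_of_sigEq hs hsig]
  · simp only [hsig, and_false, if_false]
    exact hGH i j hS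

theorem ag_dom_flip (h : Four a b c e) (G : Graphs d) :
    ag (dom a b) G (flip h G) ∧ ag (dom c e) G (flip h G) :=
  ⟨ag_mono (fun _ _ hs => dom_of_sig h hs) (ag_flip h G),
    ag_mono (fun i j hs => dom_of_sig h.swap (by rwa [sig_swap])) (ag_flip h G)⟩

theorem flip_swap (h : Four a b c e) (G : Graphs d) : flip h.swap G = flip h G := by
  refine Subtype.ext (SimpleGraph.ext (funext fun i => funext fun j => propext ?_))
  rw [flip_adj, flip_adj]
  simp only [middle_swap, sig_swap a b c e]

/-- The first coarse average. -/
abbrev avP (a b : Fin n) (f : Graphs d → ℝ) : Graphs d → ℝ := av (ag (dom a b)) f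

/-- The average over the moves that fix the shared slots. -/
abbrev avF (a b c e : Fin n) (f : Graphs d → ℝ) : Graphs d → ℝ := av (ag (fine a b c e)) f

theorem avF_avP (f : Graphs d → ℝ) :
    avF a b c e (avP a b f) = avP a b f ∧ avP a b (avF a b c e f) = avP a b f :=
  av_av_of_le (ag_equiv _) (ag_equiv _) (fun _ _ hh => ag_mono (fun _ _ hf => hf.1) hh) f

theorem avF_idem (f : Graphs d → ℝ) : avF a b c e (avF a b c e f) = avF a b c e f :=
  av_idem (ag_equiv _) f

theorem avFF_comm (h : Four a b c e) (f : Graphs d → ℝ) :
    avF a b c e (avF c e a b f) = avF c e a b (avF a b c e f) :=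
  av_ag_comm (S := fine a b c e) (T := fine c e a b) (fun _ _ => fine_symm) (fine_irr _ _ _ _)
    (fun _ _ => fine_symm) (fine_irr _ _ _ _)
    (fun _ _ hf hf' => not_dom_of_fine h hf hf'.1) f

theorem avFP_comm (h : Four a b c e) (f : Graphs d → ℝ) :
    avF a b c e (avP c e f) = avP c e (avF a b c e f) :=
  av_ag_comm (S := fine a b c e) (T := dom c e) (fun _ _ => fine_symm) (fine_irr _ _ _ _)
    (fun _ _ => dom_symm) (dom_irr _ _)
    (fun _ _ hf => not_dom_of_fine h hf) f

theorem av_add {α : Type*} [Fintype α] (r : α → α → Prop) (f g : α → ℝ) :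
    av r (fun x => f x + g x) = fun x => av r f x + av r g x := by
  funext x
  simp [av, Finset.sum_add_distrib, add_div]

theorem avF_flip (h : Four a b c e) {a' b' c' e' : Fin n}
    (hs : ∀ G H : Graphs d, ag (fine a' b' c' e') G H → SigEq a b c e G H) (f : Graphs d → ℝ) :
    avF a' b' c' e' (fun G => f (flip h G)) = fun G => avF a' b' c' e' f (flip h G) :=
  av_comp (fl h) (fun G H hh => ag_flip_flip h hh (hs G H hh))
    (fun G H hh => ag_flip_flip h hh (hs G H hh)) f

/-- The half difference along the exchange, on the middle graphs. -/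
def dl (h : Four a b c e) (f : Graphs d → ℝ) (G : Graphs d) : ℝ :=
  (if Middle a b c e G.1 then (1 / 2 : ℝ) else 0) * (f G - f (flip h G))

theorem avF_dl (h : Four a b c e) {a' b' c' e' : Fin n}
    (hs : ∀ G H : Graphs d, ag (fine a' b' c' e') G H → SigEq a b c e G H) (f : Graphs d → ℝ) :
    avF a' b' c' e' (dl h f) = dl h (avF a' b' c' e' f) := by
  have hk : ∀ G H : Graphs d, ag (fine a' b' c' e') G H →
      (if Middle a b c e G.1 then (1 / 2 : ℝ) else 0) =
        if Middle a b c e H.1 then (1 / 2 : ℝ) else 0 :=
    fun G H hh => by simp only [middle_congr (hs G H hh)]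
  change av (ag (fine a' b' c' e')) (fun G => _ * _) = _
  rw [av_mul hk, av_sub]
  funext G
  rw [show av (ag (fine a' b' c' e')) (fun G => f (flip h G)) = _ from avF_flip h hs f]
  rfl

/-- The half differences of a mean zero part and of an averaged part are orthogonal. -/
theorem dl_orth (h : Four a b c e) {a' b' c' e' : Fin n}
    (hs : ∀ G H : Graphs d, ag (fine a' b' c' e') G H → SigEq a b c e G H) {y z : Graphs d → ℝ}
    (hy : avF a' b' c' e' y = y) (hz : avF a' b' c' e' z = fun _ => 0) :
    ∑ G, dl h z G * dl h y G = 0 := by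
  have e1 : dl h y = avF a' b' c' e' (dl h y) := by rw [avF_dl h hs, hy]
  rw [e1, ← av_adj (ag_equiv _)]
  change ∑ G, avF a' b' c' e' (dl h z) G * dl h y G = 0
  rw [avF_dl h hs, hz]
  simp [dl]

theorem sum_dl_sq_le (h : Four a b c e) (f : Graphs d → ℝ) :
    ∑ G, dl h f G ^ 2 ≤ ∑ G, f G ^ 2 := by
  have hpt : ∀ G, dl h f G ^ 2 ≤ (f G ^ 2 + f (flip h G) ^ 2) / 2 := fun G => by
    unfold dl
    split_ifs
    · nlinarith [sq_nonneg (f G + f (flip h G))]
    · nlinarith [sq_nonneg (f G), sq_nonneg (f (flip h G))]
  refine (Finset.sum_le_sum fun G _ => hpt G).trans (le_of_eq ?_)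
  have e1 : ∑ G, f (flip h G) ^ 2 = ∑ G, f G ^ 2 := Equiv.sum_comp (fl h) fun G => f G ^ 2
  rw [← Finset.sum_div, Finset.sum_add_distrib, e1]
  ring

theorem sigEq_flip_or (h : Four a b c e) {G H : Graphs d} (hG : Middle a b c e G.1)
    (hH : Middle a b c e H.1) : SigEq a b c e G H ∨ SigEq a b c e (flip h G) H := by
  obtain ⟨h1, h2, h3, h4⟩ := bn_flip h hG
  rw [middle_iff] at hG hH
  have := bn_le G a c
  have := bn_le H a c
  by_cases he : bn G a c = bn H a c
  · refine Or.inl ⟨?_, ?_, ?_, ?_⟩ <;> omega
  · refine Or.inr ⟨?_, ?_, ?_, ?_⟩ <;> omega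

theorem sig_iff (i j : Fin n) : sig a b c e i j ↔
    s(i, j) = s(a, c) ∨ s(i, j) = s(b, e) ∨ s(i, j) = s(a, e) ∨ s(i, j) = s(b, c) := by
  unfold sig
  simp only [Sym2.eq_iff]
  tauto

theorem midDev_eq (h : Four a b c e) (f : Graphs d → ℝ) :
    midDev a b c e f = ∑ G, dl h f G ^ 2 := by
  refine Finset.sum_congr rfl fun G _ => ?_
  have hiff : ∀ H : Graphs d, (Middle a b c e G.1 ∧ Middle a b c e H.1 ∧ G ≠ H ∧
      (∀ u v, s(u, v) ≠ s(a, c) → s(u, v) ≠ s(b, e) → s(u, v) ≠ s(a, e) → s(u, v) ≠ s(b, c) →
        (G.1.Adj u v ↔ H.1.Adj u v))) ↔ Middle a b c e G.1 ∧ H = flip h G := by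
    intro H
    constructor
    · rintro ⟨hG, hH, hne, hout⟩
      have hag : ag (sig a b c e) G H := fun i j hs => by
        rw [sig_iff] at hs
        push Not at hs
        exact hout i j hs.1 hs.2.1 hs.2.2.1 hs.2.2.2
      refine ⟨hG, ?_⟩
      refine Subtype.ext (SimpleGraph.ext (funext fun i => funext fun j => propext ?_))
      rcases sigEq_flip_or h hG hH with hs | hs
      · refine absurd (Subtype.ext (SimpleGraph.ext (funext fun i => funext fun j =>
          propext ?_))) hne
        by_cases hsig : sig a b c e i j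
        · exact adj_iff_of_sigEq hs hsig
        · exact hag i j hsig
      · by_cases hsig : sig a b c e i j
        · exact (adj_iff_of_sigEq hs hsig).symm
        · exact (hag i j hsig).symm.trans (ag_flip h G i j hsig)
    · rintro ⟨hG, rfl⟩
      refine ⟨hG, (middle_flip h G).2 hG, fun e1 => ?_, fun u v h1 h2 h3 h4 => ag_flip h G u v ?_⟩
      · have h1 := (bn_flip h hG).1
        rw [← e1] at h1
        have := bn_le G a c
        omega
      · rw [sig_iff]
        tauto
  simp only [hiff]
  by_cases hG : Middle a b c e G.1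
  · simp only [hG, true_and, Finset.sum_ite_eq', Finset.mem_univ, if_true, dl]
    ring
  · simp [hG, dl]

/-- The middle squared mean dominates the symmetrised middle part. -/
theorem mean_le (h : Four a b c e) (f : Graphs d → ℝ) :
    (∑ G, if Middle a b c e G.1 then
      ((avF a b c e (avF c e a b f) G + avF a b c e (avF c e a b f) (flip h G)) / 2 -
        avP a b (avF a b c e (avF c e a b f)) G) ^ 2 else 0) ≤ midMean a b c e f := by
  set x : Graphs d → ℝ := fun G => avF a b c e f G - avP a b f G with hx
  set k : Graphs d → ℝ := fun G => if Middle a b c e G.1 then (1 / 2 : ℝ) else 0 with hk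
  have hsq : ∀ G H : Graphs d, ag (fine c e a b) G H → SigEq a b c e G H :=
    fun G H hh => sigEq_swap (sigEq_of_fine hh)
  have hkc : ∀ G H : Graphs d, ag (fine c e a b) G H → k G = k H :=
    fun G H hh => by simp only [hk, middle_congr (hsq G H hh)]
  have hQx : avF c e a b x = fun G => avF a b c e (avF c e a b f) G -
      avP a b (avF a b c e (avF c e a b f)) G := by
    rw [hx]
    change av _ _ = _
    rw [av_sub]
    funext G
    rw [show av (ag (fine c e a b)) (avF a b c e f) = avF a b c e (avF c e a b f) from
      (avFF_comm h f).symm, show av (ag (fine c e a b)) (avP a b f) = avP a b (avF c e a b f) from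
      avFP_comm h.swap f, (avF_avP (avF c e a b f)).2]
  have hQ : avF c e a b (fun G => k G * (x G + x (flip h G))) = fun G =>
      k G * (avF c e a b x G + avF c e a b x (flip h G)) := by
    change av (ag (fine c e a b)) _ = _
    rw [av_mul hkc, av_add]
    funext G
    rw [show av (ag (fine c e a b)) (fun G => x (flip h G)) = _ from avF_flip h hsq x]
  have h1 := sum_sq_av_le (ag_equiv (fine c e a b)) fun G => k G * (x G + x (flip h G))
  change ∑ G, avF c e a b (fun G => k G * (x G + x (flip h G))) G ^ 2 ≤ _ at h1
  rw [hQ, hQx] at h1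
  refine le_trans (le_of_eq (Finset.sum_congr rfl fun G _ => ?_))
    (h1.trans (le_of_eq (Finset.sum_congr rfl fun G _ => ?_)))
  · by_cases hG : Middle a b c e G.1
    · have e1 : avP a b (avF a b c e (avF c e a b f)) (flip h G) =
          avP a b (avF a b c e (avF c e a b f)) G :=
        (av_eq (ag_equiv _) _ (ag_dom_flip h G).1).symm
      simp only [hk, if_pos hG, e1]
      ring
    · simp [hk, hG]
  · by_cases hG : Middle a b c e G.1
    · have hset : (cls a b G).filter (fun H : Graphs d => Middle a b c e H.1) =
          cl (ag (fine a b c e)) G ∪ cl (ag (fine a b c e)) (flip h G) := by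
        ext H
        simp only [cls, Finset.mem_filter, Finset.mem_univ, true_and, Finset.mem_union, mem_cl,
          sameRest_eq]
        constructor
        · rintro ⟨hH, hmH⟩
          rcases sigEq_flip_or h hG hmH with hs | hs
          · exact Or.inl (ag_fine hH hs)
          · exact Or.inr (ag_fine ((ag_equiv _).trans ((ag_equiv _).symm (ag_dom_flip h G).1) hH) hs)
        · rintro (hH | hH)
          · exact ⟨ag_mono (fun _ _ hf => hf.1) hH, (middle_congr (sigEq_of_fine hH)).1 hG⟩
          · exact ⟨(ag_equiv _).trans (ag_dom_flip h G).1 (ag_mono (fun _ _ hf => hf.1) hH),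
              (middle_congr (sigEq_of_fine hH)).1 ((middle_flip h G).2 hG)⟩
      have hdis : Disjoint (cl (ag (fine a b c e)) G) (cl (ag (fine a b c e)) (flip h G)) := by
        refine Finset.disjoint_left.2 fun H h1 h2 => ?_
        have s1 := (sigEq_of_fine (mem_cl.1 h1)).1
        have s2 := (sigEq_of_fine (mem_cl.1 h2)).1
        have s3 := (bn_flip h hG).1
        have := bn_le G a c
        omega
      have hcard : (cl (ag (fine a b c e)) (flip h G)).card =
          (cl (ag (fine a b c e)) G).card := by
        refine Finset.card_bij' (fun H _ => flip h H) (fun H _ => flip h H) ?_ ?_ ?_ ?_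
        · intro H hH
          have := ag_flip_flip h (mem_cl.1 hH) (sigEq_of_fine (mem_cl.1 hH))
          rw [flip_invol h] at this
          exact mem_cl.2 this
        · intro H hH
          exact mem_cl.2 (ag_flip_flip h (mem_cl.1 hH) (sigEq_of_fine (mem_cl.1 hH)))
        · exact fun H _ => flip_invol h H
        · exact fun H _ => flip_invol h H
      have hu : ∀ G, x G = (∑ H ∈ cl (ag (fine a b c e)) G, pairLap a b f H) /
          (cl (ag (fine a b c e)) G).card := by
        intro G
        change x G = av (ag (fine a b c e)) (pairLap a b f) G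
        have hp : pairLap a b f = fun H => f H - avP a b f H :=
          funext fun H => by rw [pairLap, pairAvg_eq]
        rw [hp, av_sub]
        simp only [hx]
        rw [show av (ag (fine a b c e)) (avP a b f) = avP a b f from (avF_avP f).1]
      rw [hset, Finset.sum_union hdis, Finset.card_union_of_disjoint hdis, hcard]
      simp only [hk, if_pos hG]
      rw [hu G, hu (flip h G), hcard]
      push_cast
      have := card_cl_pos (ag_equiv (fine a b c e)) G
      field_simp
      ring
    · simp [hk, hG]

/-- The cross term of two disjoint pairs. -/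
theorem quad_core (h : Four a b c e) (f : Graphs d → ℝ) :
    2 * (∑ G, dl h f G ^ 2) - midMean a b c e f - midMean c e a b f ≤
      2 * ∑ G, (f G - avP a b f G) * (f G - avP c e f G) := by
  set g := avF a b c e (avF c e a b f) with hg
  set F := avF (d := d) a b c e with hF
  set F' := avF (d := d) c e a b with hF'
  set P := avP (d := d) a b with hP
  set Q := avP (d := d) c e with hQ
  have hr : ∀ S : Fin n → Fin n → Prop, Equivalence (ag (d := d) S) := ag_equiv
  have hgF : F g = g := avF_idem _
  have hgF' : F' g = g := by rw [hg, hF, hF', avFF_comm h, avF_idem]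
  have hPg : P g = P (F' f) := (avF_avP _).2
  have hQg : Q g = Q (F f) := by
    have : g = F' (F f) := avFF_comm h f
    rw [this]; exact (avF_avP _).2
  have hFsub : ∀ u v : Graphs d → ℝ, F (fun G => u G - v G) = fun G => F u G - F v G :=
    fun u v => av_sub _ u v
  have hF'sub : ∀ u v : Graphs d → ℝ, F' (fun G => u G - v G) = fun G => F' u G - F' v G :=
    fun u v => av_sub _ u v
  have hPsub : ∀ u v : Graphs d → ℝ, P (fun G => u G - v G) = fun G => P u G - P v G :=
    fun u v => av_sub _ u v
  have hQsub : ∀ u v : Graphs d → ℝ, Q (fun G => u G - v G) = fun G => Q u G - Q v G :=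
    fun u v => av_sub _ u v
  set Z1 : Graphs d → ℝ := fun G => (f G - Q f G) - F (fun H => f H - Q f H) G with hZ1
  set Z2 : Graphs d → ℝ := fun G =>
    F (fun H => f H - F' f H) G - P (fun H => f H - F' f H) G with hZ2
  have s1 : ∑ G, (f G - F f G) * (f G - Q f G) = ∑ G, Z1 G ^ 2 := by
    refine ip_eq_sq (A := fun u G => u G - F u G) (B := fun u G => u G - Q u G)
      (sub_av_adj (hr _)) (sub_av_adj (hr _)) (sub_av_idem (hr _)) (sub_av_idem (hr _)) ?_
    funext G
    simp only [hFsub, hQsub]
    rw [show F (Q f) = Q (F f) from avFP_comm h f]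
    ring
  have s2 : ∑ G, (F f G - P f G) * (f G - F' f G) = ∑ G, Z2 G ^ 2 := by
    refine ip_eq_sq (A := fun u G => F u G - P u G) (B := fun u G => u G - F' u G)
      ?_ (sub_av_adj (hr _)) ?_ (sub_av_idem (hr _)) ?_
    · intro u v
      simp only [sub_mul, mul_sub, Finset.sum_sub_distrib]
      rw [show ∑ G, F u G * v G = _ from av_adj (hr _) u v,
        show ∑ G, P u G * v G = _ from av_adj (hr _) u v]
    · intro u
      funext G
      simp only [hFsub, hPsub]
      rw [show F (F u) = F u from avF_idem u, show F (P u) = P u from (avF_avP u).1,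
        show P (F u) = P u from (avF_avP u).2, show P (P u) = P u from av_idem (hr _) u]
      ring
    · funext G
      simp only [hFsub, hPsub, hF'sub]
      rw [show F (F' f) = F' (F f) from avFF_comm h f,
        show F' (P f) = P (F' f) from avFP_comm h.swap f]
      ring
  have s3 : ∑ G, (F f G - P f G) * (F' f G - Q f G) = ∑ G, (g G - P g G) * (g G - Q g G) := by
    have w1 : F' (fun G => F' f G - Q f G) = fun G => F' f G - Q f G := by
      rw [hF'sub, show F' (F' f) = F' f from avF_idem f, show F' (Q f) = Q f from (avF_avP f).1]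
    have w2 : F' (fun G => F f G - P f G) = fun G => g G - P g G := by
      rw [hF'sub, show F' (P f) = P (F' f) from avFP_comm h.swap f, hPg,
        show F' (F f) = g from (avFF_comm h f).symm]
    have w3 : F (fun G => g G - P g G) = fun G => g G - P g G := by
      rw [hFsub, hgF, show F (P g) = P g from (avF_avP g).1]
    have w4 : F (fun G => F' f G - Q f G) = fun G => g G - Q g G := by
      rw [hFsub, show F (Q f) = Q (F f) from avFP_comm h f, hQg]
    calc ∑ G, (F f G - P f G) * (F' f G - Q f G)
        = ∑ G, (F f G - P f G) * F' (fun G => F' f G - Q f G) G := by rw [w1]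
      _ = ∑ G, F' (fun G => F f G - P f G) G * (F' f G - Q f G) := (av_adj (hr _) _ _).symm
      _ = ∑ G, F (fun G => g G - P g G) G * (F' f G - Q f G) := by rw [w2, w3]
      _ = ∑ G, (g G - P g G) * F (fun G => F' f G - Q f G) G := av_adj (hr _) _ _
      _ = ∑ G, (g G - P g G) * (g G - Q g G) := by rw [w4]
  have hsplit : ∑ G, (f G - P f G) * (f G - Q f G) =
      (∑ G, Z1 G ^ 2) + (∑ G, Z2 G ^ 2) + ∑ G, (g G - P g G) * (g G - Q g G) := by
    rw [← s1, ← s2, ← s3, ← Finset.sum_add_distrib, ← Finset.sum_add_distrib]
    exact Finset.sum_congr rfl fun G _ => by ring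
  -- the part off two shared edges
  have hoff : 0 ≤ ∑ G, if Two a b c e G then 0 else (g G - P g G) * (g G - Q g G) := by
    set k : Graphs d → ℝ := fun G => if Two a b c e G then 0 else 1 with hk
    have hkP : ∀ G H, ag (dom a b) G H → k G = k H := fun G H hh => by
      simp only [hk, two_iff_of_dom_left h hh]
    have hkQ : ∀ G H, ag (dom c e) G H → k G = k H := fun G H hh => by
      simp only [hk, two_iff_of_dom_right h hh]
    have hcomm : P (Q fun G => k G * g G) = Q (P fun G => k G * g G) := by
      have eP : ∀ v : Graphs d → ℝ, P (fun G => k G * v G) = fun G => k G * P v G :=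
        fun v => av_mul hkP v
      have eQ : ∀ v : Graphs d → ℝ, Q (fun G => k G * v G) = fun G => k G * Q v G :=
        fun v => av_mul hkQ v
      funext G
      rw [eQ, eP, eP, eQ]
      by_cases h2 : Two a b c e G
      · simp [hk, h2]
      · refine congrArg (k G * ·) ?_
        have hswap : ∀ x : Graphs d, Two c e a b x ↔ Two a b c e x := fun x => by
          unfold Two
          rw [bn_symm x c a, bn_symm x c b, bn_symm x e a, bn_symm x e b]
          omega
        exact av_comm_at (hr _) (hr _) (R := fun x => ¬Two a b c e x)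
          (fun x y hh hx => by rwa [← two_iff_of_dom_left h hh])
          (fun x y hh hx => by rwa [← two_iff_of_dom_right h hh])
          (fun x y hx => eq_of_not_two h hx)
          (fun x y z hx => swap_slots h x y z hx)
          (fun x y z hx => swap_slots h.swap x y z (by rwa [hswap])) g h2
    have hval : ∑ G, ((k G * g G) - P (fun G => k G * g G) G) *
        ((k G * g G) - Q (fun G => k G * g G) G) =
          ∑ G, if Two a b c e G then 0 else (g G - P g G) * (g G - Q g G) := by
      rw [show P (fun G => k G * g G) = _ from av_mul hkP g,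
        show Q (fun G => k G * g G) = _ from av_mul hkQ g]
      refine Finset.sum_congr rfl fun G _ => ?_
      by_cases h2 : Two a b c e G
      · simp [hk, h2]
      · simp only [hk, if_neg h2, one_mul]; rfl
    rw [← hval, ip_eq_sq (A := fun u G => u G - P u G) (B := fun u G => u G - Q u G)
      (sub_av_adj (hr _)) (sub_av_adj (hr _)) (sub_av_idem (hr _)) (sub_av_idem (hr _))]
    · exact Finset.sum_nonneg fun G _ => sq_nonneg _
    · funext G
      simp only [hPsub, hQsub, hcomm]
      ring
  have hmid : ∀ G : Graphs d, Middle a b c e G.1 → Two a b c e G := fun G hm => by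
    rw [middle_iff] at hm
    unfold Two
    omega
  have hpoint : ∀ G, (g G - P g G) * (g G - Q g G) =
      (if Two a b c e G then 0 else (g G - P g G) * (g G - Q g G)) +
        if Middle a b c e G.1 then (g G - P g G) * (g G - Q g G) else 0 := by
    intro G
    by_cases h2 : Two a b c e G
    · by_cases hm : Middle a b c e G.1
      · simp [h2, hm]
      · have hz : g G - P g G = 0 ∨ g G - Q g G = 0 := by
          rcases frozen h h2 hm with hf | hf
          · left
            have : P g G = g G := by
              change av (ag (dom a b)) g G = g G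
              rw [av, Finset.sum_congr rfl fun H hH => (?_ : g H = g G), Finset.sum_const,
                nsmul_eq_mul, mul_div_cancel_left₀ _ (card_cl_pos (hr _) G).ne']
              rw [← hgF]
              exact (av_eq (hr _) g (hf H (mem_cl.1 hH))).symm
            rw [this, sub_self]
          · right
            have : Q g G = g G := by
              change av (ag (dom c e)) g G = g G
              rw [av, Finset.sum_congr rfl fun H hH => (?_ : g H = g G), Finset.sum_const,
                nsmul_eq_mul, mul_div_cancel_left₀ _ (card_cl_pos (hr _) G).ne']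
              rw [← hgF']
              exact (av_eq (hr _) g (hf H (mem_cl.1 hH))).symm
            rw [this, sub_self]
        rcases hz with hz | hz <;> simp [h2, hm, hz]
    · have hm : ¬Middle a b c e G.1 := fun hm => h2 (hmid G hm)
      simp [h2, hm]
  -- the middle part
  set X : Graphs d → ℝ := fun G => (g G + g (flip h G)) / 2 - P g G with hX
  set Y : Graphs d → ℝ := fun G => (g G + g (flip h G)) / 2 - Q g G with hY
  have hmidsum : (∑ G, if Middle a b c e G.1 then (g G - P g G) * (g G - Q g G) else 0) =
      (∑ G, dl h g G ^ 2) + ∑ G, if Middle a b c e G.1 then X G * Y G else 0 := by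
    set T : Graphs d → ℝ := fun G =>
      if Middle a b c e G.1 then (g G - P g G) * (g G - Q g G) else 0 with hT
    have e1 : ∑ G, T (flip h G) = ∑ G, T G := Equiv.sum_comp (fl h) T
    have e2 : ∀ G, (T G + T (flip h G)) / 2 =
        dl h g G ^ 2 + if Middle a b c e G.1 then X G * Y G else 0 := by
      intro G
      by_cases hm : Middle a b c e G.1
      · have p1 : P g (flip h G) = P g G := (av_eq (hr _) g (ag_dom_flip h G).1).symm
        have p2 : Q g (flip h G) = Q g G := (av_eq (hr _) g (ag_dom_flip h G).2).symm
        simp only [hT, hX, hY, dl, if_pos hm, if_pos ((middle_flip h G).2 hm), p1, p2]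
        ring
      · simp [hT, dl, hm, middle_flip]
    rw [← Finset.sum_add_distrib, ← Finset.sum_congr rfl fun G _ => e2 G, ← Finset.sum_div,
      Finset.sum_add_distrib, e1]
    ring
  have hXY : -(1 / 2) * ((∑ G, if Middle a b c e G.1 then X G ^ 2 else 0) +
      ∑ G, if Middle a b c e G.1 then Y G ^ 2 else 0) ≤
      ∑ G, if Middle a b c e G.1 then X G * Y G else 0 := by
    rw [← Finset.sum_add_distrib, Finset.mul_sum]
    refine Finset.sum_le_sum fun G _ => ?_
    split_ifs
    · nlinarith [sq_nonneg (X G + Y G)]
    · simp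
  have hXm : (∑ G, if Middle a b c e G.1 then X G ^ 2 else 0) ≤ midMean a b c e f := mean_le h f
  have hYm : (∑ G, if Middle a b c e G.1 then Y G ^ 2 else 0) ≤ midMean c e a b f := by
    refine le_trans (le_of_eq (Finset.sum_congr rfl fun G _ => ?_)) (mean_le h.swap f)
    simp only [middle_swap, hY]
    rw [flip_swap h G, ← avFF_comm h f]
  -- the exchange part
  have hsp : ∀ G H : Graphs d, ag (fine a b c e) G H → SigEq a b c e G H :=
    fun G H hh => sigEq_of_fine hh
  have hsq : ∀ G H : Graphs d, ag (fine c e a b) G H → SigEq a b c e G H :=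
    fun G H hh => sigEq_swap (sigEq_of_fine hh)
  have o1 : F Z1 = fun _ => 0 := by
    rw [hZ1, hFsub, show F (F (fun H => f H - Q f H)) = F (fun H => f H - Q f H) from avF_idem _]
    simp
  have o2 : F Z2 = Z2 := by
    rw [hZ2, hFsub, show F (F (fun H => f H - F' f H)) = _ from avF_idem _,
      show F (P (fun H => f H - F' f H)) = _ from (avF_avP _).1]
  have o3 : F' Z2 = fun _ => 0 := by
    have z : F' (fun H => f H - F' f H) = fun _ => 0 := by
      rw [hF'sub, show F' (F' f) = F' f from avF_idem f]
      simp
    rw [hZ2, hF'sub, show F' (F (fun H => f H - F' f H)) = F (F' (fun H => f H - F' f H)) from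
      (avFF_comm h _).symm, show F' (P (fun H => f H - F' f H)) =
      P (F' (fun H => f H - F' f H)) from avFP_comm h.swap _, z]
    simp [hF, hP, av]
  have hdec : ∀ G, dl h f G = dl h Z1 G + dl h Z2 G + dl h g G := by
    intro G
    by_cases hm : Middle a b c e G.1
    · have q1 : ∀ v : Graphs d → ℝ, Q v (flip h G) = Q v G := fun v =>
        (av_eq (hr _) v (ag_dom_flip h G).2).symm
      have q2 : ∀ v : Graphs d → ℝ, P v (flip h G) = P v G := fun v =>
        (av_eq (hr _) v (ag_dom_flip h G).1).symm
      have q3 : F (Q f) = Q (F f) := avFP_comm h f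
      simp only [dl, if_pos hm, hZ1, hZ2, hFsub, hPsub, q3, q1, q2, hg]
      ring
    · simp [dl, hm]
  have hdl : ∑ G, dl h f G ^ 2 =
      (∑ G, dl h Z1 G ^ 2) + (∑ G, dl h Z2 G ^ 2) + ∑ G, dl h g G ^ 2 := by
    have c1 := dl_orth h hsp o2 o1
    have c2 := dl_orth h hsp hgF o1
    have c3 := dl_orth h hsq hgF' o3
    simp only [hdec, add_sq, Finset.sum_add_distrib, mul_assoc, ← Finset.mul_sum, add_mul]
    rw [c1, c2, c3]
    ring
  have htot : ∑ G, (g G - P g G) * (g G - Q g G) =
      (∑ G, if Two a b c e G then 0 else (g G - P g G) * (g G - Q g G)) +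
        ∑ G, if Middle a b c e G.1 then (g G - P g G) * (g G - Q g G) else 0 := by
    rw [← Finset.sum_add_distrib]
    exact Finset.sum_congr rfl fun G _ => hpoint G
  rw [hsplit, hdl, htot, hmidsum]
  linarith [sum_dl_sq_le h Z1, sum_dl_sq_le h Z2]

/-- The disjoint-pair inequality. -/
theorem quadThm : QuadThm := by
  intro n d a b c e hab hac hae hbc hbe hce f
  have h : Four a b c e := ⟨hab, hac, hae, hbc, hbe, hce⟩
  have e1 : midDev c e a b f = midDev a b c e f := by
    rw [midDev_eq h.swap, midDev_eq h]
    exact Finset.sum_congr rfl fun G _ => by simp only [dl, middle_swap]; rw [flip_swap h G]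
  have e2 : ip (pairLap a b f) (pairLap c e f) =
      ∑ G, (f G - avP a b f G) * (f G - avP c e f G) := by
    simp only [ip, pairLap, pairAvg_eq]
  have := quad_core h f
  rw [e1, e2, midDev_eq h]
  linarith

end Vale.Agent.P335.Quad
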