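import Vale.Agent.P335.Pins
import Vale.Agent.P335.Avg

/-!
The classes of two disjoint vertex pairs near the four edge slots they share: which averages
commute, and the exchange of the two middle matchings.
-/

noncomputable section

open Finset
open scoped Classical

namespace Vale.Agent.P335.Quad

variable {n : ℕ} {d : Fin n → ℕ}

/-- Agreement outside the slots `S`. -/
def ag (S : Fin n → Fin n → Prop) (G H : Graphs d) : Prop :=
  ∀ i j, ¬S i j → (G.1.Adj i j ↔ H.1.Adj i j)

theorem ag_equiv (S : Fin n → Fin n → Prop) : Equivalence (ag (d := d) S) :=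
  ⟨fun _ _ _ _ => Iff.rfl, fun h i j hS => (h i j hS).symm,
    fun h h' i j hS => (h i j hS).trans (h' i j hS)⟩

theorem ag_mono {S T : Fin n → Fin n → Prop} (hST : ∀ i j, S i j → T i j) {G H : Graphs d}
    (h : ag S G H) : ag T G H := fun i j hT => h i j fun hS => hT (hST i j hS)

theorem ag_eq_of_disjoint {S T : Fin n → Fin n → Prop} (hST : ∀ i j, S i j → ¬T i j)
    {G H : Graphs d} (h : ag S G H) (h' : ag T G H) : G = H := by
  refine Subtype.ext (SimpleGraph.ext (funext fun i => funext fun j => propext ?_))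
  by_cases hS : S i j
  · exact h' i j (hST i j hS)
  · exact h i j hS

/-- The number of slots of `S` at `i` carrying `φ`. -/
def cnt (S φ : Fin n → Fin n → Prop) (i : Fin n) : ℕ :=
  (univ.filter fun j => S i j ∧ φ i j).card

theorem cnt_congr {S φ ψ : Fin n → Fin n → Prop} (h : ∀ i j, S i j → (φ i j ↔ ψ i j)) (i : Fin n) :
    cnt S φ i = cnt S ψ i :=
  congrArg Finset.card (Finset.filter_congr fun j _ =>
    ⟨fun ⟨a, b⟩ => ⟨a, (h i j a).1 b⟩, fun ⟨a, b⟩ => ⟨a, (h i j a).2 b⟩⟩)

theorem cnt_or {S T : Fin n → Fin n → Prop} (hST : ∀ i j, S i j → ¬T i j)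
    (φ : Fin n → Fin n → Prop) (i : Fin n) :
    cnt (fun i j => S i j ∨ T i j) φ i = cnt S φ i + cnt T φ i := by
  unfold cnt
  rw [← Finset.card_union_of_disjoint]
  · congr 1
    ext j
    simp only [Finset.mem_filter, Finset.mem_union, Finset.mem_univ, true_and]
    tauto
  · refine Finset.disjoint_left.2 fun j h h' => ?_
    simp only [Finset.mem_filter] at h h'
    exact hST i j h.2.1 h'.2.1

theorem cnt_add_not (S : Fin n → Fin n → Prop) (G : Graphs d) (i : Fin n) :
    cnt S G.1.Adj i + cnt (fun i j => ¬S i j) G.1.Adj i = d i := by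
  rw [← cnt_or (fun i j h => not_not.2 h), ← G.2 i]
  unfold cnt nbrs
  congr 1
  ext j
  simp only [Finset.mem_filter, Finset.mem_univ, true_and]
  tauto

theorem cnt_eq_of_ag {S : Fin n → Fin n → Prop} {G H : Graphs d} (h : ag S G H) (i : Fin n) :
    cnt S G.1.Adj i = cnt S H.1.Adj i := by
  have e1 := cnt_add_not S G i
  have e2 := cnt_add_not S H i
  have e3 : cnt (fun i j => ¬S i j) G.1.Adj i = cnt (fun i j => ¬S i j) H.1.Adj i :=
    cnt_congr h i
  omega

/-- New contents on the slots `S` with the old counts give a new graph. -/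
theorem exists_patch (G : Graphs d) (S φ : Fin n → Fin n → Prop) (hS : ∀ i j, S i j → S j i)
    (hφ : ∀ i j, S i j → φ i j → φ j i) (hirr : ∀ i, ¬S i i)
    (hc : ∀ i, cnt S φ i = cnt S G.1.Adj i) :
    ∃ W : Graphs d, ag S W G ∧ ∀ i j, S i j → (W.1.Adj i j ↔ φ i j) := by
  let K : SimpleGraph (Fin n) :=
    { Adj := fun i j => if S i j then φ i j else G.1.Adj i j
      symm := ⟨fun i j h => by
        by_cases hs : S i j
        · rw [if_pos hs] at h; rw [if_pos (hS _ _ hs)]; exact hφ i j hs h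
        · rw [if_neg hs] at h; rw [if_neg fun h' => hs (hS _ _ h')]; exact h.symm⟩
      loopless := ⟨fun i h => by rw [if_neg (hirr i)] at h; exact h.ne rfl⟩ }
  have hK : ∀ i, (nbrs K i).card = d i := fun i => by
    rw [← cnt_add_not S G i, ← hc i]
    unfold cnt nbrs
    rw [← Finset.card_union_of_disjoint]
    · congr 1
      ext j
      simp only [Finset.mem_filter, Finset.mem_union, Finset.mem_univ, true_and, K]
      by_cases hs : S i j <;> simp [hs]
    · refine Finset.disjoint_left.2 fun j h h' => ?_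
      simp only [Finset.mem_filter] at h h'
      exact h'.2.1 h.2.1
  exact ⟨⟨K, hK⟩, fun i j hs => by simp [K, hs], fun i j hs => by simp [K, hs]⟩

/-- Changes on disjoint slots can be made in either order. -/
theorem swap_disjoint {S T : Fin n → Fin n → Prop} (hT : ∀ i j, T i j → T j i)
    (hirr : ∀ i, ¬T i i) (hST : ∀ i j, S i j → ¬T i j) (x y z : Graphs d) (h1 : ag S x y)
    (h2 : ag T y z) : ∃ w, ag T x w ∧ ag S w z := by
  have hxy : ∀ i j, T i j → (x.1.Adj i j ↔ y.1.Adj i j) := fun i j h =>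
    h1 i j fun h' => hST i j h' h
  obtain ⟨w, hw1, hw2⟩ := exists_patch x T z.1.Adj hT (fun _ _ _ h => h.symm) hirr fun i => by
    rw [← cnt_eq_of_ag h2 i, cnt_congr hxy i]
  refine ⟨w, (ag_equiv T).symm hw1, fun i j hs => ?_⟩
  by_cases ht : T i j
  · exact hw2 i j ht
  · exact ((hw1 i j ht).trans (h1 i j hs)).trans (h2 i j ht)

theorem av_ag_comm {S T : Fin n → Fin n → Prop} (hS : ∀ i j, S i j → S j i) (hSi : ∀ i, ¬S i i)
    (hT : ∀ i j, T i j → T j i) (hTi : ∀ i, ¬T i i) (hST : ∀ i j, S i j → ¬T i j)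
    (f : Graphs d → ℝ) : av (ag S) (av (ag T) f) = av (ag T) (av (ag S) f) :=
  av_comm (ag_equiv S) (ag_equiv T) (fun _ _ => ag_eq_of_disjoint hST)
    (fun x y z => swap_disjoint hT hTi hST x y z)
    (fun x y z => swap_disjoint hS hSi (fun i j h h' => hST i j h' h) x y z) f

/-- The slots of a pair. -/
def dom (a b : Fin n) (i j : Fin n) : Prop := Across a b i j ∨ Across a b j i

/-- The four slots between two pairs. -/
def sig (a b c e : Fin n) (i j : Fin n) : Prop :=
  ((i = a ∨ i = b) ∧ (j = c ∨ j = e)) ∨ ((j = a ∨ j = b) ∧ (i = c ∨ i = e))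

/-- The slots of a pair other than the four shared ones. -/
def fine (a b c e : Fin n) (i j : Fin n) : Prop := dom a b i j ∧ ¬sig a b c e i j

theorem sameRest_eq (a b : Fin n) : SameRest (d := d) a b = ag (dom a b) := by
  funext G H
  refine propext (forall₂_congr fun i j => ?_)
  simp [dom, not_or]

theorem pairAvg_eq (a b : Fin n) (f : Graphs d → ℝ) : pairAvg a b f = av (ag (dom a b)) f := by
  funext G
  rw [← sameRest_eq]
  rfl

theorem dom_symm {a b i j : Fin n} (h : dom a b i j) : dom a b j i := Or.symm h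

theorem dom_irr (a b i : Fin n) : ¬dom a b i i := by
  rintro (⟨h, h'⟩ | ⟨h, h'⟩) <;> exact h' h

theorem sig_symm {a b c e i j : Fin n} (h : sig a b c e i j) : sig a b c e j i := Or.symm h

theorem sig_swap (a b c e : Fin n) : sig c e a b = sig a b c e := by
  funext i j
  refine propext ?_
  unfold sig
  tauto

theorem fine_symm {a b c e i j : Fin n} (h : fine a b c e i j) : fine a b c e j i :=
  ⟨dom_symm h.1, fun h' => h.2 (sig_symm h')⟩

theorem fine_irr (a b c e i : Fin n) : ¬fine a b c e i i := fun h => dom_irr a b i h.1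

/-- Four distinct vertices. -/
structure Four (a b c e : Fin n) : Prop where
  ab : a ≠ b
  ac : a ≠ c
  ae : a ≠ e
  bc : b ≠ c
  be : b ≠ e
  ce : c ≠ e

theorem Four.swap {a b c e : Fin n} (h : Four a b c e) : Four c e a b :=
  ⟨h.ce, h.ac.symm, h.bc.symm, h.ae.symm, h.be.symm, h.ab⟩

variable {a b c e : Fin n}

theorem sig_irr (h : Four a b c e) (i : Fin n) : ¬sig a b c e i i := by
  obtain ⟨_, h1, h2, h3, h4, _⟩ := h
  rintro (⟨rfl | rfl, rfl | rfl⟩ | ⟨rfl | rfl, rfl | rfl⟩) <;> contradiction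

theorem dom_of_sig (h : Four a b c e) {i j : Fin n} (hs : sig a b c e i j) : dom a b i j := by
  obtain ⟨_, h1, h2, h3, h4, _⟩ := h
  rcases hs with ⟨hi, hj⟩ | ⟨hj, hi⟩
  · refine Or.inl ⟨hi, ?_⟩
    rintro (rfl | rfl) <;> rcases hj with rfl | rfl <;> contradiction
  · refine Or.inr ⟨hj, ?_⟩
    rintro (rfl | rfl) <;> rcases hi with rfl | rfl <;> contradiction

theorem not_dom_of_fine (hv : Four a b c e) {i j : Fin n} (h : fine a b c e i j) :
    ¬dom c e i j := by
  obtain ⟨hd, hs⟩ := h
  have hx : ∀ x, (x = a ∨ x = b) → ¬(x = c ∨ x = e) := by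
    obtain ⟨_, h1, h2, h3, h4, _⟩ := hv
    rintro x (rfl | rfl) (rfl | rfl) <;> contradiction
  have := hx i
  have := hx j
  intro h'
  unfold dom Across at hd h'
  unfold sig at hs
  tauto

/-- The indicator of an edge. -/
def bn (G : Graphs d) (i j : Fin n) : ℕ := if G.1.Adj i j then 1 else 0

theorem bn_le (G : Graphs d) (i j : Fin n) : bn G i j ≤ 1 := by unfold bn; split_ifs <;> omega

theorem bn_symm (G : Graphs d) (i j : Fin n) : bn G i j = bn G j i := by
  unfold bn
  rw [G.1.adj_comm]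

theorem bn_one {G : Graphs d} {i j : Fin n} : bn G i j = 1 ↔ G.1.Adj i j := by
  unfold bn; split_ifs with h <;> simp [h]

theorem bn_zero {G : Graphs d} {i j : Fin n} : bn G i j = 0 ↔ ¬G.1.Adj i j := by
  unfold bn; split_ifs with h <;> simp [h]

theorem bn_eq {G H : Graphs d} {i j : Fin n} :
    bn G i j = bn H i j ↔ (G.1.Adj i j ↔ H.1.Adj i j) := by
  unfold bn; split_ifs with h1 h2 <;> simp_all

theorem cnt_sig_row (h : Four a b c e) (φ : Fin n → Fin n → Prop) {i : Fin n}
    (hi : i = a ∨ i = b) :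
    cnt (sig a b c e) φ i = (if φ i c then 1 else 0) + (if φ i e then 1 else 0) := by
  have e1 : (univ.filter fun j => sig a b c e i j ∧ φ i j) =
      ({c, e} : Finset (Fin n)).filter (φ i) := by
    ext j
    simp only [Finset.mem_filter, Finset.mem_univ, true_and, Finset.mem_insert,
      Finset.mem_singleton]
    refine ⟨fun ⟨hs, hp⟩ => ⟨?_, hp⟩, fun ⟨hj, hp⟩ => ⟨Or.inl ⟨hi, hj⟩, hp⟩⟩
    rcases hs with ⟨_, hj⟩ | ⟨_, hi'⟩
    · exact hj
    · obtain ⟨_, h1, h2, h3, h4, _⟩ := h
      rcases hi with rfl | rfl <;> rcases hi' with rfl | rfl <;> contradiction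
  rw [cnt, e1, Finset.filter_insert, Finset.filter_singleton]
  split_ifs <;> simp [h.ce]

theorem cnt_sig_col (h : Four a b c e) (φ : Fin n → Fin n → Prop) {i : Fin n}
    (hi : i = c ∨ i = e) :
    cnt (sig a b c e) φ i = (if φ i a then 1 else 0) + (if φ i b then 1 else 0) := by
  rw [← sig_swap]
  exact cnt_sig_row h.swap φ hi

theorem cnt_sig_zero (φ : Fin n → Fin n → Prop) {i : Fin n} (ha : i ≠ a) (hb : i ≠ b)
    (hc : i ≠ c) (he : i ≠ e) : cnt (sig a b c e) φ i = 0 := by
  refine Finset.card_eq_zero.2 (Finset.filter_eq_empty_iff.2 fun j _ hj => ?_)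
  rcases hj.1 with ⟨h | h, _⟩ | ⟨_, h | h⟩ <;> contradiction

theorem cnt_zero_of {S : Fin n → Fin n → Prop} {i : Fin n} (h : ∀ j, ¬S i j)
    (φ : Fin n → Fin n → Prop) : cnt S φ i = 0 :=
  Finset.card_eq_zero.2 (Finset.filter_eq_empty_iff.2 fun j _ hj => h j hj.1)

/-- A move of the first pair keeps the column sums of the shared slots. -/
theorem cols_eq (h : Four a b c e) {G H : Graphs d} (hGH : ag (dom a b) G H) :
    bn G a c + bn G b c = bn H a c + bn H b c ∧ bn G a e + bn G b e = bn H a e + bn H b e := by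
  suffices key : ∀ i, i = c ∨ i = e → bn G a i + bn G b i = bn H a i + bn H b i from
    ⟨key c (Or.inl rfl), key e (Or.inr rfl)⟩
  intro i hi
  have hs : ∀ j, dom a b i j → sig a b c e i j := by
    intro j hj
    rcases hj with ⟨hia, _⟩ | ⟨hj, _⟩
    · obtain ⟨_, h1, h2, h3, h4, _⟩ := h
      rcases hia with rfl | rfl <;> rcases hi with rfl | rfl <;> contradiction
    · exact Or.inr ⟨hj, hi⟩
  have key : ∀ K : Graphs d, cnt (dom a b) K.1.Adj i = bn K a i + bn K b i := fun K => by
    have e1 : cnt (dom a b) K.1.Adj i = cnt (sig a b c e) K.1.Adj i :=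
      congrArg Finset.card (Finset.filter_congr fun j _ =>
        ⟨fun ⟨x, y⟩ => ⟨hs j x, y⟩, fun ⟨x, y⟩ => ⟨dom_of_sig h x, y⟩⟩)
    rw [e1, cnt_sig_col h _ hi, bn_symm K a i, bn_symm K b i]
    rfl
  rw [← key G, ← key H]
  exact cnt_eq_of_ag hGH i

theorem rows_eq (h : Four a b c e) {G H : Graphs d} (hGH : ag (dom c e) G H) :
    bn G a c + bn G a e = bn H a c + bn H a e ∧ bn G b c + bn G b e = bn H b c + bn H b e := by
  have := cols_eq h.swap hGH
  simpa only [bn_symm _ c a, bn_symm _ e a, bn_symm _ c b, bn_symm _ e b] using this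

/-- Agreement on the four shared slots. -/
def SigEq (a b c e : Fin n) (G H : Graphs d) : Prop :=
  bn G a c = bn H a c ∧ bn G a e = bn H a e ∧ bn G b c = bn H b c ∧ bn G b e = bn H b e

theorem adj_iff_of_sigEq {G H : Graphs d} (h : SigEq a b c e G H) {i j : Fin n}
    (hs : sig a b c e i j) : G.1.Adj i j ↔ H.1.Adj i j := by
  obtain ⟨h1, h2, h3, h4⟩ := h
  rw [bn_eq] at h1 h2 h3 h4
  rcases hs with ⟨rfl | rfl, rfl | rfl⟩ | ⟨rfl | rfl, rfl | rfl⟩
  · exact h1
  · exact h2
  · exact h3
  · exact h4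
  · rw [G.1.adj_comm, H.1.adj_comm]; exact h1
  · rw [G.1.adj_comm, H.1.adj_comm]; exact h2
  · rw [G.1.adj_comm, H.1.adj_comm]; exact h3
  · rw [G.1.adj_comm, H.1.adj_comm]; exact h4

theorem ag_fine {G H : Graphs d} (hGH : ag (dom a b) G H) (hs : SigEq a b c e G H) :
    ag (fine a b c e) G H := fun i j hf => by
  by_cases hsig : sig a b c e i j
  · exact adj_iff_of_sigEq hs hsig
  · exact hGH i j fun hd => hf ⟨hd, hsig⟩

theorem sigEq_of_fine {G H : Graphs d} (hGH : ag (fine a b c e) G H) : SigEq a b c e G H :=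
  ⟨bn_eq.2 (hGH _ _ fun hf => hf.2 (Or.inl ⟨Or.inl rfl, Or.inl rfl⟩)),
    bn_eq.2 (hGH _ _ fun hf => hf.2 (Or.inl ⟨Or.inl rfl, Or.inr rfl⟩)),
    bn_eq.2 (hGH _ _ fun hf => hf.2 (Or.inl ⟨Or.inr rfl, Or.inl rfl⟩)),
    bn_eq.2 (hGH _ _ fun hf => hf.2 (Or.inl ⟨Or.inr rfl, Or.inr rfl⟩))⟩

/-- The shared slots carry two edges. -/
def Two (a b c e : Fin n) (G : Graphs d) : Prop :=
  bn G a c + bn G a e + bn G b c + bn G b e = 2

theorem two_iff_of_dom_left (h : Four a b c e) {G H : Graphs d} (hGH : ag (dom a b) G H) :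
    Two a b c e G ↔ Two a b c e H := by
  have := cols_eq h hGH
  unfold Two
  omega

theorem two_iff_of_dom_right (h : Four a b c e) {G H : Graphs d} (hGH : ag (dom c e) G H) :
    Two a b c e G ↔ Two a b c e H := by
  have := rows_eq h hGH
  unfold Two
  omega

theorem middle_iff {G : Graphs d} : Middle a b c e G.1 ↔
    bn G a c + bn G a e = 1 ∧ bn G b c + bn G b e = 1 ∧ bn G a c + bn G b c = 1 ∧
      bn G a e + bn G b e = 1 := by
  unfold Middle
  by_cases h1 : G.1.Adj a c <;> by_cases h2 : G.1.Adj b e <;> by_cases h3 : G.1.Adj a e <;>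
    by_cases h4 : G.1.Adj b c <;> simp [bn, h1, h2, h3, h4]

theorem middle_swap {G : Graphs d} : Middle c e a b G.1 ↔ Middle a b c e G.1 := by
  rw [middle_iff, middle_iff, bn_symm G c a, bn_symm G c b, bn_symm G e a, bn_symm G e b]
  omega

theorem middle_congr {G H : Graphs d} (hs : SigEq a b c e G H) :
    Middle a b c e G.1 ↔ Middle a b c e H.1 := by
  obtain ⟨h1, h2, h3, h4⟩ := hs
  rw [middle_iff, middle_iff, h1, h2, h3, h4]

/-- Off the two middle matchings, two shared edges are frozen for one of the two pairs. -/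
theorem frozen (h : Four a b c e) {G : Graphs d} (h2 : Two a b c e G)
    (hm : ¬Middle a b c e G.1) :
    (∀ H, ag (dom a b) G H → ag (fine a b c e) G H) ∨
      ∀ H, ag (dom c e) G H → ag (fine c e a b) G H := by
  rw [middle_iff] at hm
  unfold Two at h2
  have := bn_le G a c
  have := bn_le G a e
  have := bn_le G b c
  have := bn_le G b e
  by_cases hc : bn G a c + bn G b c = 1
  · right
    intro H hH
    refine ag_fine hH ?_
    have := rows_eq h hH
    have := bn_le H a c
    have := bn_le H a e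
    have := bn_le H b c
    have := bn_le H b e
    have h' : SigEq a b c e G H := by
      refine ⟨?_, ?_, ?_, ?_⟩ <;> omega
    obtain ⟨g1, g2, g3, g4⟩ := h'
    exact ⟨by rwa [bn_symm G, bn_symm H], by rwa [bn_symm G, bn_symm H],
      by rwa [bn_symm G, bn_symm H], by rwa [bn_symm G, bn_symm H]⟩
  · left
    intro H hH
    refine ag_fine hH ?_
    have := cols_eq h hH
    have := bn_le H a c
    have := bn_le H a e
    have := bn_le H b c
    have := bn_le H b e
    refine ⟨?_, ?_, ?_, ?_⟩ <;> omega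

/-- Off two shared edges the classes of the two pairs meet only in the point. -/
theorem eq_of_not_two (h : Four a b c e) {G H : Graphs d} (h2 : ¬Two a b c e G)
    (hp : ag (dom a b) G H) (hq : ag (dom c e) G H) : G = H := by
  have := cols_eq h hp
  have := rows_eq h hq
  have := bn_le G a c
  have := bn_le G a e
  have := bn_le G b c
  have := bn_le G b e
  have := bn_le H a c
  have := bn_le H a e
  have := bn_le H b c
  have := bn_le H b e
  unfold Two at h2
  have hs : SigEq a b c e G H := by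
    refine ⟨?_, ?_, ?_, ?_⟩ <;> omega
  exact ag_eq_of_disjoint (fun i j hf => not_dom_of_fine h hf) (ag_fine hp hs) hq

theorem exists_corners {ra rb kc ke : ℕ} (hra : ra ≤ 2) (hrb : rb ≤ 2) (hkc : kc ≤ 2)
    (hke : ke ≤ 2) (hsum : ra + rb = kc + ke) (h2 : ra + rb ≠ 2) : ∃ w1 w2 w3 w4 : ℕ, w1 ≤ 1 ∧ w2 ≤ 1 ∧ w3 ≤ 1 ∧
      w4 ≤ 1 ∧ w1 + w2 = ra ∧ w3 + w4 = rb ∧ w1 + w3 = kc ∧ w2 + w4 = ke := by
  refine ⟨max (max (ra - 1) (kc - 1)) (kc - rb), ra - max (max (ra - 1) (kc - 1)) (kc - rb),
    kc - max (max (ra - 1) (kc - 1)) (kc - rb),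
    rb - (kc - max (max (ra - 1) (kc - 1)) (kc - rb)), ?_, ?_, ?_, ?_, ?_, ?_, ?_, ?_⟩ <;> omega

/-- A move of the first pair and a move of the second can be made in either order. -/
theorem swap_slots (h : Four a b c e) (x y z : Graphs d) (hx : ¬Two a b c e x)
    (h1 : ag (dom a b) x y)
    (h2 : ag (dom c e) y z) : ∃ w, ag (dom c e) x w ∧ ag (dom a b) w z := by
  obtain ⟨w1, w2, w3, w4, b1, b2, b3, b4, e1, e2, e3, e4⟩ :=
    exists_corners (ra := bn x a c + bn x a e) (rb := bn x b c + bn x b e)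
      (kc := bn z a c + bn z b c) (ke := bn z a e + bn z b e)
      (by have := bn_le x a c; have := bn_le x a e; omega)
      (by have := bn_le x b c; have := bn_le x b e; omega)
      (by have := bn_le z a c; have := bn_le z b c; omega)
      (by have := bn_le z a e; have := bn_le z b e; omega)
      (by have := cols_eq h h1; have := rows_eq h h2; omega)
      (by unfold Two at hx; omega)
  set ψ : Fin n → Fin n → Prop := fun i j =>
    (s(i, j) = s(a, c) ∧ w1 = 1) ∨ (s(i, j) = s(a, e) ∧ w2 = 1) ∨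
      (s(i, j) = s(b, c) ∧ w3 = 1) ∨ (s(i, j) = s(b, e) ∧ w4 = 1) with hψ
  obtain ⟨nab, nac, nae, nbc, nbe, nce⟩ := h
  have hite : ∀ {P : Prop} {_ : Decidable P} {w : ℕ}, w ≤ 1 → (P ↔ w = 1) →
      (if P then 1 else 0) = w := fun {P} {_} {w} hw hP => by
    split_ifs with hp
    · exact (hP.1 hp).symm
    · have : w ≠ 1 := fun h' => hp (hP.2 h')
      omega
  have hψa : (ψ a c ↔ w1 = 1) ∧ (ψ a e ↔ w2 = 1) ∧ (ψ b c ↔ w3 = 1) ∧ (ψ b e ↔ w4 = 1) := by
    refine ⟨?_, ?_, ?_, ?_⟩ <;>
      simp [hψ, nab, nac, nae, nbc, nbe, nce, nab.symm, nac.symm, nae.symm, nbc.symm, nbe.symm,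
        nce.symm]
  have hψs : ∀ i j, ψ i j → ψ j i := fun i j hp => by
    simpa only [hψ, Sym2.eq_swap] using hp
  have hψs' : ∀ i j, ψ i j ↔ ψ j i := fun i j => ⟨hψs i j, hψs j i⟩
  have h : Four a b c e := ⟨nab, nac, nae, nbc, nbe, nce⟩
  set S : Fin n → Fin n → Prop := fun i j => fine c e a b i j ∨ sig a b c e i j with hSdef
  set φ : Fin n → Fin n → Prop := fun i j => if sig a b c e i j then ψ i j else z.1.Adj i j
    with hφdef
  have hdisj : ∀ i j, fine c e a b i j → ¬sig a b c e i j := fun i j hf hs => by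
    rw [← sig_swap] at hs
    exact hf.2 hs
  have hq : ∀ i j, dom c e i j → S i j := fun i j hd => by
    by_cases hs : sig a b c e i j
    · exact Or.inr hs
    · exact Or.inl ⟨hd, by rwa [sig_swap]⟩
  have hSd : ∀ i j, S i j → dom c e i j := by
    rintro i j (hf | hs)
    · exact hf.1
    · rw [← sig_swap] at hs; exact dom_of_sig h.swap hs
  have hnotdom : ∀ i j, fine c e a b i j → ¬dom a b i j := fun i j hf => not_dom_of_fine h.swap hf
  have hcnt : ∀ i, cnt S φ i = cnt S x.1.Adj i := by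
    intro i
    rw [hSdef, cnt_or hdisj, cnt_or hdisj]
    have f1 : cnt (fine c e a b) φ i = cnt (fine c e a b) z.1.Adj i :=
      cnt_congr (fun i j hf => by simp [hφdef, hdisj i j hf]) i
    have f2 : cnt (fine c e a b) y.1.Adj i = cnt (fine c e a b) x.1.Adj i :=
      cnt_congr (fun i j hf => (h1 i j (hnotdom i j hf)).symm) i
    have f3 : cnt (sig a b c e) φ i = cnt (sig a b c e) ψ i :=
      cnt_congr (fun i j hs => by simp [hφdef, hs]) i
    have f4 : cnt (fine c e a b) y.1.Adj i + cnt (sig a b c e) y.1.Adj i =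
        cnt (fine c e a b) z.1.Adj i + cnt (sig a b c e) z.1.Adj i := by
      rw [← cnt_or hdisj, ← cnt_or hdisj]
      exact cnt_eq_of_ag (ag_mono (T := fun i j => fine c e a b i j ∨ sig a b c e i j) hq h2) i
    obtain ⟨p1, p2, p3, p4⟩ := hψa
    by_cases hab : i = a ∨ i = b
    · have hfz : ∀ j, ¬fine c e a b i j := by
        rintro j ⟨⟨hi, _⟩ | ⟨hj, _⟩, hns⟩
        · rcases hab with rfl | rfl <;> rcases hi with h' | h' <;> contradiction
        · exact hns (Or.inr ⟨hj, hab⟩)
      rw [cnt_zero_of hfz, cnt_zero_of hfz, f3, cnt_sig_row h _ hab, cnt_sig_row h _ hab]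
      rcases hab with rfl | rfl
      · change 0 + (_ + _) = 0 + (bn x i c + bn x i e)
        rw [hite b1 p1, hite b2 p2]
        omega
      · change 0 + (_ + _) = 0 + (bn x i c + bn x i e)
        rw [hite b3 p3, hite b4 p4]
        omega
    · by_cases hce : i = c ∨ i = e
      · have := cols_eq h h1
        rw [f1, f3, cnt_sig_col h _ hce, cnt_sig_col h _ hce]
        rw [cnt_sig_col h _ hce, cnt_sig_col h _ hce] at f4
        rcases hce with rfl | rfl
        · change _ + (bn y i a + bn y i b) = _ + (bn z i a + bn z i b) at f4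
          change _ = _ + (bn x i a + bn x i b)
          rw [hite b1 ((hψs' i a).trans p1), hite b3 ((hψs' i b).trans p3)]
          rw [bn_symm y i a, bn_symm y i b, bn_symm z i a, bn_symm z i b] at f4
          rw [bn_symm x i a, bn_symm x i b]
          omega
        · change _ + (bn y i a + bn y i b) = _ + (bn z i a + bn z i b) at f4
          change _ = _ + (bn x i a + bn x i b)
          rw [hite b2 ((hψs' i a).trans p2), hite b4 ((hψs' i b).trans p4)]
          rw [bn_symm y i a, bn_symm y i b, bn_symm z i a, bn_symm z i b] at f4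
          rw [bn_symm x i a, bn_symm x i b]
          omega
      · push Not at hab hce
        rw [f1, f3, cnt_sig_zero _ hab.1 hab.2 hce.1 hce.2, cnt_sig_zero _ hab.1 hab.2 hce.1 hce.2]
        rw [cnt_sig_zero _ hab.1 hab.2 hce.1 hce.2, cnt_sig_zero _ hab.1 hab.2 hce.1 hce.2] at f4
        omega
  obtain ⟨w, hw1, hw2⟩ := exists_patch x S φ
    (fun i j hs => hs.imp fine_symm sig_symm)
    (fun i j _ hp => by
      by_cases hs : sig a b c e i j
      · simp only [hφdef, if_pos hs, if_pos (sig_symm hs)] at hp ⊢; exact hψs _ _ hp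
      · simp only [hφdef, if_neg hs, if_neg fun h' => hs (sig_symm h')] at hp ⊢; exact hp.symm)
    (fun i hs => dom_irr c e i (hSd i i hs)) hcnt
  refine ⟨w, ag_mono hSd ((ag_equiv S).symm hw1), fun i j hd => ?_⟩
  by_cases hs : S i j
  · have hns : ¬sig a b c e i j := fun h' => hd (dom_of_sig h h')
    simp only [hw2 i j hs, hφdef, if_neg hns]
  · exact ((hw1 i j hs).trans (h1 i j hd)).trans (h2 i j fun h' => hs (hq i j h'))

/-- Toggle the shared slots of a middle graph. -/
theorem exists_flip (h : Four a b c e) (G : Graphs d) : ∃ H : Graphs d,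
    ∀ i j, H.1.Adj i j ↔
      if Middle a b c e G.1 ∧ sig a b c e i j then ¬G.1.Adj i j else G.1.Adj i j := by
  by_cases hm : Middle a b c e G.1
  · obtain ⟨W, hW1, hW2⟩ := exists_patch G (sig a b c e) (fun i j => ¬G.1.Adj i j)
      (fun _ _ => sig_symm) (fun i j _ hp => by rwa [G.1.adj_comm]) (sig_irr h) fun i => by
        by_cases hab : i = a ∨ i = b
        · rw [cnt_sig_row h _ hab, cnt_sig_row h _ hab]
          unfold Middle at hm
          rcases hab with rfl | rfl <;> rcases hm with ⟨x1, x2, x3, x4⟩ | ⟨x1, x2, x3, x4⟩ <;>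
            simp [x1, x2, x3, x4]
        · by_cases hce : i = c ∨ i = e
          · rw [cnt_sig_col h _ hce, cnt_sig_col h _ hce]
            unfold Middle at hm
            simp only [G.1.adj_comm a, G.1.adj_comm b] at hm
            rcases hce with rfl | rfl <;> rcases hm with ⟨x1, x2, x3, x4⟩ | ⟨x1, x2, x3, x4⟩ <;>
              simp [x1, x2, x3, x4]
          · push Not at hab hce
            rw [cnt_sig_zero _ hab.1 hab.2 hce.1 hce.2, cnt_sig_zero _ hab.1 hab.2 hce.1 hce.2]
    refine ⟨W, fun i j => ?_⟩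
    by_cases hs : sig a b c e i j
    · rw [if_pos ⟨hm, hs⟩]; exact hW2 i j hs
    · rw [if_neg fun h' => hs h'.2]; exact hW1 i j hs
  · exact ⟨G, fun i j => by simp [hm]⟩

end Vale.Agent.P335.Quad
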