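import Vale.Agent.P335.Pins
import Vale.Agent.P335.Slice

/-!
The slice statement of the rapid mixing proof, in the form with middle sets.
-/

noncomputable section

open Finset

namespace Vale.Agent.P335

/-- The slice inequality on the subsets of a whole finite type. -/
theorem sliceThm : SliceThm := by
  classical
  intro α _ _ k u h0
  have key := slice (univ : Finset α) k u h0
  have hterm : ∀ c e : α, c ≠ e →
      (∑ x ∈ ((univ : Finset α).powersetCard k).filter (fun x => ¬(c ∈ x ↔ e ∈ x)), u x) ^ 2 /
          #(((univ : Finset α).powersetCard k).filter fun x => ¬(c ∈ x ↔ e ∈ x))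
        - ∑ x ∈ ((univ : Finset α).powersetCard k).filter (fun x => ¬(c ∈ x ↔ e ∈ x)),
            ((u x - u (x.image (Equiv.swap c e))) / 2) ^ 2 = -slack univ k u c e := by
    intro c e hce
    have hsplit : ((univ : Finset α).powersetCard k).filter (fun x => ¬(c ∈ x ↔ e ∈ x))
        = oppSets univ k c e ∪ oppSets univ k e c := by
      ext x
      simp only [oppSets, mem_filter, mem_union]
      tauto
    have hdis : Disjoint (oppSets univ k c e) (oppSets (univ : Finset α) k e c) := by
      refine Finset.disjoint_left.2 fun x hx hy => ?_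
      simp only [oppSets, mem_filter] at hx hy
      exact hx.2.2 hy.2.1
    have hsw : ∀ p q : α, ∀ x : Finset α, p ∈ x → q ∉ x →
        x.image (Equiv.swap p q) = exch p q x := by
      intro p q x hp hq
      ext y
      simp only [exch, mem_image, mem_insert, mem_erase]
      constructor
      · rintro ⟨z, hz, rfl⟩
        by_cases h1 : z = p
        · left; rw [h1, Equiv.swap_apply_left]
        · right
          have h2 : z ≠ q := fun h => hq (h ▸ hz)
          rw [Equiv.swap_apply_of_ne_of_ne h1 h2]
          exact ⟨h1, hz⟩
      · rintro (rfl | ⟨h1, h2⟩)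
        · exact ⟨p, hp, Equiv.swap_apply_left _ _⟩
        · exact ⟨y, h2, Equiv.swap_apply_of_ne_of_ne h1 fun h => hq (h ▸ h2)⟩
    have hs := fun g => sum_exch (k := k) (mem_univ c) (mem_univ e) g
    have hcard : (oppSets univ k e c).card = (oppSets (univ : Finset α) k c e).card := by
      have h := hs (fun _ => (1 : ℝ))
      simp only [sum_const, nsmul_eq_mul, mul_one] at h
      exact_mod_cast h.symm
    have hsq : ∀ A ∈ oppSets (univ : Finset α) k c e,
        (fun x => ((u x - u (x.image (Equiv.swap c e))) / 2) ^ 2) (exch c e A)
          = ((u A - u (exch c e A)) / 2) ^ 2 := by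
      intro A hA
      obtain ⟨h1, h2⟩ := exch_mem (k := k) (mem_univ e) hA
      simp only [oppSets, mem_filter] at h1
      simp only
      rw [Equiv.swap_comm c e, hsw e c _ h1.2.1 h1.2.2, h2]
      ring
    rw [hsplit, sum_union hdis, sum_union hdis, card_union_of_disjoint hdis, hcard]
    rw [← hs u, ← hs (fun x => ((u x - u (x.image (Equiv.swap c e))) / 2) ^ 2), sum_congr rfl hsq,
      sum_congr rfl (fun A hA => by
        rw [hsw c e A (by simp [oppSets] at hA; exact hA.2.1) (by simp [oppSets] at hA; exact hA.2.2)] :
        ∀ A ∈ oppSets (univ : Finset α) k c e,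
          ((u A - u (A.image (Equiv.swap c e))) / 2) ^ 2 = ((u A - u (exch c e A)) / 2) ^ 2),
      slack, ← sum_add_distrib]
    have h4 : ∑ A ∈ oppSets (univ : Finset α) k c e, ((u A - u (exch c e A)) / 2) ^ 2
        = (∑ A ∈ oppSets (univ : Finset α) k c e, (u A - u (exch c e A)) ^ 2) / 4 := by
      rw [sum_div]
      exact sum_congr rfl fun A _ => by ring
    rw [h4]
    push_cast
    ring
  have hrow : ∀ c : α, ∑ e ∈ univ.filter (fun e => e ≠ c), (-slack univ k u c e)
      = -∑ e, slack univ k u c e := by
    intro c
    rw [← sum_neg_distrib]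
    refine sum_subset (filter_subset _ _) fun e _ he => ?_
    simp only [mem_filter, mem_univ, true_and, not_not] at he
    subst he
    simp [slack, oppSets_self]
  calc _ = ∑ c : α, ∑ e ∈ univ.filter (fun e => e ≠ c), (-slack univ k u c e) := by
        refine sum_congr rfl fun c _ => sum_congr rfl fun e he => ?_
        exact hterm c e (by simp only [mem_filter] at he; exact Ne.symm he.2)
    _ = -∑ c, ∑ e, slack univ k u c e := by simp only [hrow, sum_neg_distrib]
    _ ≤ _ := by linarith

end Vale.Agent.P335
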