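import Mathlib

/-!
From a curvature bound to a spectral gap for a symmetric positive semidefinite operator on
functions on a finite type.
-/

noncomputable section

open Finset

namespace Vale.Agent.P335

variable {α : Type*} [Fintype α]

theorem gap_of_sq (L : (α → ℝ) →ₗ[ℝ] (α → ℝ))
    (hs : ∀ f g, ∑ x, f x * L g x = ∑ x, L f x * g x)
    (hp : ∀ f, 0 ≤ ∑ x, f x * L f x)
    (hk : ∀ f, L f = 0 → ∀ x y, f x = f y) {c : ℝ} (hc : 0 < c)
    (h2 : ∀ f, c * ∑ x, f x * L f x ≤ ∑ x, L f x * L f x) (f : α → ℝ)
    (h1 : L (fun _ => 1) = 0) :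
    c * ∑ x, (f x - (∑ y, f y) / Fintype.card α) ^ 2 ≤ ∑ x, f x * L f x := by
  rcases isEmpty_or_nonempty α with hα | hα
  · simp
  set m := (∑ y, f y) / Fintype.card α with hm
  set T : (α → ℝ) →ₗ[ℝ] (α → ℝ) :=
    L + LinearMap.pi fun _ : α => ∑ y, LinearMap.proj (R := ℝ) (φ := fun _ : α => ℝ) y with hT
  have Tapp : ∀ g x, T g x = L g x + ∑ y, g y := fun g x => by simp [hT]
  have mean0 : ∀ g, ∑ x, L g x = 0 := fun g => by
    have := hs (fun _ => 1) g
    simpa [h1] using this
  have hcard : (Fintype.card α : ℝ) ≠ 0 := by exact_mod_cast Fintype.card_ne_zero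
  have inj : Function.Injective T := by
    refine (injective_iff_map_eq_zero T).2 fun g hg => ?_
    have hz : ∀ x, L g x + ∑ y, g y = 0 := fun x => by rw [← Tapp, hg]; rfl
    have hsum : ∑ y, g y = 0 := by
      have := Finset.sum_eq_zero (s := univ) fun x _ => hz x
      rw [sum_add_distrib, mean0, sum_const, card_univ, nsmul_eq_mul, zero_add] at this
      exact (mul_eq_zero.1 this).resolve_left hcard
    have hLg : L g = 0 := funext fun x => by simpa [hsum] using hz x
    have hconst := hk g hLg
    funext x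
    rw [sum_congr rfl fun y _ => hconst y x, sum_const, card_univ, nsmul_eq_mul] at hsum
    exact (mul_eq_zero.1 hsum).resolve_left hcard
  obtain ⟨g, hg⟩ := LinearMap.injective_iff_surjective.1 inj fun x => f x - m
  have hLg : L g = fun x => f x - m := by
    have hz : ∀ x, L g x + ∑ y, g y = f x - m := fun x => by rw [← Tapp, hg]
    have : ∑ x, (L g x + ∑ y, g y) = ∑ x, (f x - m) := sum_congr rfl fun x _ => hz x
    rw [sum_add_distrib, mean0, sum_const, card_univ, nsmul_eq_mul, zero_add, sum_sub_distrib,
      sum_const, card_univ, nsmul_eq_mul, hm, mul_div_cancel₀ _ hcard, sub_self] at this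
    funext x
    simpa [(mul_eq_zero.1 this).resolve_left hcard] using hz x
  set h := L g with hh
  have hB : ∑ x, f x * L f x = ∑ x, h x * L h x := by
    have e : f = h + m • (fun _ => (1 : ℝ)) := by funext x; simp [hLg]
    have eL : L f = L h := by rw [e, map_add, map_smul, h1, smul_zero, add_zero]
    rw [eL]
    conv_lhs => rw [e]
    simp [add_mul, sum_add_distrib, ← mul_sum, mean0]
  rw [hB, show ∑ x, (f x - m) ^ 2 = ∑ x, h x * h x by simp [hLg, sq]]
  set A := ∑ x, h x * h x
  set B := ∑ x, h x * L h x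
  set G := ∑ x, g x * L g x
  have hG : c * G ≤ A := h2 g
  have hB0 : 0 ≤ B := hp h
  have q : ∀ t : ℝ, 0 ≤ B * (t * t) + 2 * A * t + G := fun t => by
    have := hp (g + t • h)
    simp only [map_add, map_smul, Pi.add_apply, Pi.smul_apply, smul_eq_mul, add_mul, mul_add,
      sum_add_distrib] at this
    have e1 : ∑ x, g x * (t * L h x) = t * A := by
      rw [← show ∑ x, g x * L h x = A from hs g h, mul_sum]
      exact sum_congr rfl fun x _ => by ring
    have e2 : ∑ x, t * h x * L g x = t * A := by
      rw [mul_sum]; exact sum_congr rfl fun x _ => by rw [← hh]; ring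
    have e3 : ∑ x, t * h x * (t * L h x) = B * (t * t) := by
      rw [sum_mul]; exact sum_congr rfl fun x _ => by ring
    rw [e1, e2, e3] at this
    linarith
  have := discrim_le_zero q
  simp only [discrim] at this
  rcases (sum_nonneg fun x _ => mul_self_nonneg (h x) : 0 ≤ A).eq_or_lt with hA | hA
  · change c * A ≤ B; rw [show A = 0 from hA.symm, mul_zero]; exact hB0
  · refine le_of_mul_le_mul_right ?_ hA
    nlinarith [mul_le_mul_of_nonneg_left hG hB0]

end Vale.Agent.P335
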