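import Vale.Agent.P335.Defs

/-!
The switch chain and the statement that it mixes rapidly.
-/

noncomputable section

open Finset
open scoped Classical

namespace Vale.Agent.P335

variable {n : ℕ} {d : Fin n → ℕ}

/-- The probability of one given switch: one half, times one of n choose 4 vertex sets, times one
of six ordered pairs of distinct matchings. -/
def moveProb (n : ℕ) : ℝ := 1 / (2 * (n.choose 4 : ℝ) * 6)

/-- The transition matrix of the switch chain. -/
def switchP (d : Fin n → ℕ) : Matrix (Graphs d) (Graphs d) ℝ :=
  fun G H => if G = H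
    then 1 - ∑ K ∈ univ.filter (fun K => K ≠ G ∧ IsSwitch G K), moveProb n
    else if IsSwitch G H then moveProb n else 0

/-- Total variation distance at time t from the start G to the uniform law. -/
def tvAt (d : Fin n → ℕ) (t : ℕ) (G : Graphs d) : ℝ :=
  (1 / 2) * ∑ H : Graphs d, |(switchP d ^ t) G H - (Fintype.card (Graphs d) : ℝ)⁻¹|

/-- The switch chain mixes in polynomial time for every graphical degree vector. -/
def RapidMixing : Prop :=
  ∃ C k : ℕ, ∀ n : ℕ, 4 ≤ n → ∀ d : Fin n → ℕ, ∀ t : ℕ, C * n ^ k ≤ t →
    ∀ G : Graphs d, tvAt d t G ≤ 1 / 4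

end Vale.Agent.P335
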