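import Mathlib

/-!
Comparison of averages over the subsets of two sizes of a finite set with two more points.
-/

noncomputable section

open Finset

namespace Vale.Agent.P335.Triple

variable {ι : Type*} [DecidableEq ι]

theorem double_count (P : Finset ι) (s : ℕ) (φ : Finset ι → ℝ) :
    ((s : ℝ) + 1) * ∑ R ∈ P.powersetCard (s + 1), φ R =
      ∑ T ∈ P.powersetCard s, ∑ i ∈ P \ T, φ (insert i T) := by
  have h : ((s : ℝ) + 1) * ∑ R ∈ P.powersetCard (s + 1), φ R =
      ∑ R ∈ P.powersetCard (s + 1), ∑ _i ∈ R, φ R := by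
    rw [mul_sum]
    refine sum_congr rfl fun R hR => ?_
    rw [sum_const, nsmul_eq_mul, (mem_powersetCard.1 hR).2]
    push_cast; ring
  rw [h, sum_sigma', sum_sigma']
  refine sum_bij' (fun p _ => ⟨p.1.erase p.2, p.2⟩) (fun p _ => ⟨insert p.2 p.1, p.2⟩)
    ?_ ?_ ?_ ?_ ?_
  · rintro ⟨R, i⟩ hp
    simp only [mem_sigma, mem_powersetCard] at hp ⊢
    refine ⟨⟨(erase_subset _ _).trans hp.1.1, ?_⟩, mem_sdiff.2 ⟨hp.1.1 hp.2, notMem_erase _ _⟩⟩
    rw [card_erase_of_mem hp.2, hp.1.2]; omega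
  · rintro ⟨T, i⟩ hp
    simp only [mem_sigma, mem_powersetCard, mem_sdiff] at hp ⊢
    exact ⟨⟨insert_subset hp.2.1 hp.1.1, by rw [card_insert_of_notMem hp.2.2, hp.1.2]⟩,
      mem_insert_self _ _⟩
  · rintro ⟨R, i⟩ hp
    simp only [mem_sigma] at hp
    simp [insert_erase hp.2]
  · rintro ⟨T, i⟩ hp
    simp only [mem_sigma, mem_sdiff] at hp
    simp [erase_insert hp.2.2]
  · rintro ⟨R, i⟩ hp
    simp only [mem_sigma] at hp
    simp [insert_erase hp.2]

/-- Uniform subsets of two consecutive sizes can be coupled by inclusion. -/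
theorem adjacent_sizes (P : Finset ι) (s : ℕ) (φ ψ : Finset ι → ℝ) (L : ℝ)
    (h : ∀ T ∈ P.powersetCard s, ∀ i ∈ P \ T, |φ (insert i T) - ψ T| ≤ L) :
    |((P.powersetCard s).card : ℝ) * (∑ R ∈ P.powersetCard (s + 1), φ R) -
        ((P.powersetCard (s + 1)).card : ℝ) * ∑ T ∈ P.powersetCard s, ψ T| ≤
      ((P.powersetCard s).card : ℝ) * (P.powersetCard (s + 1)).card * L := by
  set N : ℝ := ((P.powersetCard s).card : ℝ) with hN
  set M : ℝ := ((P.powersetCard (s + 1)).card : ℝ) with hM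
  set q : ℝ := ((P.card - s : ℕ) : ℝ) with hq
  have hc : ∀ T ∈ P.powersetCard s, ((P \ T).card : ℝ) = q := fun T hT => by
    obtain ⟨h1, h2⟩ := mem_powersetCard.1 hT
    rw [hq, card_sdiff_of_subset h1, h2]
  have hid : ((s : ℝ) + 1) * M = N * q := by
    have e : (∑ T ∈ P.powersetCard s, ∑ i ∈ P \ T, (1 : ℝ)) = N * q := by
      simp only [sum_const, nsmul_eq_mul, mul_one]
      rw [sum_congr rfl hc, sum_const, nsmul_eq_mul]
    have := double_count P s (fun _ => (1 : ℝ))
    rw [e] at this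
    simpa [hM] using this
  have hs : (0 : ℝ) < (s : ℝ) + 1 := by positivity
  have key : |((s : ℝ) + 1) * (∑ R ∈ P.powersetCard (s + 1), φ R) -
      q * ∑ T ∈ P.powersetCard s, ψ T| ≤ N * q * L := by
    rw [double_count, mul_sum, ← sum_sub_distrib]
    have e : ∀ T ∈ P.powersetCard s, (∑ i ∈ P \ T, φ (insert i T)) - q * ψ T =
        ∑ i ∈ P \ T, (φ (insert i T) - ψ T) := fun T hT => by
      rw [sum_sub_distrib, sum_const, nsmul_eq_mul, hc T hT]
    rw [sum_congr rfl e]
    refine (abs_sum_le_sum_abs _ _).trans ?_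
    refine (sum_le_sum fun T hT => (abs_sum_le_sum_abs _ _).trans (sum_le_sum (h T hT))).trans ?_
    simp only [sum_const, nsmul_eq_mul]
    rw [← sum_mul, sum_congr rfl hc, sum_const, nsmul_eq_mul]
  refine le_of_mul_le_mul_left ?_ hs
  rw [← abs_of_pos hs, ← abs_mul, abs_of_pos hs]
  have e2 : ((s : ℝ) + 1) * (N * (∑ R ∈ P.powersetCard (s + 1), φ R) -
      M * ∑ T ∈ P.powersetCard s, ψ T) = N * (((s : ℝ) + 1) * (∑ R ∈ P.powersetCard (s + 1), φ R)
      - q * ∑ T ∈ P.powersetCard s, ψ T) := by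
    linear_combination (-(∑ T ∈ P.powersetCard s, ψ T)) * hid
  rw [e2, abs_mul, abs_of_nonneg (show 0 ≤ N from Nat.cast_nonneg _)]
  calc N * _ ≤ N * (N * q * L) := mul_le_mul_of_nonneg_left key (Nat.cast_nonneg _)
    _ = _ := by linear_combination (-(N * L)) * hid

theorem sum_powersetCard_succ_insert {x : ι} {P : Finset ι} (hx : x ∉ P) (s : ℕ)
    (φ : Finset ι → ℝ) :
    ∑ R ∈ (insert x P).powersetCard (s + 1), φ R =
      (∑ R ∈ P.powersetCard (s + 1), φ R) + ∑ T ∈ P.powersetCard s, φ (insert x T) := by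
  rw [powersetCard_succ_insert hx, sum_union, sum_image]
  · intro A hA B hB e
    have ha : x ∉ A := fun h => hx ((mem_powersetCard.1 hA).1 h)
    have hb : x ∉ B := fun h => hx ((mem_powersetCard.1 hB).1 h)
    have := congrArg (fun S => S.erase x) e
    simpa [erase_insert ha, erase_insert hb] using this
  · rw [disjoint_left]
    intro R hR hR'
    obtain ⟨T, -, rfl⟩ := mem_image.1 hR'
    exact hx ((mem_powersetCard.1 hR).1 (mem_insert_self _ _))

/-- The uniform `(s+1)`-subset of `P + j + k` against the uniform `s`-subset of `P`. -/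
theorem two_points (P : Finset ι) (j k : ι) (hj : j ∉ P) (hk : k ∉ P) (hjk : j ≠ k) (s : ℕ)
    (hs : s ≤ P.card) (φ ψ : Finset ι → ℝ) (L : ℝ)
    (h1 : ∀ T ∈ P.powersetCard s, ∀ i ∈ insert j (insert k P), i ∉ T →
      |φ (insert i T) - ψ T| ≤ L)
    (h2 : ∀ U, U ⊆ P → U.card + 1 = s → ∀ i ∈ P \ U,
      |φ (insert j (insert k U)) - ψ (insert i U)| ≤ L) :
    |(∑ R ∈ (insert j (insert k P)).powersetCard (s + 1), φ R) /
        ((insert j (insert k P)).powersetCard (s + 1)).card -
      (∑ T ∈ P.powersetCard s, ψ T) / (P.powersetCard s).card| ≤ L := by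
  have hj' : j ∉ insert k P := by simp [hjk, hj]
  set Y := ∑ T ∈ P.powersetCard s, ψ T with hY
  set N : ℝ := ((P.powersetCard s).card : ℝ) with hN
  have hN0 : 0 < N := by
    rw [hN, card_powersetCard]; exact_mod_cast Nat.choose_pos hs
  have p1 : |N * (∑ R ∈ P.powersetCard (s + 1), φ R) - ((P.powersetCard (s + 1)).card : ℝ) * Y| ≤
      N * (P.powersetCard (s + 1)).card * L :=
    adjacent_sizes P s φ ψ L fun T hT i hi => h1 T hT i
      (mem_insert_of_mem (mem_insert_of_mem (mem_sdiff.1 hi).1)) (mem_sdiff.1 hi).2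
  have p23 : ∀ x ∈ insert j (insert k P), x ∉ P →
      |N * (∑ T ∈ P.powersetCard s, φ (insert x T)) - N * Y| ≤ N * N * L := by
    intro x hx hxP
    rw [← mul_sub, hY, ← sum_sub_distrib, abs_mul, abs_of_pos hN0, mul_assoc]
    refine mul_le_mul_of_nonneg_left ?_ hN0.le
    refine (abs_sum_le_sum_abs _ _).trans ((sum_le_sum fun T hT => h1 T hT x hx
      fun hh => hxP ((mem_powersetCard.1 hT).1 hh)).trans ?_)
    rw [sum_const, nsmul_eq_mul]
  have p2 := p23 j (mem_insert_self _ _) hj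
  have p3 := p23 k (mem_insert_of_mem (mem_insert_self _ _)) hk
  rcases s with _ | u
  · have e : ∀ χ : Finset ι → ℝ, ∑ R ∈ (insert j (insert k P)).powersetCard (0 + 1), χ R =
        (∑ R ∈ P.powersetCard (0 + 1), χ R) + ∑ T ∈ P.powersetCard 0, χ (insert k T) +
          ∑ T ∈ P.powersetCard 0, χ (insert j T) := fun χ => by
      rw [sum_powersetCard_succ_insert hj', sum_powersetCard_succ_insert hk]
      simp
    have hM := e (fun _ => (1 : ℝ))
    simp only [sum_const, nsmul_eq_mul, mul_one, ← hN] at hM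
    rw [e, hM]
    have hM0 : (0 : ℝ) < (P.powersetCard (0 + 1)).card + N + N := by positivity
    rw [div_sub_div _ _ hM0.ne' hN0.ne', abs_div, abs_of_pos (mul_pos hM0 hN0),
      div_le_iff₀ (mul_pos hM0 hN0)]
    refine le_trans (le_of_eq ?_) (((abs_add_le _ _).trans (add_le_add ((abs_add_le _ _).trans
      (add_le_add p1 p3)) p2)).trans (le_of_eq ?_))
    · congr 1; ring
    · ring
  · have p4 : |((P.powersetCard (u + 1)).card : ℝ) *
          (∑ U ∈ P.powersetCard u, φ (insert j (insert k U))) -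
        ((P.powersetCard u).card : ℝ) * Y| ≤ N * (P.powersetCard u).card * L := by
      have := adjacent_sizes P u ψ (fun U => φ (insert j (insert k U))) L fun U hU i hi => by
        obtain ⟨a, b⟩ := mem_powersetCard.1 hU
        rw [abs_sub_comm]; exact h2 U a (by omega) i hi
      rw [abs_sub_comm]
      exact this.trans (le_of_eq (by rw [hN]; ring))
    have e : ∀ χ : Finset ι → ℝ, ∑ R ∈ (insert j (insert k P)).powersetCard (u + 1 + 1), χ R =
        (∑ R ∈ P.powersetCard (u + 1 + 1), χ R) + (∑ T ∈ P.powersetCard (u + 1), χ (insert k T)) +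
          (∑ T ∈ P.powersetCard (u + 1), χ (insert j T)) +
          ∑ U ∈ P.powersetCard u, χ (insert j (insert k U)) := fun χ => by
      rw [sum_powersetCard_succ_insert hj', sum_powersetCard_succ_insert hk,
        sum_powersetCard_succ_insert hk u]
      ring
    have hM := e (fun _ => (1 : ℝ))
    simp only [sum_const, nsmul_eq_mul, mul_one, ← hN] at hM
    rw [e, hM]
    have hM0 : (0 : ℝ) < (P.powersetCard (u + 1 + 1)).card + N + N + (P.powersetCard u).card := by
      positivity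
    rw [div_sub_div _ _ hM0.ne' hN0.ne', abs_div, abs_of_pos (mul_pos hM0 hN0),
      div_le_iff₀ (mul_pos hM0 hN0)]
    refine le_trans (le_of_eq ?_) (((abs_add_le _ _).trans (add_le_add ((abs_add_le _ _).trans
      (add_le_add ((abs_add_le _ _).trans (add_le_add p1 p3)) p2)) p4)).trans (le_of_eq ?_))
    · congr 1; rw [← hN]; ring
    · ring

end Vale.Agent.P335.Triple
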