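import Vale.Agent.P335.TripleEigen

/-!
The three-row inequality: the mixed products of the three row Laplacians have a nonnegative sum.
-/

noncomputable section

open Finset

namespace Vale.Agent.P335.Triple

set_option linter.unusedSectionVars false

variable {ι : Type*} [Fintype ι] [DecidableEq ι] {r : Fin 3 → ℕ} {c : ι → ℕ}

/-- The row Laplacian. -/
def lap (i : Fin 3) (f : St r c → ℝ) (z : St r c) : ℝ := f z - avg i f (z.1 i)

/-- The matrix of the sum of the three row averages. -/
def avgMat (r : Fin 3 → ℕ) (c : ι → ℕ) : Matrix (St r c) (St r c) ℝ := fun z w =>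
  ∑ i, if w.1 i = z.1 i then ((fib i (z.1 i) : Finset (St r c)).card : ℝ)⁻¹ else 0

theorem avgMat_mulVec (f : St r c → ℝ) (z : St r c) :
    (avgMat r c).mulVec f z = ∑ i, avg i f (z.1 i) := by
  simp only [Matrix.mulVec, dotProduct, avgMat, sum_mul, ite_mul, zero_mul]
  rw [sum_comm]
  refine sum_congr rfl fun i _ => ?_
  rw [avg, sum_div, fib, sum_filter]
  exact sum_congr rfl fun w _ => by split_ifs <;> simp [div_eq_mul_inv, mul_comm]

theorem avgMat_hermitian : (avgMat r c).IsHermitian := by
  refine Matrix.IsHermitian.ext fun z w => ?_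
  simp only [star_trivial, avgMat]
  refine sum_congr rfl fun i _ => ?_
  by_cases h : w.1 i = z.1 i <;> simp [h, eq_comm (a := z.1 i)]

theorem sum_avg_mul (i : Fin 3) (φ : Finset ι → ℝ) (f : St r c → ℝ) :
    ∑ z : St r c, φ (z.1 i) * avg i f (z.1 i) = ∑ z : St r c, φ (z.1 i) * f z := by
  rw [← sum_fiberwise univ (fun z : St r c => z.1 i) (fun z => φ (z.1 i) * avg i f (z.1 i)),
    ← sum_fiberwise univ (fun z : St r c => z.1 i) (fun z => φ (z.1 i) * f z)]
  refine sum_congr rfl fun S _ => ?_
  show ∑ z ∈ fib i S, _ = ∑ z ∈ fib i S, _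
  rw [sum_congr rfl fun z (hz : z ∈ fib i S) =>
      show φ (z.1 i) * avg i f (z.1 i) = φ S * avg i f S by rw [mem_fib.1 hz],
    sum_congr rfl fun z (hz : z ∈ fib i S) =>
      show φ (z.1 i) * f z = φ S * f z by rw [mem_fib.1 hz],
    sum_const, nsmul_eq_mul, ← mul_sum]
  rcases (fib i S : Finset (St r c)).eq_empty_or_nonempty with h | h
  · simp [h]
  · have hn : ((fib i S : Finset (St r c)).card : ℝ) ≠ 0 := by exact_mod_cast (card_pos.2 h).ne'
    rw [avg]; field_simp

theorem sum_mul_lap (i : Fin 3) (f : St r c → ℝ) :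
    ∑ z, f z * lap i f z = ∑ z, lap i f z ^ 2 := by
  have h1 := sum_avg_mul i (fun S => avg i f S) f
  rw [← sub_eq_zero, ← sum_sub_distrib]
  have e : ∀ z, f z * lap i f z - lap i f z ^ 2 =
      avg i f (z.1 i) * f z - avg i f (z.1 i) * avg i f (z.1 i) := fun z => by
    simp only [lap]; ring
  rw [sum_congr rfl fun z _ => e z, sum_sub_distrib, h1, sub_self]

theorem eigenvalue_cases {μ : ℝ} {v : St r c → ℝ} (hv : ∀ z, ∑ i, avg i v (z.1 i) = μ * v z)
    (hne : ∃ z, v z ≠ 0) : μ ≤ 2 ∨ μ = 3 := by
  by_contra hh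
  obtain ⟨h2, h3⟩ := not_or.1 hh
  obtain ⟨z₀, hz₀⟩ := hne
  have hconst : ∀ z, v z = v z₀ := fun z => eigen_const (not_le.1 h2) hv z z₀
  have havg : ∀ i, avg i v (z₀.1 i) = v z₀ := fun i => by
    rw [avg, sum_congr rfl fun w _ => hconst w, sum_const, nsmul_eq_mul,
      mul_div_cancel_left₀ _ (card_fib_pos z₀ rfl).ne']
  have h := hv z₀
  rw [sum_congr rfl fun i _ => havg i, sum_const, card_univ, Fintype.card_fin, nsmul_eq_mul] at h
  exact h3 (mul_right_cancel₀ hz₀ h).symm

/-- The sum over pairs of rows of the products of their Laplacians is nonnegative. -/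
theorem three_row (f : St r c → ℝ) :
    0 ≤ ∑ z, (lap 0 f z * lap 1 f z + lap 0 f z * lap 2 f z + lap 1 f z * lap 2 f z) := by
  classical
  have hA : (avgMat r c).IsHermitian := avgMat_hermitian
  set b := hA.eigenvectorBasis with hb
  set μ := hA.eigenvalues with hμ
  set x : St r c → ℝ := fun k => b.repr (WithLp.toLp 2 f) k with hx
  have hexp : ∀ z, f z = ∑ k, x k * (b k : St r c → ℝ) z := fun z => by
    have := congrArg (fun u : EuclideanSpace ℝ (St r c) => u z) (b.sum_repr (WithLp.toLp 2 f))
    simpa [hx] using this.symm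
  have horth : ∀ k l, ∑ z, (b k : St r c → ℝ) z * (b l : St r c → ℝ) z = if k = l then 1 else 0 :=
    fun k l => by
      rw [← b.inner_eq_ite k l, PiLp.inner_apply]
      exact sum_congr rfl fun z _ => by simp [mul_comm]
  have heig : ∀ k z, ∑ i, avg i (b k : St r c → ℝ) (z.1 i) = μ k * (b k : St r c → ℝ) z :=
    fun k z => by
      rw [← avgMat_mulVec, hA.mulVec_eigenvectorBasis k]; rfl
  have hsign : ∀ k, 0 ≤ (3 - μ k) * (2 - μ k) := fun k => by
    rcases eigenvalue_cases (heig k) (by
      by_contra hh; push Not at hh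
      have := horth k k
      simp [hh] at this) with h | h
    · exact mul_nonneg (by linarith) (by linarith)
    · simp [h]
  have hM : ∀ z, ∑ i, lap i f z = ∑ k, x k * (3 - μ k) * (b k : St r c → ℝ) z := fun z => by
    have e : (avgMat r c).mulVec f z = ∑ k, x k * μ k * (b k : St r c → ℝ) z := by
      simp only [Matrix.mulVec, dotProduct]
      simp only [hexp, mul_sum]
      rw [sum_comm]
      refine sum_congr rfl fun k _ => ?_
      rw [mul_assoc, ← heig k z, ← avgMat_mulVec]
      simp only [Matrix.mulVec, dotProduct, mul_sum]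
      exact sum_congr rfl fun w _ => by ring
    simp only [lap, sum_sub_distrib, ← avgMat_mulVec, e, sum_const, card_univ, Fintype.card_fin,
      nsmul_eq_mul, hexp z, mul_sum]
    rw [← sum_sub_distrib]
    exact sum_congr rfl fun k _ => by push_cast; ring
  have key : ∑ z, (∑ i, lap i f z) * ((∑ i, lap i f z) - f z) =
      ∑ k, x k ^ 2 * ((3 - μ k) * (2 - μ k)) := by
    simp only [hM, hexp, ← sum_sub_distrib, sum_mul, mul_sum]
    rw [sum_comm]
    refine sum_congr rfl fun k _ => ?_
    rw [sum_comm, sum_eq_single k]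
    · have := horth k k
      rw [if_pos rfl] at this
      calc ∑ z, x k * (3 - μ k) * (b k : St r c → ℝ) z *
            (x k * (3 - μ k) * (b k : St r c → ℝ) z - x k * (b k : St r c → ℝ) z)
          = x k ^ 2 * ((3 - μ k) * (2 - μ k)) *
              ∑ z, (b k : St r c → ℝ) z * (b k : St r c → ℝ) z := by
            rw [mul_sum]; exact sum_congr rfl fun z _ => by ring
        _ = _ := by rw [this, mul_one]
    · intro l _ hl
      have := horth k l
      rw [if_neg (Ne.symm hl)] at this
      calc ∑ z, x l * (3 - μ l) * (b l : St r c → ℝ) z *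
            (x k * (3 - μ k) * (b k : St r c → ℝ) z - x k * (b k : St r c → ℝ) z)
          = x l * (3 - μ l) * (x k * (2 - μ k)) *
              ∑ z, (b k : St r c → ℝ) z * (b l : St r c → ℝ) z := by
            rw [mul_sum]; exact sum_congr rfl fun z _ => by ring
        _ = _ := by rw [this, mul_zero]
    · intro h; exact absurd (mem_univ k) h
  have hnn : (0 : ℝ) ≤ ∑ k, x k ^ 2 * ((3 - μ k) * (2 - μ k)) :=
    sum_nonneg fun k _ => mul_nonneg (sq_nonneg _) (hsign k)
  have split : ∑ z, (∑ i, lap i f z) * ((∑ i, lap i f z) - f z) =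
      2 * ∑ z, (lap 0 f z * lap 1 f z + lap 0 f z * lap 2 f z + lap 1 f z * lap 2 f z) := by
    have h0 := sum_mul_lap 0 f
    have h1 := sum_mul_lap 1 f
    have h2 := sum_mul_lap 2 f
    simp only [Fin.sum_univ_three, mul_sum]
    rw [← sub_eq_zero, ← sum_sub_distrib]
    calc _ = ∑ z, ((lap 0 f z ^ 2 - f z * lap 0 f z) + (lap 1 f z ^ 2 - f z * lap 1 f z)
          + (lap 2 f z ^ 2 - f z * lap 2 f z)) := sum_congr rfl fun z _ => by ring
      _ = 0 := by simp only [sum_add_distrib, sum_sub_distrib, h0, h1, h2]; ring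
  linarith [split.symm.trans key]

end Vale.Agent.P335.Triple
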