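import Vale.Agent.P335.Pins
import Vale.Agent.P335.Triple

/-!
The pin `ThreeRowThm`: Boolean matrices with three rows are the states of the three-row inequality.
-/

noncomputable section

open Finset

namespace Vale.Agent.P335

theorem threeRowThm : ThreeRowThm := by
  intro m _ _ r c S hS f
  classical
  let rows : (Fin 3 → m → Bool) → Fin 3 → Finset m := fun A i => univ.filter fun x => A i x = true
  let mat : Triple.St r c → Fin 3 → m → Bool := fun z i x => decide (x ∈ z.1 i)
  have hrows : ∀ A ∈ S, (∀ i, (rows A i).card = r i) ∧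
      ∀ x, ∑ i, Triple.ind (rows A i) x = c x := fun A hA => by
    obtain ⟨h1, h2⟩ := (hS A).1 hA
    refine ⟨h1, fun x => ?_⟩
    rw [← h2 x, Finset.card_filter]
    exact Finset.sum_congr rfl fun i _ => by simp [Triple.ind, rows]
  have hmat : ∀ z, mat z ∈ S := fun z => by
    refine (hS _).2 ⟨fun i => ?_, fun x => ?_⟩
    · rw [← z.2.1 i]; congr 1; ext x; simp [mat]
    · rw [← z.2.2 x, Finset.card_filter]
      exact Finset.sum_congr rfl fun i _ => by simp [Triple.ind, mat]
  have hinv : ∀ A, ∀ hA : A ∈ S, mat ⟨rows A, hrows A hA⟩ = A := fun A hA => by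
    funext i x; simp [mat, rows]
  have hinv' : ∀ z, rows (mat z) = z.1 := fun z => by
    funext i; ext x; simp [mat, rows]
  have hsum : ∀ φ : (Fin 3 → m → Bool) → ℝ, ∑ A ∈ S, φ A = ∑ z : Triple.St r c, φ (mat z) := by
    intro φ
    refine Finset.sum_bij' (fun A hA => (⟨rows A, hrows A hA⟩ : Triple.St r c))
      (fun z _ => mat z) (fun A hA => Finset.mem_univ _) (fun z _ => hmat z)
      (fun A hA => hinv A hA) (fun z _ => Subtype.ext (hinv' z)) (fun A hA => ?_)
    rw [hinv A hA]
  have hfib : ∀ (φ : (Fin 3 → m → Bool) → ℝ) (i : Fin 3) (z : Triple.St r c),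
      ∑ B ∈ S.filter (fun B => B i = mat z i), φ B =
        ∑ w ∈ Triple.fib i (z.1 i), φ (mat w) := by
    intro φ i z
    rw [Finset.sum_filter, hsum, Triple.fib, Finset.sum_filter]
    refine Finset.sum_congr rfl fun w _ => if_congr ⟨fun h => ?_, fun h => ?_⟩ rfl rfl
    · rw [← congrFun (hinv' w) i, ← congrFun (hinv' z) i]
      exact Finset.filter_congr fun x _ => by rw [h]
    · funext x; simp [mat, h]
  set g : Triple.St r c → ℝ := fun z => f (mat z) with hg
  have hlap : ∀ (i : Fin 3) (z : Triple.St r c),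
      f (mat z) - (∑ B ∈ S.filter (fun B => B i = mat z i), f B) /
        #(S.filter fun B => B i = mat z i) = Triple.lap i g z := by
    intro i z
    have h1 := hfib f i z
    have h2 := hfib (fun _ => (1 : ℝ)) i z
    simp only [Finset.sum_const, nsmul_eq_mul, mul_one] at h2
    rw [h1, h2]
    rfl
  have key := Triple.three_row g
  have step : ∀ i j : Fin 3, ∑ A ∈ S,
      (f A - (∑ B ∈ S.filter (fun B => B i = A i), f B) / #(S.filter fun B => B i = A i)) *
      (f A - (∑ B ∈ S.filter (fun B => B j = A j), f B) / #(S.filter fun B => B j = A j)) =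
      ∑ z, Triple.lap i g z * Triple.lap j g z := fun i j => by
    rw [hsum]
    exact Finset.sum_congr rfl fun z _ => by rw [hlap, hlap]
  simp only [step]
  simp only [Finset.sum_filter, Fin.sum_univ_three]
  simp only [show (0 : Fin 3) ≠ 1 by decide, show (0 : Fin 3) ≠ 2 by decide,
    show (1 : Fin 3) ≠ 0 by decide, show (1 : Fin 3) ≠ 2 by decide,
    show (2 : Fin 3) ≠ 0 by decide, show (2 : Fin 3) ≠ 1 by decide,
    ne_eq, not_true_eq_false, not_false_eq_true, if_true, if_false, zero_add, add_zero]
  simp only [← Finset.sum_add_distrib]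
  refine le_of_le_of_eq (add_nonneg key key) ?_
  rw [← Finset.sum_add_distrib]
  exact Finset.sum_congr rfl fun z _ => by ring

end Vale.Agent.P335
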