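import Mathlib

/-!
Three rows with prescribed row and column sums: states, exchanges, and the shape of a fibre.
-/

noncomputable section

open Finset

namespace Vale.Agent.P335.Triple

variable {ι : Type*} [Fintype ι] [DecidableEq ι]

/-- The indicator of membership. -/
def ind (S : Finset ι) (x : ι) : ℕ := if x ∈ S then 1 else 0

/-- The three rows with sizes `r` and column sums `c`. -/
abbrev St (r : Fin 3 → ℕ) (c : ι → ℕ) : Type _ :=
  {z : Fin 3 → Finset ι // (∀ i, (z i).card = r i) ∧ ∀ x, ∑ i, ind (z i) x = c x}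

variable {r : Fin 3 → ℕ} {c : ι → ℕ}

set_option linter.unusedSectionVars false

/-- The states with a given row. -/
def fib (i : Fin 3) (S : Finset ι) : Finset (St r c) := univ.filter fun w => w.1 i = S

/-- The average of `f` over the states with a given row. -/
def avg (i : Fin 3) (f : St r c → ℝ) (S : Finset ι) : ℝ :=
  (∑ w ∈ fib i S, f w) / (fib i S : Finset (St r c)).card

/-- The number of columns of sum one in a row. -/
def cnt (c : ι → ℕ) (S : Finset ι) : ℕ := (S.filter fun x => c x = 1).card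

theorem tri : ∀ i l : Fin 3, l = i ∨ l = i + 1 ∨ l = i + 2 := by decide

theorem tri_ne : ∀ i : Fin 3, i + 1 ≠ i ∧ i + 2 ≠ i ∧ i + 2 ≠ i + 1 := by decide

theorem sum3 {M : Type*} [AddCommMonoid M] (i : Fin 3) (v : Fin 3 → M) :
    ∑ l, v l = v i + v (i + 1) + v (i + 2) := by
  rw [← Equiv.sum_comp (Equiv.addLeft i) v, Fin.sum_univ_three]
  simp

theorem ind_cases (S : Finset ι) (x : ι) :
    (x ∈ S ∧ ind S x = 1) ∨ (x ∉ S ∧ ind S x = 0) := by
  unfold ind; by_cases h : x ∈ S <;> simp [h]

theorem col (z : St r c) (i : Fin 3) (x : ι) :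
    ind (z.1 i) x + ind (z.1 (i + 1)) x + ind (z.1 (i + 2)) x = c x := by
  rw [← z.2.2 x, sum3 i]

theorem col_le (z : St r c) (i : Fin 3) (x : ι) :
    ind (z.1 i) x ≤ c x ∧ c x ≤ ind (z.1 i) x + 2 := by
  have := col z i x
  rcases ind_cases (z.1 (i + 1)) x with ⟨-, h⟩ | ⟨-, h⟩ <;>
    rcases ind_cases (z.1 (i + 2)) x with ⟨-, h'⟩ | ⟨-, h'⟩ <;> omega

theorem col_ne_zero (z : St r c) (i : Fin 3) {x : ι} (h : x ∈ z.1 i) : c x ≠ 0 := by
  have := (col_le z i x).1
  simp only [ind, if_pos h] at this; omega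

theorem col_three (z : St r c) (i : Fin 3) {x : ι} (h : c x = 3) : x ∈ z.1 i := by
  have := (col_le z i x).2
  rcases ind_cases (z.1 i) x with ⟨h', -⟩ | ⟨-, h'⟩
  · exact h'
  · omega

theorem mem_fib {i : Fin 3} {S : Finset ι} {w : St r c} : w ∈ fib i S ↔ w.1 i = S := by
  simp [fib]

/-- The image of a row under the exchange of two columns. -/
def sw (j k : ι) (S : Finset ι) : Finset ι := S.map (Equiv.swap j k).toEmbedding

theorem mem_sw {j k x : ι} {S : Finset ι} : x ∈ sw j k S ↔ Equiv.swap j k x ∈ S := by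
  rw [sw, mem_map_equiv, Equiv.symm_swap]

theorem sw_sw (j k : ι) (S : Finset ι) : sw j k (sw j k S) = S := by
  ext x; simp [mem_sw]

theorem sw_self_of_iff {j k : ι} {S : Finset ι} (h : j ∈ S ↔ k ∈ S) : sw j k S = S := by
  ext x
  rw [mem_sw]
  rcases eq_or_ne x j with rfl | hj
  · rw [Equiv.swap_apply_left]; exact h.symm
  rcases eq_or_ne x k with rfl | hk
  · rw [Equiv.swap_apply_right]; exact h
  rw [Equiv.swap_apply_of_ne_of_ne hj hk]

/-- Exchanging two columns with equal sums. -/
def swSt (j k : ι) (h : c j = c k) (z : St r c) : St r c :=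
  ⟨fun l => sw j k (z.1 l), fun l => (card_map _).trans (z.2.1 l), fun x => by
    have e : ∀ l, ind (sw j k (z.1 l)) x = ind (z.1 l) (Equiv.swap j k x) := fun l => by
      unfold ind; exact if_congr mem_sw rfl rfl
    rw [sum_congr rfl fun l _ => e l, z.2.2]
    rcases eq_or_ne x j with rfl | hj
    · rw [Equiv.swap_apply_left, h]
    rcases eq_or_ne x k with rfl | hk
    · rw [Equiv.swap_apply_right, h]
    rw [Equiv.swap_apply_of_ne_of_ne hj hk]⟩

theorem swSt_swSt {j k : ι} (h : c j = c k) (z : St r c) : swSt j k h (swSt j k h z) = z :=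
  Subtype.ext (funext fun _ => sw_sw j k _)

theorem sum_fib_sw {j k : ι} (h : c j = c k) (i : Fin 3) (S : Finset ι) (φ : St r c → ℝ) :
    ∑ w ∈ fib i (sw j k S), φ w = ∑ w ∈ fib i S, φ (swSt j k h w) := by
  refine sum_nbij' (swSt j k h) (swSt j k h) ?_ ?_ (fun w _ => swSt_swSt h w)
    (fun w _ => swSt_swSt h w) fun w _ => by rw [swSt_swSt]
  · intro w hw
    simp only [mem_fib] at hw ⊢
    show sw j k (w.1 i) = S
    rw [hw, sw_sw]
  · intro w hw
    simp only [mem_fib] at hw ⊢
    show sw j k (w.1 i) = sw j k S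
    rw [hw]

/-- The columns still needing both other rows. -/
def Fset (c : ι → ℕ) (S : Finset ι) : Finset ι := univ.filter fun x => c x = ind S x + 2

/-- The columns still needing one of the other rows. -/
def Qset (c : ι → ℕ) (S : Finset ι) : Finset ι := univ.filter fun x => c x = ind S x + 1

theorem mem_Fset {S : Finset ι} {x : ι} : x ∈ Fset c S ↔ c x = ind S x + 2 := by simp [Fset]

theorem mem_Qset {S : Finset ι} {x : ι} : x ∈ Qset c S ↔ c x = ind S x + 1 := by simp [Qset]

theorem disjoint_FQ (S : Finset ι) : Disjoint (Fset c S) (Qset c S) := by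
  rw [disjoint_left]; intro x; simp only [mem_Fset, mem_Qset]; omega

theorem ne_one_of_Fset {S : Finset ι} {x : ι} (h : x ∈ Fset c S) : c x ≠ 1 := by
  rw [mem_Fset] at h; omega

theorem cnt_union_F (S : Finset ι) (R : Finset ι) : cnt c (Fset c S ∪ R) = cnt c R := by
  unfold cnt
  rw [filter_union, filter_false_of_mem fun x hx => ne_one_of_Fset hx, empty_union]

theorem cnt_insert (x : ι) {T : Finset ι} (hx : x ∉ T) :
    cnt c (insert x T) = cnt c T + if c x = 1 then 1 else 0 := by
  unfold cnt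
  rw [filter_insert]
  split_ifs with h
  · rw [card_insert_of_notMem (by simp [hx])]
  · rfl

theorem cnt_sdiff {R Q : Finset ι} (h : R ⊆ Q) : cnt c (Q \ R) + cnt c R = cnt c Q := by
  unfold cnt
  rw [← card_union_of_disjoint (disjoint_filter_filter sdiff_disjoint), ← filter_union,
    sdiff_union_of_subset h]

/-- A state built from one row and the split of its open columns. -/
def mkSt (i : Fin 3) (S R : Finset ι) (hS : S.card = r i)
    (hok : ∀ x, ind S x ≤ c x ∧ c x ≤ ind S x + 2) (hR : R ⊆ Qset c S)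
    (h1 : (Fset c S).card + R.card = r (i + 1))
    (h2 : (Fset c S).card + ((Qset c S).card - R.card) = r (i + 2)) : St r c :=
  ⟨fun l => if l = i then S else if l = i + 1 then Fset c S ∪ R else Fset c S ∪ (Qset c S \ R),
    fun l => by
      obtain ⟨d1, d2, d3⟩ := tri_ne i
      rcases tri i l with rfl | rfl | rfl <;> dsimp only
      · simpa using hS
      · rw [if_neg d1, if_pos rfl, card_union_of_disjoint ((disjoint_FQ S).mono_right hR), h1]
      · rw [if_neg d2, if_neg d3,
          card_union_of_disjoint ((disjoint_FQ S).mono_right sdiff_subset),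
          card_sdiff_of_subset hR, h2],
    fun x => by
      obtain ⟨d1, d2, d3⟩ := tri_ne i
      rw [sum3 i]
      simp only [if_neg d1, if_neg d2, if_neg d3, if_true]
      obtain ⟨a, b⟩ := hok x
      have hQR : x ∈ R → c x = ind S x + 1 := fun h => mem_Qset.1 (hR h)
      rcases ind_cases S x with ⟨hx, e⟩ | ⟨hx, e⟩ <;>
        by_cases hxR : x ∈ R <;> simp only [ind, mem_union, mem_sdiff, mem_Fset, mem_Qset,
          hxR, hx, if_true, if_false, or_true, or_false, not_true, not_false_eq_true,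
          and_true, and_false] at a b hQR ⊢ <;>
        split_ifs <;> (try simp only [forall_true_left] at *) <;> omega⟩

theorem mkSt_fst {i : Fin 3} {S R : Finset ι} {hS : S.card = r i}
    {hok : ∀ x, ind S x ≤ c x ∧ c x ≤ ind S x + 2} {hR : R ⊆ Qset c S}
    {h1 : (Fset c S).card + R.card = r (i + 1)}
    {h2 : (Fset c S).card + ((Qset c S).card - R.card) = r (i + 2)} :
    (mkSt i S R hS hok hR h1 h2).1 i = S ∧
      (mkSt i S R hS hok hR h1 h2).1 (i + 1) = Fset c S ∪ R ∧
      (mkSt i S R hS hok hR h1 h2).1 (i + 2) = Fset c S ∪ (Qset c S \ R) := by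
  obtain ⟨d1, d2, d3⟩ := tri_ne i
  exact ⟨if_pos rfl, (if_neg d1).trans (if_pos rfl), (if_neg d2).trans (if_neg d3)⟩

theorem shape {i : Fin 3} {S : Finset ι} {w : St r c} (hw : w.1 i = S) :
    w.1 (i + 1) = Fset c S ∪ (w.1 (i + 1) ∩ Qset c S) ∧
      w.1 (i + 2) = Fset c S ∪ (Qset c S \ (w.1 (i + 1) ∩ Qset c S)) := by
  subst hw
  constructor <;> ext x <;>
  · have := col w i x
    simp only [mem_union, mem_sdiff, mem_inter, mem_Fset, mem_Qset]
    rcases ind_cases (w.1 (i + 1)) x with ⟨a, e⟩ | ⟨a, e⟩ <;>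
      rcases ind_cases (w.1 (i + 2)) x with ⟨b, e'⟩ | ⟨b, e'⟩ <;>
      rw [e, e'] at this <;>
      simp [a, b] <;> omega

theorem card_shape {i : Fin 3} {S : Finset ι} {w : St r c} (hw : w.1 i = S) :
    (Fset c S).card + (w.1 (i + 1) ∩ Qset c S).card = r (i + 1) ∧
      (Fset c S).card + ((Qset c S).card - (w.1 (i + 1) ∩ Qset c S).card) = r (i + 2) := by
  obtain ⟨a, b⟩ := shape hw
  constructor
  · rw [← card_union_of_disjoint ((disjoint_FQ S).mono_right inter_subset_right), ← a, w.2.1]
  · rw [← card_sdiff_of_subset inter_subset_right,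
      ← card_union_of_disjoint ((disjoint_FQ S).mono_right sdiff_subset), ← b, w.2.1]

/-- A fibre is the family of splits of the open columns. -/
theorem sum_fib {i : Fin 3} {S : Finset ι} (w₀ : St r c) (hw₀ : w₀.1 i = S)
    (φ : Finset ι → Finset ι → ℝ) :
    ∑ w ∈ (fib i S : Finset (St r c)), φ (w.1 (i + 1)) (w.1 (i + 2)) =
      ∑ R ∈ (Qset c S).powersetCard (r (i + 1) - (Fset c S).card),
        φ (Fset c S ∪ R) (Fset c S ∪ (Qset c S \ R)) := by
  obtain ⟨e1, e2⟩ := card_shape hw₀
  have hle : (w₀.1 (i + 1) ∩ Qset c S).card ≤ (Qset c S).card := card_le_card inter_subset_right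
  have hS : S.card = r i := hw₀ ▸ w₀.2.1 i
  have hok : ∀ x, ind S x ≤ c x ∧ c x ≤ ind S x + 2 := hw₀ ▸ col_le w₀ i
  refine sum_bij' (fun w _ => w.1 (i + 1) ∩ Qset c S)
    (fun R hR => mkSt i S R hS hok (mem_powersetCard.1 hR).1
      (by have := (mem_powersetCard.1 hR).2; omega)
      (by have := (mem_powersetCard.1 hR).2; omega)) ?_ ?_ ?_ ?_ ?_
  · intro w hw
    have := (card_shape (mem_fib.1 hw)).1
    exact mem_powersetCard.2 ⟨inter_subset_right, by omega⟩
  · intro R hR; exact mem_fib.2 mkSt_fst.1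
  · intro w hw
    obtain ⟨a, b⟩ := shape (mem_fib.1 hw)
    refine Subtype.ext (funext fun l => ?_)
    rcases tri i l with rfl | rfl | rfl
    · rw [mkSt_fst.1, mem_fib.1 hw]
    · rw [mkSt_fst.2.1, ← a]
    · rw [mkSt_fst.2.2, ← b]
  · intro R hR
    show (mkSt i S R _ _ _ _ _).1 (i + 1) ∩ Qset c S = R
    rw [mkSt_fst.2.1, union_inter_distrib_right, disjoint_iff_inter_eq_empty.1 (disjoint_FQ S),
      empty_union, inter_eq_left.2 (mem_powersetCard.1 hR).1]
  · intro w hw
    obtain ⟨a, b⟩ := shape (mem_fib.1 hw)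
    rw [← a, ← b]

theorem card_fib {i : Fin 3} {S : Finset ι} (w₀ : St r c) (hw₀ : w₀.1 i = S) :
    ((fib i S : Finset (St r c)).card : ℝ) =
      ((Qset c S).powersetCard (r (i + 1) - (Fset c S).card)).card := by
  have := sum_fib w₀ hw₀ (fun _ _ => (1 : ℝ))
  simpa using this

theorem card_fib_pos {i : Fin 3} {S : Finset ι} (w₀ : St r c) (hw₀ : w₀.1 i = S) :
    (0 : ℝ) < ((fib i S : Finset (St r c)).card : ℝ) := by
  exact_mod_cast Finset.card_pos.2 ⟨w₀, mem_fib.2 hw₀⟩

theorem filter_card_ne (z : St r c) (i : Fin 3) :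
    cnt c (z.1 i) + ((z.1 i).filter fun x => ¬c x = 1).card = r i :=
  (card_filter_add_card_filter_not _).trans (z.2.1 i)

/-- A row with more columns of sum one than another differs from it by an exchange of types. -/
theorem exch {i : Fin 3} {z z' : St r c} (h : cnt c (z.1 i) < cnt c (z'.1 i)) :
    ∃ j k, c j = 1 ∧ c k = 2 ∧ j ∉ z.1 i ∧ k ∈ z.1 i := by
  obtain ⟨j, hj, hj'⟩ := exists_mem_notMem_of_card_lt_card h
  have hk0 : ((z'.1 i).filter fun x => ¬c x = 1).card < ((z.1 i).filter fun x => ¬c x = 1).card := by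
    have := filter_card_ne z i; have := filter_card_ne z' i; omega
  obtain ⟨k, hk, hk'⟩ := exists_mem_notMem_of_card_lt_card hk0
  simp only [mem_filter] at hj hj' hk hk'
  refine ⟨j, k, hj.2, ?_, fun hh => hj' ⟨hh, hj.2⟩, hk.1⟩
  have h3 : c k ≠ 3 := fun hh => hk' ⟨col_three z' i hh, hk.2⟩
  have h0 := col_ne_zero z i hk.1
  have := (col_le z i k).2
  simp only [ind, if_pos hk.1] at this
  have := hk.2
  omega

theorem Fset_count (z : St r c) (i : Fin 3) :
    (Fset c (z.1 i)).card + ((z.1 i).filter fun x => ¬c x = 1).card =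
      (univ.filter fun x => 2 ≤ c x).card + (univ.filter fun x => c x = 3).card := by
  rw [Fset, show ((z.1 i).filter fun x => ¬c x = 1) =
    univ.filter (fun x => x ∈ z.1 i ∧ ¬c x = 1) by ext; simp]
  simp only [card_filter, ← sum_add_distrib]
  refine sum_congr rfl fun x _ => ?_
  obtain ⟨a, b⟩ := col_le z i x
  rcases ind_cases (z.1 i) x with ⟨hx, e⟩ | ⟨hx, e⟩ <;> rw [e] at a b ⊢ <;>
    simp only [hx, true_and, false_and, if_false] <;> split_ifs <;> omega

theorem exchanged_sets {S : Finset ι} {j k : ι} (hj1 : c j = 1) (hk2 : c k = 2) (hj : j ∉ S)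
    (hk : k ∈ S) :
    Qset c S = insert j (insert k (Qset c (insert j (S.erase k)))) ∧
      Fset c (insert j (S.erase k)) = insert k (Fset c S) := by
  constructor <;> ext x <;>
  · simp only [mem_insert, mem_Qset, mem_Fset]
    rcases eq_or_ne x j with rfl | hxj
    · have : x ≠ k := fun e => hj (e ▸ hk)
      simp [ind, hj, hj1, this]
    rcases eq_or_ne x k with rfl | hxk
    · simp [ind, hk, hk2, hxj]
    simp [ind, hxj, hxk]

end Vale.Agent.P335.Triple
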