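import Vale.Agent.P335.TripleBase
import Vale.Agent.P335.Subsets

/-!
The sum of the three row averages has no eigenvalue above two on functions of mean zero.
-/

noncomputable section

open Finset

namespace Vale.Agent.P335.Triple

set_option linter.unusedSectionVars false

variable {ι : Type*} [Fintype ι] [DecidableEq ι] {r : Fin 3 → ℕ} {c : ι → ℕ}
  {f : St r c → ℝ} {μ : ℝ}

theorem ind_le (S : Finset ι) (x : ι) : ind S x ≤ 1 := by unfold ind; split_ifs <;> simp

theorem ind_eq_iff {S : Finset ι} {x y : ι} : ind S x = ind S y ↔ (x ∈ S ↔ y ∈ S) := by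
  unfold ind; by_cases x ∈ S <;> by_cases y ∈ S <;> simp [*]

/-- The sum of the averages seen by the two other rows. -/
def other (f : St r c → ℝ) (i : Fin 3) (w : St r c) : ℝ :=
  avg (i + 1) f (w.1 (i + 1)) + avg (i + 2) f (w.1 (i + 2))

theorem row_eq (hf : ∀ z, ∑ i, avg i f (z.1 i) = μ * f z) {i : Fin 3} {S : Finset ι}
    (w₀ : St r c) (hw₀ : w₀.1 i = S) :
    (μ - 1) * avg i f S = (∑ w ∈ fib i S, other f i w) / (fib i S : Finset (St r c)).card := by
  have hn := (card_fib_pos w₀ hw₀).ne'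
  have hs : ∑ w ∈ (fib i S : Finset (St r c)), f w =
      avg i f S * (fib i S : Finset (St r c)).card := by
    rw [avg, div_mul_cancel₀ _ hn]
  have h2 : ∑ w ∈ (fib i S : Finset (St r c)), μ * f w =
      ∑ w ∈ (fib i S : Finset (St r c)), (avg i f S + other f i w) :=
    sum_congr rfl fun w hw => by
      rw [← hf w, sum3 i, mem_fib.1 hw, other]; ring
  rw [← mul_sum, hs, sum_add_distrib, sum_const, nsmul_eq_mul] at h2
  rw [eq_div_iff hn]
  linarith [h2]

theorem le_zero_of_contract {k L : ℝ} (hk : 1 < k) (h : k * L ≤ L) : L ≤ 0 := by nlinarith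

/-- An eigenfunction above two is blind to exchanges of columns with equal sums. -/
theorem same_type (hμ : 2 < μ) (hf : ∀ z, ∑ i, avg i f (z.1 i) = μ * f z) (i : Fin 3) (z : St r c)
    {j k : ι} (h : c j = c k) : avg i f (sw j k (z.1 i)) = avg i f (z.1 i) := by
  classical
  obtain ⟨D, hD⟩ : ∃ D : Fin 3 × St r c × ι × ι → ℝ, D = fun p => if c p.2.2.1 = c p.2.2.2 then
      |avg p.1 f (sw p.2.2.1 p.2.2.2 (p.2.1.1 p.1)) - avg p.1 f (p.2.1.1 p.1)| else 0 := ⟨_, rfl⟩
  obtain ⟨⟨i₀, z₀, j₀, k₀⟩, -, hmax⟩ :=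
    exists_max_image univ D ⟨(i, z, j, k), mem_univ _⟩
  set L := D (i₀, z₀, j₀, k₀) with hL
  have hle : ∀ l (w : St r c) a b, c a = c b →
      |avg l f (sw a b (w.1 l)) - avg l f (w.1 l)| ≤ L := fun l w a b hab => by
    have := hmax (l, w, a, b) (mem_univ _)
    simpa [hD, if_pos hab] using this
  have h0 : 0 ≤ L := (abs_nonneg _).trans (hle i z j k h)
  suffices hz : L ≤ 0 by
    have := (hle i z j k h).trans hz
    exact sub_eq_zero.1 (abs_nonpos_iff.1 this)
  by_cases hc : c j₀ = c k₀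
  swap
  · simp [hL, hD, hc]
  by_cases hfix : j₀ ∈ z₀.1 i₀ ↔ k₀ ∈ z₀.1 i₀
  · simp [hL, hD, hc, sw_self_of_iff hfix]
  have hLd : L = |avg i₀ f (sw j₀ k₀ (z₀.1 i₀)) - avg i₀ f (z₀.1 i₀)| := by
    rw [hL, hD]; exact if_pos hc
  refine le_zero_of_contract (k := μ - 1) (by linarith) ?_
  have hn := card_fib_pos z₀ (i := i₀) rfl
  have hcard : ((fib i₀ (sw j₀ k₀ (z₀.1 i₀)) : Finset (St r c)).card : ℝ) =
      (fib i₀ (z₀.1 i₀) : Finset (St r c)).card := by
    have := sum_fib_sw hc i₀ (z₀.1 i₀) (fun _ : St r c => (1 : ℝ))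
    simpa using this
  calc (μ - 1) * L = |(μ - 1) * avg i₀ f (sw j₀ k₀ (z₀.1 i₀)) -
        (μ - 1) * avg i₀ f (z₀.1 i₀)| := by
        rw [hLd, ← mul_sub, abs_mul, abs_of_pos (show 0 < μ - 1 by linarith)]
    _ = |∑ w ∈ fib i₀ (z₀.1 i₀), (other f i₀ (swSt j₀ k₀ hc w) - other f i₀ w)| /
        (fib i₀ (z₀.1 i₀) : Finset (St r c)).card := by
        rw [row_eq hf (i := i₀) (S := sw j₀ k₀ (z₀.1 i₀)) (swSt j₀ k₀ hc z₀) rfl,
          row_eq hf (i := i₀) z₀ rfl, hcard, sum_fib_sw hc,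
          ← sub_div, ← sum_sub_distrib, abs_div, abs_of_pos hn]
    _ ≤ L := by
        rw [div_le_iff₀ hn]
        refine (abs_sum_le_sum_abs _ _).trans ((sum_le_sum fun w hw => ?_).trans
          (le_of_eq (by rw [sum_const, nsmul_eq_mul, mul_comm] : ∑ _w ∈ fib i₀ (z₀.1 i₀), L =
            L * ((fib i₀ (z₀.1 i₀) : Finset (St r c)).card : ℝ))))
        have cj := col w i₀ j₀
        have ck := col w i₀ k₀
        rw [mem_fib.1 hw] at cj ck
        unfold other
        show |avg (i₀ + 1) f (sw j₀ k₀ (w.1 (i₀ + 1))) + avg (i₀ + 2) f (sw j₀ k₀ (w.1 (i₀ + 2))) -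
          (avg (i₀ + 1) f (w.1 (i₀ + 1)) + avg (i₀ + 2) f (w.1 (i₀ + 2)))| ≤ L
        by_cases h1 : j₀ ∈ w.1 (i₀ + 1) ↔ k₀ ∈ w.1 (i₀ + 1)
        · rw [sw_self_of_iff h1, add_sub_add_left_eq_sub]
          exact hle _ w _ _ hc
        have h2 : j₀ ∈ w.1 (i₀ + 2) ↔ k₀ ∈ w.1 (i₀ + 2) := by
          rw [← ind_eq_iff] at h1 hfix ⊢
          have := ind_le (z₀.1 i₀) j₀
          have := ind_le (z₀.1 i₀) k₀
          have := ind_le (w.1 (i₀ + 1)) j₀
          have := ind_le (w.1 (i₀ + 1)) k₀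
          have := ind_le (w.1 (i₀ + 2)) j₀
          have := ind_le (w.1 (i₀ + 2)) k₀
          omega
        rw [sw_self_of_iff h2, add_sub_add_right_eq_sub]
        exact hle _ w _ _ hc

/-- The average of a row depends only on its number of columns of sum one, and every set with
admissible counts is a row. -/
theorem reach (hμ : 2 < μ) (hf : ∀ z, ∑ i, avg i f (z.1 i) = μ * f z) (i : Fin 3) (z : St r c)
    (T : Finset ι) (hT : T.card = r i) (h0 : ∀ x ∈ T, c x ≠ 0) (h3 : ∀ x, c x = 3 → x ∈ T)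
    (ha : cnt c T = cnt c (z.1 i)) :
    ∃ z' : St r c, z'.1 i = T ∧ avg i f T = avg i f (z.1 i) := by
  induction hn : (z.1 i \ T).card using Nat.strong_induction_on generalizing z with
  | _ n ih =>
    rcases Nat.eq_zero_or_pos n with rfl | hpos
    · have e : z.1 i = T := eq_of_subset_of_card_le (sdiff_eq_empty_iff_subset.1
        (card_eq_zero.1 hn)) (by rw [z.2.1 i, hT])
      exact ⟨z, e, by rw [e]⟩
    obtain ⟨j, hj⟩ := card_pos.1 (hn ▸ hpos)
    obtain ⟨hjS, hjT⟩ := mem_sdiff.1 hj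
    have e1 := filter_card_ne z i
    have e2 : cnt c T + (T.filter fun x => ¬c x = 1).card = r i :=
      (card_filter_add_card_filter_not _).trans hT
    have ec : ((z.1 i).filter fun x => (c x = 1 ↔ c j = 1)).card =
        (T.filter fun x => (c x = 1 ↔ c j = 1)).card := by
      by_cases hj1 : c j = 1
      · simp only [hj1, iff_true]; exact ha.symm
      · simp only [hj1, iff_false]; omega
    have hmem : j ∈ ((z.1 i).filter fun x => (c x = 1 ↔ c j = 1)) \
        T.filter fun x => (c x = 1 ↔ c j = 1) := by simp [hjS, hjT]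
    obtain ⟨k, hk⟩ := card_pos.1 (lt_of_lt_of_eq (card_pos.2 ⟨j, hmem⟩) (card_sdiff_comm ec))
    simp only [mem_sdiff, mem_filter, not_and] at hk
    obtain ⟨⟨hkT, hkj⟩, hkS⟩ := hk
    have hkS' : k ∉ z.1 i := fun hh => hkS hh hkj
    have hcjk : c j = c k := by
      have a1 := col_ne_zero z i hjS
      have a2 := h0 k hkT
      have a3 : c j ≠ 3 := fun hh => hjT (h3 j hh)
      have a4 : c k ≠ 3 := fun hh => hkS' (col_three z i hh)
      have a5 := (col_le z i k).2
      have a6 := (col_le z i j).2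
      simp only [ind, if_pos hjS, if_neg hkS'] at a5 a6
      have : c j ≤ 3 := by omega
      by_cases hj1 : c j = 1
      · rw [hj1, hkj.2 hj1]
      · have : c k ≠ 1 := fun hh => hj1 (hkj.1 hh)
        omega
    have hne : j ≠ k := fun e => hkS' (e ▸ hjS)
    have hsw : (swSt j k hcjk z).1 i = sw j k (z.1 i) := rfl
    have hcnt : cnt c (sw j k (z.1 i)) = cnt c (z.1 i) := by
      unfold cnt
      rw [sw, filter_map, card_map]
      congr 1
      refine filter_congr fun x _ => ?_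
      show c (Equiv.swap j k x) = 1 ↔ _
      rcases eq_or_ne x j with rfl | hxj
      · rw [Equiv.swap_apply_left, hcjk]
      rcases eq_or_ne x k with rfl | hxk
      · rw [Equiv.swap_apply_right, hcjk]
      rw [Equiv.swap_apply_of_ne_of_ne hxj hxk]
    have hlt : ((swSt j k hcjk z).1 i \ T).card < n := by
      rw [hsw, ← hn]
      refine card_lt_card ⟨fun x hx => ?_, fun hh => ?_⟩
      · simp only [mem_sdiff, mem_sw] at hx ⊢
        refine ⟨?_, hx.2⟩
        rcases eq_or_ne x j with rfl | hxj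
        · exact absurd (by simpa using hx.1) hkS'
        rcases eq_or_ne x k with rfl | hxk
        · exact absurd hkT hx.2
        rw [Equiv.swap_apply_of_ne_of_ne hxj hxk] at hx; exact hx.1
      · have := (mem_sdiff.1 (hh hj)).1
        rw [mem_sw, Equiv.swap_apply_left] at this
        exact hkS' this
    obtain ⟨z', e, e'⟩ := ih _ hlt (swSt j k hcjk z) (by rw [hsw, hcnt, ha]) rfl
    exact ⟨z', e, e'.trans (by rw [hsw]; exact same_type hμ hf i z hcjk)⟩

theorem avg_eq_of_cnt (hμ : 2 < μ) (hf : ∀ z, ∑ i, avg i f (z.1 i) = μ * f z) (i : Fin 3)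
    (z z' : St r c) (h : cnt c (z'.1 i) = cnt c (z.1 i)) :
    avg i f (z'.1 i) = avg i f (z.1 i) := by
  obtain ⟨-, -, e⟩ := reach hμ hf i z (z'.1 i) (z'.2.1 i) (fun x hx => col_ne_zero z' i hx)
    (fun x hx => col_three z' i hx) h
  exact e

theorem exchanged_row {i : Fin 3} (z : St r c) {j k : ι} (hj1 : c j = 1) (hk2 : c k = 2)
    (hj : j ∉ z.1 i) (hk : k ∈ z.1 i) :
    (insert j ((z.1 i).erase k)).card = r i ∧
      (∀ x ∈ insert j ((z.1 i).erase k), c x ≠ 0) ∧
      (∀ x, c x = 3 → x ∈ insert j ((z.1 i).erase k)) ∧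
      cnt c (insert j ((z.1 i).erase k)) = cnt c (z.1 i) + 1 := by
  have hje : j ∉ (z.1 i).erase k := fun hh => hj (mem_of_mem_erase hh)
  refine ⟨?_, fun x hx => ?_, fun x hx => ?_, ?_⟩
  · rw [card_insert_of_notMem hje, card_erase_add_one hk, z.2.1]
  · rcases mem_insert.1 hx with rfl | hx
    · omega
    · exact col_ne_zero z i (mem_of_mem_erase hx)
  · exact mem_insert_of_mem (mem_erase.2 ⟨fun e => by rw [e, hk2] at hx; omega, col_three z i hx⟩)
  · rw [cnt_insert j hje, if_pos hj1]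
    have : cnt c ((z.1 i).erase k) = cnt c (z.1 i) := by
      unfold cnt
      rw [filter_erase, erase_eq_of_notMem (by simp [hk2])]
    omega

/-- An eigenfunction above two is blind to exchanges of types. -/
theorem next_type (hμ : 2 < μ) (hf : ∀ z, ∑ i, avg i f (z.1 i) = μ * f z) (i : Fin 3)
    (z z' : St r c) (h : cnt c (z'.1 i) = cnt c (z.1 i) + 1) :
    avg i f (z'.1 i) = avg i f (z.1 i) := by
  classical
  obtain ⟨D, hD⟩ : ∃ D : Fin 3 × St r c × St r c → ℝ, D = fun p =>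
      if cnt c (p.2.2.1 p.1) = cnt c (p.2.1.1 p.1) + 1 then
        |avg p.1 f (p.2.2.1 p.1) - avg p.1 f (p.2.1.1 p.1)| else 0 := ⟨_, rfl⟩
  obtain ⟨⟨i₀, z₀, z₁⟩, -, hmax⟩ := exists_max_image univ D ⟨(i, z, z'), mem_univ _⟩
  set L := D (i₀, z₀, z₁) with hL
  have hle : ∀ l (v w : St r c), cnt c (w.1 l) = cnt c (v.1 l) + 1 →
      |avg l f (w.1 l) - avg l f (v.1 l)| ≤ L := fun l v w hvw => by
    have := hmax (l, v, w) (mem_univ _)
    simpa [hD, if_pos hvw] using this
  have h0 : 0 ≤ L := (abs_nonneg _).trans (hle i z z' h)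
  suffices hz : L ≤ 0 by
    have := (hle i z z' h).trans hz
    exact sub_eq_zero.1 (abs_nonpos_iff.1 this)
  by_cases hc : cnt c (z₁.1 i₀) = cnt c (z₀.1 i₀) + 1
  swap
  · simp [hL, hD, hc]
  have hLd : L = |avg i₀ f (z₁.1 i₀) - avg i₀ f (z₀.1 i₀)| := by
    rw [hL, hD]; exact if_pos hc
  refine le_zero_of_contract (k := μ - 1) (by linarith) ?_
  obtain ⟨j, k, hj1, hk2, hj, hk⟩ := exch (i := i₀) (z := z₀) (z' := z₁) (by omega)
  obtain ⟨hcard, hn0, hn3, hcnt⟩ := exchanged_row z₀ hj1 hk2 hj hk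
  obtain ⟨z₂, hz₂, hg₂⟩ := reach hμ hf i₀ z₁ _ hcard hn0 hn3 (by omega)
  obtain ⟨hQ, hF⟩ := exchanged_sets hj1 hk2 hj hk
  set S := z₀.1 i₀ with hSdef
  set U := insert j (S.erase k) with hU
  obtain ⟨P, hP⟩ : ∃ P, Qset c U = P := ⟨_, rfl⟩
  rw [hP] at hQ
  have hjk : j ≠ k := fun e => hj (e ▸ hk)
  have hjP : j ∉ P := by simp [← hP, mem_Qset, hU, ind, hj1]
  have hkP : k ∉ P := by simp [← hP, mem_Qset, hU, ind, hk2, hjk.symm]
  have hkF : k ∉ Fset c S := by simp [mem_Fset, ind, hk, hk2]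
  obtain ⟨s1, s2⟩ := card_shape (i := i₀) (S := S) (w := z₀) rfl
  obtain ⟨u1, u2⟩ := card_shape hz₂
  rw [hF, card_insert_of_notMem hkF] at u1 u2
  rw [hP] at u1 u2
  obtain ⟨s, hs⟩ : ∃ s, r (i₀ + 1) - (Fset c S).card = s + 1 :=
    ⟨r (i₀ + 1) - (Fset c S).card - 1, by omega⟩
  have hsP : r (i₀ + 1) - (Fset c U).card = s := by
    rw [hF, card_insert_of_notMem hkF]; omega
  have hsle : s ≤ P.card := by
    have : (z₂.1 (i₀ + 1) ∩ P).card ≤ P.card := card_le_card inter_subset_right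
    omega
  have key : ∀ R ∈ (Qset c S).powersetCard (s + 1), ∀ T ∈ P.powersetCard s,
      (cnt c R = cnt c T ∨ cnt c R = cnt c T + 1) →
      |(avg (i₀ + 1) f (Fset c S ∪ R) + avg (i₀ + 2) f (Fset c S ∪ (Qset c S \ R))) -
        (avg (i₀ + 1) f (Fset c U ∪ T) + avg (i₀ + 2) f (Fset c U ∪ (P \ T)))| ≤ L := by
    intro R hR T hT hRT
    obtain ⟨hRQ, hRc⟩ := mem_powersetCard.1 hR
    obtain ⟨hTP, hTc⟩ := mem_powersetCard.1 hT
    have hFU : (Fset c U).card = (Fset c S).card + 1 := by rw [hF, card_insert_of_notMem hkF]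
    let w : St r c := mkSt i₀ S R (z₀.2.1 i₀) (col_le z₀ i₀) hRQ (by omega) (by omega)
    let w' : St r c := mkSt i₀ U T (hz₂ ▸ z₂.2.1 i₀) (hz₂ ▸ col_le z₂ i₀) (hP ▸ hTP) (by omega)
      (by
        have e : (z₂.1 (i₀ + 1) ∩ P).card = T.card := by omega
        rw [e] at u2; rw [hP]; omega)
    obtain ⟨-, a1, a2⟩ : w.1 i₀ = S ∧ _ ∧ _ := mkSt_fst
    obtain ⟨-, b1, b2⟩ : w'.1 i₀ = U ∧ _ ∧ _ := mkSt_fst
    replace b2 : w'.1 (i₀ + 2) = Fset c U ∪ (P \ T) := by
      simp only [← hP]; exact b2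
    have cQ : cnt c (Qset c S) = cnt c P + 1 := by
      rw [hQ, cnt_insert j (by simp [hjk, hjP]), cnt_insert k hkP, if_pos hj1, if_neg (by omega)]
    have c1 := cnt_sdiff (c := c) hRQ
    have c2 := cnt_sdiff (c := c) hTP
    rw [← a1, ← a2, ← b1, ← b2]
    rcases hRT with e | e
    · rw [avg_eq_of_cnt hμ hf (i₀ + 1) w' w (by rw [a1, b1, cnt_union_F, cnt_union_F, e]),
        add_sub_add_left_eq_sub]
      exact hle _ w' w (by rw [a2, b2, cnt_union_F, cnt_union_F]; omega)
    · rw [avg_eq_of_cnt hμ hf (i₀ + 2) w' w (by rw [a2, b2, cnt_union_F, cnt_union_F]; omega),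
        add_sub_add_right_eq_sub]
      exact hle _ w' w (by rw [a1, b1, cnt_union_F, cnt_union_F, e])
  calc (μ - 1) * L = |(μ - 1) * avg i₀ f S - (μ - 1) * avg i₀ f U| := by
        rw [hLd, ← hg₂, ← mul_sub, abs_mul, abs_of_pos (show 0 < μ - 1 by linarith), abs_sub_comm]
    _ ≤ L := by
        rw [row_eq hf z₀ rfl, row_eq hf z₂ hz₂, card_fib z₀ rfl, card_fib z₂ hz₂]
        unfold other
        rw [sum_fib z₀ rfl (fun A B => avg (i₀ + 1) f A + avg (i₀ + 2) f B),
          sum_fib z₂ hz₂ (fun A B => avg (i₀ + 1) f A + avg (i₀ + 2) f B), hs, hsP]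
        rw [hP, show (Qset c S).powersetCard (s + 1) = (insert j (insert k P)).powersetCard (s + 1)
          by rw [← hQ]]
        refine two_points P j k hjP hkP hjk s hsle _ _ L (fun T hT x hx hxT => ?_)
          (fun V hV hVc x hx => ?_)
        · obtain ⟨hTP, hTc⟩ := mem_powersetCard.1 hT
          refine key _ (mem_powersetCard.2 ⟨insert_subset (hQ ▸ hx) ?_, ?_⟩) T hT ?_
          · rw [hQ]; exact hTP.trans ((subset_insert _ _).trans (subset_insert _ _))
          · rw [card_insert_of_notMem hxT, hTc]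
          · rw [cnt_insert x hxT]; split_ifs <;> simp
        · obtain ⟨hxP, hxV⟩ := mem_sdiff.1 hx
          have hkV : k ∉ V := fun hh => hkP (hV hh)
          have hjV : j ∉ insert k V := by
            simpa [hjk] using fun hh : j ∈ V => hjP (hV hh)
          refine key _ (mem_powersetCard.2 ⟨?_, ?_⟩) _
            (mem_powersetCard.2 ⟨insert_subset hxP hV, ?_⟩) ?_
          · rw [hQ]; exact insert_subset_insert _ (insert_subset_insert _ hV)
          · rw [card_insert_of_notMem hjV, card_insert_of_notMem hkV]; omega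
          · rw [card_insert_of_notMem hxV]; omega
          · rw [cnt_insert j hjV, cnt_insert k hkV, cnt_insert x hxV, if_pos hj1,
              if_neg (show ¬c k = 1 by omega)]
            split_ifs <;> simp

theorem const_of_le (hμ : 2 < μ) (hf : ∀ z, ∑ i, avg i f (z.1 i) = μ * f z) (i : Fin 3) :
    ∀ (d : ℕ) (z z' : St r c), cnt c (z'.1 i) = cnt c (z.1 i) + d →
      avg i f (z'.1 i) = avg i f (z.1 i) := by
  intro d
  induction d with
  | zero => intro z z' h; exact avg_eq_of_cnt hμ hf i z z' h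
  | succ d ih =>
    intro z z' h
    obtain ⟨j, k, hj1, hk2, hj, hk⟩ := exch (i := i) (z := z) (z' := z') (by omega)
    obtain ⟨hQ, hF⟩ := exchanged_sets hj1 hk2 hj hk
    obtain ⟨hcard, hn0, hn3, hcnt⟩ := exchanged_row z hj1 hk2 hj hk
    set U := insert j ((z.1 i).erase k) with hU
    have hjP : j ∉ insert k (Qset c U) := by
      simp [mem_Qset, hU, ind, hj1, show j ≠ k from fun e => hj (e ▸ hk)]
    have hkP : k ∉ Qset c U := by
      simp [mem_Qset, hU, ind, hk2, show k ≠ j from fun e => hj (e.symm ▸ hk)]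
    have hkF : k ∉ Fset c (z.1 i) := by simp [mem_Fset, ind, hk, hk2]
    obtain ⟨s1, s2⟩ := card_shape (i := i) (S := z.1 i) (w := z) rfl
    obtain ⟨t1, t2⟩ := card_shape (i := i) (S := z'.1 i) (w := z') rfl
    have f1 := Fset_count z i
    have f2 := Fset_count z' i
    have g1 := filter_card_ne z i
    have g2 := filter_card_ne z' i
    have hQc : (Qset c (z.1 i)).card = (Qset c U).card + 2 := by
      rw [hQ, card_insert_of_notMem hjP, card_insert_of_notMem hkP]
    have hFc : (Fset c U).card = (Fset c (z.1 i)).card + 1 := by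
      rw [hF, card_insert_of_notMem hkF]
    have hqle : (z.1 (i + 1) ∩ Qset c (z.1 i)).card ≤ (Qset c (z.1 i)).card :=
      card_le_card inter_subset_right
    have hqle' : (z'.1 (i + 1) ∩ Qset c (z'.1 i)).card ≤ (Qset c (z'.1 i)).card :=
      card_le_card inter_subset_right
    obtain ⟨R, hR, hRc⟩ := exists_subset_card_eq (s := Qset c U)
      (n := r (i + 1) - (Fset c U).card) (by omega)
    have hok : ∀ x, ind U x ≤ c x ∧ c x ≤ ind U x + 2 := fun x => by
      obtain ⟨a, b⟩ := col_le z i x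
      rcases eq_or_ne x j with rfl | hxj
      · simp [hU, ind, hj1]
      rcases eq_or_ne x k with rfl | hxk
      · simp [hU, ind, hk2, hxj]
      simpa [hU, ind, hxj, hxk] using col_le z i x
    let z₂ : St r c := mkSt i U R hcard hok hR (by omega) (by omega)
    have hz₂ : z₂.1 i = U := mkSt_fst.1
    rw [ih z₂ z' (by rw [hz₂]; omega), next_type hμ hf i z z₂ (by rw [hz₂]; omega)]

/-- Eigenvalues above two are carried by constants alone. -/
theorem eigen_const (hμ : 2 < μ) (hf : ∀ z, ∑ i, avg i f (z.1 i) = μ * f z) (z z' : St r c) :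
    f z = f z' := by
  have hg : ∀ i, avg i f (z.1 i) = avg i f (z'.1 i) := fun i => by
    rcases le_total (cnt c (z.1 i)) (cnt c (z'.1 i)) with h | h
    · obtain ⟨d, hd⟩ := Nat.exists_eq_add_of_le h
      exact (const_of_le hμ hf i d z z' hd).symm
    · obtain ⟨d, hd⟩ := Nat.exists_eq_add_of_le h
      exact const_of_le hμ hf i d z' z hd
  have h := hf z
  rw [sum_congr rfl fun i _ => hg i, hf z'] at h
  exact (mul_left_cancel₀ (by linarith) h).symm

end Vale.Agent.P335.Triple
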